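import Crest.Agent.SL.BatchD

/-! The batch lemma `B1`. -/

set_option autoImplicit false

namespace Crest.Agent.SL.Bt

open MeasureTheory ProbabilityTheory Crest.StreamLearn
open scoped ENNReal NNReal RealInnerProductSpace

variable {n d : ℕ} {ρ : Measure (Sphere d)} [IsProbabilityMeasure ρ]

theorem measurable_sel {St : Type} [Fintype St] {α β γ : Type*} [MeasurableSpace α]
    [MeasurableSpace β] [MeasurableSpace γ] {m : α → St} (hm : ∀ s, MeasurableSet {a | m a = s})
    {F : St → β → γ} (hF : ∀ s, Measurable (F s)) {g : α → β} (hg : Measurable g) :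
    Measurable fun a => F (m a) (g a) := by
  intro U hU
  have : (fun a => F (m a) (g a)) ⁻¹' U = ⋃ s, ({a | m a = s} ∩ g ⁻¹' (F s ⁻¹' U)) := by
    ext a; simp
  rw [this]
  exact MeasurableSet.iUnion fun s => (hm s).inter (hg (hF s hU))

theorem EZ0 (h0 : G0) (S : Slicing (n + 1) d ρ)
    (hV : ∫⁻ ws, VV (n + 1) (vecs ws) ∂(Measure.pi fun _ : Fin (n + 1) => ρ) ≠ ⊤)
    {St : Type} [Fintype St] (m : Om n d → St) {J : ℕ} (Y : Mat J d)
    (F : St → Sphere d → ℝ≥0) (hF : ∀ s, Measurable (F s))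
    (P1 : ∀ s, ∀ H : (Fin J → ℝ) → ℝ≥0∞, Measurable H →
      ∫⁻ w, F s w * H (app Y w) ∂ρ ≤ ∫⁻ w, H (app Y w) ∂ρ) :
    ∫⁻ z, (∏ i, ((1 + F (m z) (z.2 i) : ℝ≥0) : ℝ≥0∞)) * ∏ j : Fin n, ((io S z)⁻¹ *
      (npow (n + 1) (delt Y z.2 j) / UU ρ Y z.2 j) * ENNReal.ofReal (del z.2 j) ^ (n + 1)) ∂mu S
      ≤ Fintype.card St * 2 ^ (n + 1) := by
  set H0 : St → (Fin (n + 1) → Sphere d) → ℝ≥0∞ := fun s ws =>
    (∏ i, ((1 + F s (ws i) : ℝ≥0) : ℝ≥0∞)) * ∏ j : Fin n, npow (n + 1) (delt Y ws j) / UU ρ Y ws j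
    with hH0
  set D : (Fin (n + 1) → Sphere d) → ℝ≥0∞ := fun ws =>
    ∏ j : Fin n, ENNReal.ofReal (del ws j) ^ (n + 1) with hD
  have hH0m : ∀ s, Measurable (H0 s) := fun s =>
    (Finset.measurable_prod _ fun i _ =>
      (measurable_const.add ((hF s).comp (measurable_pi_apply i))).coe_nnreal_ennreal).mul
    (Finset.measurable_prod _ fun j _ =>
      ((measurable_npow _).comp (measurable_delt' h0 measurable_const measurable_id j)).div
        (measurable_UU' h0 measurable_const measurable_id j))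
  have hDm : Measurable D := Finset.measurable_prod _ fun j _ =>
    (measurable_del' h0 measurable_id j).ennreal_ofReal.pow_const _
  have hm : ∀ s, Measurable fun z : Om n d => (io S z)⁻¹ ^ n * (H0 s z.2 * D z.2) := fun s =>
    ((measurable_io S).inv.pow_const n).mul (((hH0m s).mul hDm).comp measurable_snd)
  calc _ ≤ ∫⁻ z, ∑ s, (io S z)⁻¹ ^ n * (H0 s z.2 * D z.2) ∂mu S := by
        refine lintegral_mono fun z => ?_
        refine le_trans (le_of_eq ?_) (Finset.single_le_sum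
          (f := fun s => (io S z)⁻¹ ^ n * (H0 s z.2 * D z.2)) (fun _ _ => zero_le)
          (Finset.mem_univ (m z)))
        simp only [hH0, hD, Finset.prod_mul_distrib, Finset.prod_const, Finset.card_univ,
          Fintype.card_fin]
        ring
    _ = ∑ s, ∫⁻ z, (io S z)⁻¹ ^ n * (H0 s z.2 * D z.2) ∂mu S :=
        lintegral_finsetSum _ fun s _ => hm s
    _ ≤ ∑ _s : St, (2 : ℝ≥0∞) ^ (n + 1) := by
        refine Finset.sum_le_sum fun s _ => ?_
        refine (dom_mu S hV (H := fun ws => H0 s ws * D ws) ((hH0m s).mul hDm)).trans ?_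
        refine le_trans (lintegral_mono fun ws => ?_) (EZ0_one h0 Y (F s) (hF s) (P1 s))
        rw [mul_assoc]
        refine mul_le_of_le_one_right' ?_
        simp only [hD, VV, ← Finset.prod_mul_distrib]
        exact Finset.prod_le_one' fun j _ => pow_mul_npow_le _ _
    _ = _ := by simp

theorem EU' (h0 : G0) (g3 : G3) {J : ℕ} (hJ : J = 2 * (n + 1)) (ws : Fin (n + 1) → Sphere d)
    (j : Fin n) :
    ∫⁻ Y, UU ρ Y ws j ∂gam J d
      ≤ ENNReal.ofReal ((1 + 2 ^ (n + 1 + 1) * Real.exp ((J : ℝ) / 2)) / Real.sqrt (J : ℝ) ^ (n + 1))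
        * ∫⁻ w', npow (n + 1) (dl (vecs ws) j.succ (w' : E d)) ∂ρ := by
  subst hJ
  exact EU h0 g3 ws j

theorem core (h0 : G0) (g2 : G2) (g3 : G3) (g4 : G4) (g5 : G5) (s2 : S2)
    (S : Slicing (n + 1) d ρ) (hd : 4 * (n + 1) ≤ d) (hd8 : d ≤ 8 * (n + 1)) {L : ℝ} (hL : 1 ≤ L)
    (hρ : ρ ≤ ENNReal.ofReal L • sphereUniform d) (l0 : ℕ)
    (hl0 : 2 ^ (n + 1 + 1) * (L * (d : ℝ) ^ d) ≤ 2 ^ l0)
    {St : Type} [Fintype St] (τ : Mat (n + 1) d → (Fin (n + 1) → ℝ) → St)
    (hτ : ∀ m, MeasurableSet {p : Mat (n + 1) d × (Fin (n + 1) → ℝ) | τ p.1 p.2 = m})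
    {J : ℕ} (hJ : J = 2 * (n + 1))
    (F : St → Mat J d × Sphere d → ℝ≥0) (hF : ∀ m, Measurable (F m))
    (P1 : ∀ m (Y : Mat J d) (H : (Fin J → ℝ) → ℝ≥0∞), Measurable H →
      ∫⁻ w, F m (Y, w) * H (app Y w) ∂ρ ≤ ∫⁻ w, H (app Y w) ∂ρ)
    (c cb : ℝ) (hc : c = Fintype.card St * 2 ^ (n + 1))
    (hcb : cb = (1 + 2 ^ (n + 1 + 1) * Real.exp ((J : ℝ) / 2)) * (26 ^ (n + 1) * (l0 + 2))) :
    ((n + 1 : ℕ) : ℝ≥0∞) * ∫⁻ Y, ∫⁻ w, ∫⁻ X, ENNReal.ofReal (Real.log (1 + F (τ X (app X w)) (Y, w)))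
      ∂gam (n + 1) d ∂ρ ∂gam J d
    ≤ ENNReal.ofReal (Real.log c) + 1
      + n * (ENNReal.ofReal (((n + 1 : ℕ) : ℝ) / 2) + (ENNReal.ofReal (Real.log cb) + 1)) := by
  have hne : Nonempty St := ⟨τ 0 0⟩
  have hc1 : 1 ≤ c := by
    rw [hc]
    have : (1 : ℝ) ≤ Fintype.card St := by exact_mod_cast Fintype.card_pos
    exact one_le_mul_of_one_le_of_one_le this (one_le_pow₀ (by norm_num))
  have hcb1 : 1 ≤ cb := by
    rw [hcb]
    refine one_le_mul_of_one_le_of_one_le (le_add_of_nonneg_right (by positivity))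
      (one_le_mul_of_one_le_of_one_le (one_le_pow₀ (by norm_num)) ?_)
    have : (0 : ℝ) ≤ l0 := by positivity
    linarith
  have hd2 : 2 * (n + 1) ≤ d := by omega
  have hUAc := UA_le_cA h0 s2 hd2 hL hρ l0 hl0
  have hV := VV_ne_top h0 _ (cA_ne_top n l0) (one_le_cA n l0) hUAc
  set P : Measure (Mat J d × Om n d) := (gam J d).prod (mu S) with hP
  set m : Om n d → St := fun z => τ z.1.1 (app z.1.1 z.1.2) with hm
  have hmm : ∀ s, MeasurableSet {z | m z = s} := fun s =>
    (measurable_Xy.comp measurable_fst) (hτ s)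
  set g : Mat J d × Om n d → Fin (n + 1) → ℝ≥0 := fun q i => 1 + F (m q.2) (q.1, q.2.2 i) with hg
  have hgm : ∀ i, Measurable fun q => g q i := fun i =>
    measurable_const.add (measurable_sel (m := fun q : Mat J d × Om n d => m q.2)
      (fun s => measurable_snd (hmm s)) hF
      (measurable_fst.prodMk ((measurable_pi_apply i).comp (measurable_snd.comp measurable_snd))))
  have hLm : ∀ i, Measurable fun q => ENNReal.ofReal (Real.log (g q i)) := fun i =>
    (Real.measurable_log.comp (hgm i).coe_nnreal_real).ennreal_ofReal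
  have hiom : Measurable fun q : Mat J d × Om n d => io S q.2 := (measurable_io S).comp measurable_snd
  have hUm : ∀ j, Measurable fun q : Mat J d × Om n d => UU ρ q.1 q.2.2 j := fun j =>
    measurable_UU' h0 measurable_fst (measurable_snd.comp measurable_snd) j
  have hdm : ∀ j, Measurable fun q : Mat J d × Om n d => del q.2.2 j := fun j =>
    measurable_del' h0 (measurable_snd.comp measurable_snd) j
  have hdtm : ∀ j, Measurable fun q : Mat J d × Om n d => delt q.1 q.2.2 j := fun j =>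
    measurable_delt' h0 measurable_fst (measurable_snd.comp measurable_snd) j
  set t : Mat J d × Om n d → Fin n → ℝ≥0∞ := fun q j => (io S q.2)⁻¹ *
    (npow (n + 1) (delt q.1 q.2.2 j) / UU ρ q.1 q.2.2 j) * ENNReal.ofReal (del q.2.2 j) ^ (n + 1)
    with ht
  have htm : ∀ j, Measurable fun q => t q j := fun j =>
    (hiom.inv.mul (((measurable_npow _).comp (hdtm j)).div (hUm j))).mul
      ((hdm j).ennreal_ofReal.pow_const _)
  set Za : Mat J d × Om n d → Fin n → ℝ≥0∞ := fun q j =>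
    ENNReal.ofReal (delt q.1 q.2.2 j ^ 2) / ENNReal.ofReal (J * del q.2.2 j ^ 2) with hZa
  have hZam : ∀ j, Measurable fun q => Za q j := fun j =>
    ((hdtm j).pow_const 2).ennreal_ofReal.div (((hdm j).pow_const 2).const_mul _).ennreal_ofReal
  set Zb : Mat J d × Om n d → Fin n → ℝ≥0∞ := fun q j =>
    ENNReal.ofReal (Real.sqrt J ^ (n + 1)) * UU ρ q.1 q.2.2 j * io S q.2 with hZb
  have hZbm : ∀ j, Measurable fun q => Zb q j := fun j => ((hUm j).const_mul _).mul hiom
  set Z0 : Mat J d × Om n d → ℝ≥0∞ := fun q => (∏ i, (g q i : ℝ≥0∞)) * ∏ j, t q j with hZ0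
  have hZ0m : Measurable Z0 :=
    (Finset.measurable_prod _ fun i _ => (hgm i).coe_nnreal_ennreal).mul
      (Finset.measurable_prod _ fun j _ => htm j)
  have hJp : (0 : ℝ) < J := by rw [hJ]; positivity
  -- expectations
  have eL : ∀ i, ∫⁻ Y, ∫⁻ w, ∫⁻ X, ENNReal.ofReal (Real.log (1 + F (τ X (app X w)) (Y, w)))
      ∂gam (n + 1) d ∂ρ ∂gam J d = ∫⁻ q, ENNReal.ofReal (Real.log (g q i)) ∂P := by
    intro i
    rw [hP, lintegral_prod _ (hLm i).aemeasurable]
    refine lintegral_congr fun Y => ?_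
    have hf : Measurable fun p : (Mat (n + 1) d × (Fin (n + 1) → ℝ)) × Sphere d =>
        ENNReal.ofReal (Real.log (1 + F (τ p.1.1 p.1.2) (Y, p.2))) :=
      (Real.measurable_log.comp (measurable_const.add (measurable_sel
        (m := fun p : (Mat (n + 1) d × (Fin (n + 1) → ℝ)) × Sphere d => τ p.1.1 p.1.2)
        (fun s => measurable_fst (hτ s)) hF
        (measurable_const.prodMk measurable_snd)).coe_nnreal_real)).ennreal_ofReal
    have := resample S hf i
    simpa [hg, hm] using this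
  have e0 : ∫⁻ q, Z0 q ∂P ≤ ENNReal.ofReal c := by
    rw [hP, lintegral_prod _ hZ0m.aemeasurable]
    refine (lintegral_mono fun Y => EZ0 h0 S hV m Y (fun s w => F s (Y, w))
      (fun s => (hF s).comp (measurable_const.prodMk measurable_id)) (fun s => P1 s Y)).trans ?_
    rw [lintegral_const, measure_univ, mul_one, hc, ENNReal.ofReal_mul (by positivity),
      ENNReal.ofReal_pow (by norm_num)]
    simp
  have ea : ∀ j, ∫⁻ q, Za q j ∂P ≤ 1 := by
    intro j
    rw [hP, lintegral_prod_symm _ (hZam j).aemeasurable]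
    calc ∫⁻ z, ∫⁻ Y, Za (Y, z) j ∂gam J d ∂mu S ≤ ∫⁻ _, 1 ∂mu S := by
          refine lintegral_mono fun z => ?_
          simp only [hZa]
          exact EZa h0 g2 z.2 j
      _ = 1 := by simp
  set c3 : ℝ := 1 + 2 ^ (n + 1 + 1) * Real.exp ((J : ℝ) / 2) with hc3
  have hc30 : 0 ≤ c3 := by positivity
  have eb : ∀ j, ∫⁻ q, Zb q j ∂P ≤ ENNReal.ofReal cb := by
    intro j
    rw [hP, lintegral_prod_symm _ (hZbm j).aemeasurable]
    calc ∫⁻ z, ∫⁻ Y, Zb (Y, z) j ∂gam J d ∂mu S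
        ≤ ∫⁻ z, ENNReal.ofReal c3 * (io S z * UA ρ z.2 j) ∂mu S := by
          refine lintegral_mono fun z => ?_
          have hm1 : Measurable fun Y : Mat J d => UU ρ Y z.2 j :=
            measurable_UU' h0 measurable_id measurable_const j
          simp only [hZb]
          rw [lintegral_mul_const _ (hm1.const_mul _), lintegral_const_mul _ hm1]
          refine (mul_le_mul_left (mul_le_mul_right (EU' h0 g3 hJ z.2 j) _) _).trans (le_of_eq ?_)
          rw [← mul_assoc, ← ENNReal.ofReal_mul (by positivity), mul_div_cancel₀ _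
            (pow_pos (Real.sqrt_pos.2 hJp) _).ne']
          unfold UA
          ring
      _ ≤ ENNReal.ofReal c3 * ENNReal.ofReal (26 ^ (n + 1) * (l0 + 2)) := by
          rw [lintegral_const_mul' _ _ ENNReal.ofReal_ne_top]
          exact mul_le_mul_right (EZb h0 g4 g5 S (by omega) hd8 l0 j
            fun ws => UA_le h0 s2 hd2 hL hρ l0 hl0 (vecs ws) j) _
      _ = _ := by rw [← ENNReal.ofReal_mul hc30, hcb]
  have aU : ∀ᵐ q ∂P, ∀ j, UU ρ q.1 q.2.2 j < ⊤ := by
    rw [ae_all_iff]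
    intro j
    refine ae_lt_top (hUm j) ?_
    rw [hP, lintegral_prod_symm _ (hUm j).aemeasurable]
    refine ne_top_of_le_ne_top ?_ (lintegral_mono fun z => (EU' h0 g3 hJ z.2 j).trans
      (mul_le_mul_right (hUAc (vecs z.2) j) _))
    rw [lintegral_const, measure_univ, mul_one]
    exact ENNReal.mul_ne_top ENNReal.ofReal_ne_top (cA_ne_top n l0)
  have ai : ∀ᵐ q ∂P, io S q.2 ≠ ⊤ := Measure.quasiMeasurePreserving_snd.ae (ae_io S)
  have ad : ∀ᵐ q ∂P, ∀ j, 0 < del q.2.2 j := Measure.quasiMeasurePreserving_snd.ae (ae_del h0 S hV)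
  set R : Mat J d × Om n d → Fin n → ℝ≥0∞ := fun q j =>
    ENNReal.ofReal (((n + 1 : ℕ) : ℝ) / 2) * Za q j
      + (ENNReal.ofReal (Real.log cb) + Zb q j / ENNReal.ofReal cb) with hR
  have hRm : ∀ j, Measurable fun q => R q j := fun j =>
    ((hZam j).const_mul _).add (measurable_const.add ((hZbm j).div_const _))
  have eR : ∀ j, ∫⁻ q, R q j ∂P
      ≤ ENNReal.ofReal (((n + 1 : ℕ) : ℝ) / 2) + (ENNReal.ofReal (Real.log cb) + 1) := by
    intro j
    simp only [hR, div_eq_mul_inv (Zb _ _)]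
    rw [lintegral_add_left ((hZam j).const_mul _), lintegral_add_left measurable_const,
      lintegral_const_mul _ (hZam j), lintegral_mul_const _ (hZbm j), lintegral_const, measure_univ,
      mul_one]
    refine add_le_add (mul_le_of_le_one_right' (ea j)) (add_le_add_right ?_ _)
    exact (mul_le_mul_left (eb j) _).trans (ENNReal.mul_inv_le_one _)
  calc ((n + 1 : ℕ) : ℝ≥0∞) * ∫⁻ Y, ∫⁻ w, ∫⁻ X,
        ENNReal.ofReal (Real.log (1 + F (τ X (app X w)) (Y, w))) ∂gam (n + 1) d ∂ρ ∂gam J d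
      = ∑ i, ∫⁻ q, ENNReal.ofReal (Real.log (g q i)) ∂P := by
        rw [← Finset.sum_congr rfl fun i _ => eL i]
        simp
    _ = ∫⁻ q, ∑ i, ENNReal.ofReal (Real.log (g q i)) ∂P :=
        (lintegral_finsetSum _ fun i _ => hLm i).symm
    _ ≤ ∫⁻ q, ENNReal.ofReal (Real.log c) + Z0 q / ENNReal.ofReal c + ∑ j, R q j ∂P := by
        refine lintegral_mono_ae ?_
        filter_upwards [aU, ai, ad] with q hU hi hdel
        refine pointwise n (g q) (fun i => le_self_add) (t q) (R q) (fun j => ?_) (fun j hj => ?_) c hc1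
        · refine mul_ne_zero (mul_ne_zero (ENNReal.inv_ne_zero.2 hi)
            (ENNReal.div_ne_zero.2 ⟨npow_ne_zero _ _, (hU j).ne⟩)) (pow_ne_zero _ ?_)
          simpa using hdel j
        · exact per_j (n + 1) (by omega) J cb hJp hcb1 _ _ _ _ hi (UU_ne_zero h0 _ _ j) (hU j).ne
            (hdel j) hj
    _ ≤ _ := by
        simp only [div_eq_mul_inv (Z0 _)]
        rw [lintegral_add_right _ (Finset.measurable_sum _ fun j _ => hRm j),
          lintegral_add_left measurable_const, lintegral_mul_const _ hZ0m, lintegral_const,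
          measure_univ, mul_one, lintegral_finsetSum _ fun j _ => hRm j]
        refine add_le_add (add_le_add_right ?_ _) ?_
        · exact (mul_le_mul_left e0 _).trans (ENNReal.mul_inv_le_one _)
        · refine (Finset.sum_le_sum fun j _ => eR j).trans (le_of_eq ?_)
          rw [Finset.sum_const, Finset.card_univ, Fintype.card_fin, nsmul_eq_mul]

theorem arith (n d l0 N : ℕ) (L : ℝ) (hL : 1 ≤ L) (hN : 1 ≤ N) (hd : 4 * (n + 1) ≤ d)
    (hl0 : (l0 : ℝ) ≤ 2 * Real.log L + 1 + d * d + (n + 2)) :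
    Real.log (N * 2 ^ (n + 1)) + 1 + n * (((n + 1 : ℕ) : ℝ) / 2 + (Real.log
      ((1 + 2 ^ (n + 1 + 1) * Real.exp (((2 * (n + 1) : ℕ) : ℝ) / 2))
        * (26 ^ (n + 1) * (l0 + 2))) + 1))
      ≤ ((n + 1 : ℕ) : ℝ) * (Real.log N / ((n + 1 : ℕ) : ℝ) + 20 * (d + Real.log L / Real.exp d)) := by
  have hk : (0 : ℝ) < ((n + 1 : ℕ) : ℝ) := by positivity
  have hN' : (0 : ℝ) < N := by exact_mod_cast hN
  have hd' : 4 * ((n : ℝ) + 1) ≤ d := by exact_mod_cast hd
  have hn : (0 : ℝ) ≤ n := by positivity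
  have hlogL : 0 ≤ Real.log L := Real.log_nonneg hL
  have hl2 : Real.log 2 ≤ 1 := by have := Real.log_two_lt_d9; linarith
  have hl26 : Real.log 26 ≤ 5 := by
    have : Real.log 26 ≤ Real.log (2 ^ 5) := Real.log_le_log (by norm_num) (by norm_num)
    rw [Real.log_pow] at this; push_cast at this; linarith
  have hed : 0 < Real.exp d := Real.exp_pos _
  have e1 : (((2 * (n + 1) : ℕ) : ℝ) / 2) = n + 1 := by push_cast; ring
  have hc3 : Real.log (1 + 2 ^ (n + 1 + 1) * Real.exp (n + 1)) ≤ 4 * (n + 1) := by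
    have h1 : (1 : ℝ) ≤ 2 ^ (n + 1 + 1) * Real.exp (n + 1) :=
      one_le_mul_of_one_le_of_one_le (one_le_pow₀ (by norm_num)) (Real.one_le_exp (by positivity))
    calc _ ≤ Real.log (2 * (2 ^ (n + 1 + 1) * Real.exp (n + 1))) :=
          Real.log_le_log (by positivity) (by linarith)
      _ = Real.log 2 + ((n + 1 + 1 : ℕ) * Real.log 2 + (n + 1)) := by
          rw [Real.log_mul (by norm_num) (by positivity), Real.log_mul (by positivity) (by positivity),
            Real.log_pow, Real.log_exp]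
      _ ≤ _ := by push_cast; nlinarith
  have hl : Real.log (l0 + 2) ≤ d + 4 + 2 * (Real.log L / Real.exp d) := by
    have h1 := log_le_div (z := (l0 : ℝ) + 2) (c := Real.exp d) (by positivity) hed
    rw [Real.log_exp] at h1
    have h2 : 1 + (d : ℝ) + d ^ 2 / 2 ≤ Real.exp d := by
      have := Real.quadratic_le_exp_of_nonneg (x := (d : ℝ)) (by positivity)
      linarith
    have h3 : ((l0 : ℝ) + 2) / Real.exp d ≤ 4 + 2 * (Real.log L / Real.exp d) := by
      rw [div_le_iff₀ hed, add_mul, mul_assoc, div_mul_cancel₀ _ hed.ne']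
      nlinarith
    linarith
  rw [e1, Real.log_mul hN'.ne' (by positivity), Real.log_mul (by positivity) (by positivity),
    Real.log_mul (by positivity) (by positivity), Real.log_pow, Real.log_pow,
    mul_add ((n + 1 : ℕ) : ℝ), mul_div_cancel₀ _ hk.ne']
  set x := Real.log L / Real.exp d with hx
  have hx0 : 0 ≤ x := by positivity
  set A := Real.log (1 + 2 ^ (n + 1 + 1) * Real.exp (n + 1))
  set B := Real.log ((l0 : ℝ) + 2)
  push_cast
  have h5 : ((n : ℝ) + 1) * Real.log 26 ≤ 5 * (n + 1) := by nlinarith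
  have h6 : (n + 1) / 2 + (A + (((n : ℝ) + 1) * Real.log 26 + B) + 1) ≤ 10 * (d + x) := by
    linarith
  have h7 : (n : ℝ) * ((n + 1) / 2 + (A + (((n : ℝ) + 1) * Real.log 26 + B) + 1))
      ≤ n * (10 * (d + x)) := mul_le_mul_of_nonneg_left h6 hn
  have h8 : ((n : ℝ) + 1) * Real.log 2 ≤ n + 1 := by nlinarith
  have h9 : (0 : ℝ) ≤ n * (d + x) := by positivity
  nlinarith

end Crest.Agent.SL.Bt

namespace Crest.Agent.SL

open MeasureTheory ProbabilityTheory Crest.StreamLearn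
open scoped ENNReal NNReal RealInnerProductSpace

theorem b1 (h0 : G0) (g2 : G2) (g3 : G3) (g4 : G4) (g5 : G5) (s2 : S2) (d1 : D1) : B1 := by
  refine ⟨20, by norm_num, ?_⟩
  intro d k hk hd hd8 ρ hρp L hL hρ St _ τ hτ F hF P1
  obtain ⟨n, rfl⟩ : ∃ n, k = n + 1 := ⟨k - 1, by omega⟩
  obtain ⟨S⟩ := d1 (n + 1) d ρ hρp
  have hne : Nonempty St := ⟨τ 0 0⟩
  have hlogL : 0 ≤ Real.log L := Real.log_nonneg hL
  set l0 : ℕ := ⌈2 * Real.log L⌉₊ + d * d + (n + 2) with hl0
  have h1 : 2 ^ (n + 1 + 1) * (L * (d : ℝ) ^ d) ≤ 2 ^ l0 := by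
    have a1 : L ≤ 2 ^ ⌈2 * Real.log L⌉₊ := by
      have h2 : Real.log L ≤ Real.log (2 ^ ⌈2 * Real.log L⌉₊) := by
        rw [Real.log_pow]
        have := Nat.le_ceil (2 * Real.log L)
        have := Real.log_two_gt_d9
        nlinarith
      exact (Real.log_le_log_iff (by linarith) (by positivity)).1 h2
    have a2 : (d : ℝ) ^ d ≤ 2 ^ (d * d) := by
      rw [pow_mul]
      refine pow_le_pow_left₀ (by positivity) ?_ d
      exact_mod_cast (Nat.lt_two_pow_self).le
    rw [hl0, pow_add _ _ (n + 2), pow_add _ _ (d * d), mul_comm]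
    refine mul_le_mul_of_nonneg_right (mul_le_mul a1 a2 (by positivity) (by positivity))
      (by positivity)
  have h2 : (l0 : ℝ) ≤ 2 * Real.log L + 1 + d * d + (n + 2) := by
    have := (Nat.ceil_lt_add_one (show 0 ≤ 2 * Real.log L by positivity)).le
    rw [hl0]; push_cast; linarith
  have h3 := Bt.core h0 g2 g3 g4 g5 s2 S hd hd8 hL hρ l0 h1 τ hτ rfl F hF P1 _ _ rfl rfl
  have h4 := Bt.arith n d l0 (Fintype.card St) L hL Fintype.card_pos hd h2
  have hc1 : (1 : ℝ) ≤ Fintype.card St * 2 ^ (n + 1) := by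
    have : (1 : ℝ) ≤ Fintype.card St := by exact_mod_cast Fintype.card_pos
    exact one_le_mul_of_one_le_of_one_le this (one_le_pow₀ (by norm_num))
  have hcb1 : (1 : ℝ) ≤ (1 + 2 ^ (n + 1 + 1) * Real.exp (((2 * (n + 1) : ℕ) : ℝ) / 2))
      * (26 ^ (n + 1) * (l0 + 2)) := by
    refine one_le_mul_of_one_le_of_one_le (le_add_of_nonneg_right (by positivity))
      (one_le_mul_of_one_le_of_one_le (one_le_pow₀ (by norm_num)) ?_)
    have : (0 : ℝ) ≤ l0 := by positivity
    linarith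
  have hp1 := Real.log_nonneg hc1
  have hp2 := Real.log_nonneg hcb1
  have h5 := ENNReal.ofReal_le_ofReal h4
  rw [ENNReal.ofReal_add (by positivity) (by positivity), ENNReal.ofReal_add hp1 zero_le_one,
    ENNReal.ofReal_mul (by positivity), ENNReal.ofReal_add (by positivity) (by positivity),
    ENNReal.ofReal_add hp2 zero_le_one, ENNReal.ofReal_mul (p := ((n + 1 : ℕ) : ℝ)) (by positivity),
    ENNReal.ofReal_one, ENNReal.ofReal_natCast, ENNReal.ofReal_natCast] at h5
  exact (ENNReal.mul_le_mul_iff_right (by simp) (by simp)).1 (h3.trans h5)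

end Crest.Agent.SL
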