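import Crest.Agent.SL.Chain3

/-! Job C for S0499: the Fano step and the statement `C1`. -/

set_option autoImplicit false

namespace Crest.Agent.SL.Ch7

open MeasureTheory ProbabilityTheory Crest.StreamLearn Crest.Agent.SL
open scoped ENNReal NNReal RealInnerProductSpace

variable {J d : ℕ}

theorem fano_point (a ah : ℝ≥0∞) (Λ : ℝ≥0) (hΛ : 1 ≤ Λ) (h : a ≤ Λ * ah) (α : ℝ) (hα : 0 < α) :
    a ≤ a * ENNReal.ofReal (Real.log Λ) * ENNReal.ofReal α⁻¹ + ENNReal.ofReal (Real.exp α) * ah := by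
  have hΛ' : (1 : ℝ) ≤ Λ := by exact_mod_cast hΛ
  by_cases hl : Real.log Λ ≤ α
  · refine le_add_left (h.trans ?_)
    gcongr
    rw [← ENNReal.ofReal_coe_nnreal]
    refine ENNReal.ofReal_le_ofReal ?_
    rw [← Real.exp_log (show (0 : ℝ) < Λ by linarith)]
    exact Real.exp_le_exp.2 hl
  · refine le_add_right ?_
    push Not at hl
    rw [mul_assoc, ← ENNReal.ofReal_mul (by linarith)]
    refine le_mul_of_one_le_right' ?_
    rw [ENNReal.one_le_ofReal, ← div_eq_mul_inv, le_div_iff₀ hα]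
    linarith

theorem fano {u : Measure (Sphere d)} [IsProbabilityMeasure u] {St : Type} [Fintype St]
    (σ : Slicing J d u) (lw : St → E d → ℝ≥0∞) (hlw : ∀ w, ∑ m, lw m w = 1)
    (hlm : ∀ m, Measurable fun w : Sphere d => lw m w) (n : ℕ) (R : ℝ)
    (c : Cert σ lw n R) (out : St → E d) (ε α : ℝ) (hα : 0 < α) (s : ℝ≥0∞) (hs0 : s ≠ 0)
    (hst : s ≠ ⊤) :
    ∑ m, ∫⁻ w in {w : Sphere d | ‖(w : E d) - out m‖ ≤ ε}, lw m w ∂u ≤
      ENNReal.ofReal R * ENNReal.ofReal α⁻¹ + ENNReal.ofReal (Real.exp α) *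
        (s * ∫⁻ Y, ∫⁻ w : Sphere d, σ.ι (Y, app Y w) ∂u ∂gam J d +
          s⁻¹ * ∫⁻ Y, ∫⁻ w : Sphere d, (σ.ι (Y, app Y w))⁻¹ * beta σ (2 * ε) (Y, app Y w)
            ∂u ∂gam J d) := by
  let _ := c.fin
  have := σ.markov
  let S : St → Set (Sphere d) := fun m => {w : Sphere d | ‖(w : E d) - out m‖ ≤ ε}
  have hS : ∀ m, MeasurableSet (S m) := fun m => measurableSet_le (by fun_prop) measurable_const
  let I : St → Sphere d → ℝ≥0∞ := fun m => (S m).indicator fun _ => 1
  have hI : ∀ m, Measurable (I m) := fun m => measurable_const.indicator (hS m)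
  have hI1 : ∀ m w, I m w ≤ 1 := fun m w => by
    simp only [I, Set.indicator]; split_ifs <;> simp
  have hsum : ∀ w, ∑ h, c.a h w = 1 := fun w => by
    have := c.a_law w (fun _ => 1)
    simpa [hlw] using this
  have hhat : ∀ p, ∑ h, hat σ (c.a h) p = 1 := fun p => by
    unfold hat
    rw [← lintegral_finsetSum _ fun h _ => c.a_meas h]
    simp [hsum]
  have hY : ∀ Y : Mat J d, Measurable fun w : Sphere d => (Y, w) := fun Y =>
    measurable_const.prodMk measurable_id
  have e1 : ∑ m, ∫⁻ w in S m, lw m w ∂u = ∑ h, ∫⁻ w, c.a h w * I (c.last h) w ∂u := by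
    have h1 : ∀ m, ∫⁻ w in S m, lw m w ∂u = ∫⁻ w : Sphere d, lw m w * I m w ∂u := by
      intro m
      rw [← lintegral_indicator (hS m)]
      refine lintegral_congr fun w => ?_
      simp only [I, Set.indicator]; split_ifs <;> simp
    have h2 : ∀ m, Measurable fun w : Sphere d => lw m w * I m w := fun m => (hlm m).mul (hI m)
    have h3 : ∀ h, Measurable fun w : Sphere d => c.a h w * I (c.last h) w := fun h =>
      (c.a_meas h).mul (hI _)
    simp only [h1]
    rw [← lintegral_finsetSum _ fun m _ => h2 m, ← lintegral_finsetSum _ fun h _ => h3 h]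
    exact lintegral_congr fun w => (c.a_law w (fun m => I m w)).symm
  let A1 : c.H → Mat J d × Sphere d → ℝ≥0∞ := fun h q =>
    c.a h q.2 * ENNReal.ofReal (Real.log (c.Λ h q))
  have hA1 : ∀ h, Measurable (A1 h) := fun h => ((c.a_meas h).comp measurable_snd).mul
    (Real.measurable_log.comp (c.Λ_meas h).coe_nnreal_real).ennreal_ofReal
  let A2 : c.H → Mat J d × Sphere d → ℝ≥0∞ := fun h q =>
    hat σ (c.a h) (q.1, app q.1 q.2) * σ.π (q.1, app q.1 q.2) (S (c.last h))
  have hA2 : ∀ h, Measurable (A2 h) := fun h =>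
    ((hat_meas σ (c.a_meas h)).comp pm_meas).mul ((σ.π.measurable_coe (hS _)).comp pm_meas)
  have e2 : ∀ h (Y : Mat J d), ∫⁻ w, c.a h w * I (c.last h) w ∂u ≤
      (∫⁻ w, A1 h (Y, w) ∂u) * ENNReal.ofReal α⁻¹ +
        ENNReal.ofReal (Real.exp α) * ∫⁻ w, A2 h (Y, w) ∂u := by
    intro h Y
    have hz : Measurable fun z : Fin J → ℝ => hat σ (c.a h) (Y, z) :=
      (hat_meas σ (c.a_meas h)).comp (measurable_const.prodMk measurable_id)
    have h1 : ∫⁻ w, A2 h (Y, w) ∂u =
        ∫⁻ w : Sphere d, I (c.last h) w * hat σ (c.a h) (Y, app Y w) ∂u := by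
      rw [disint' σ Y (hI _) hz]
      refine lintegral_congr fun w => ?_
      simp only [A2]
      rw [mul_comm]
      congr 1
      unfold hat
      simp only [I]
      rw [lintegral_indicator_const (hS _), one_mul]
    have h2 : Measurable fun w : Sphere d => A1 h (Y, w) := (hA1 h).comp (hY Y)
    have h3 : Measurable fun w : Sphere d => I (c.last h) w * hat σ (c.a h) (Y, app Y w) :=
      (hI _).mul (hz.comp (sl_app_meas' Y))
    rw [h1, ← lintegral_mul_const _ h2, ← lintegral_const_mul _ h3,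
      ← lintegral_add_left (h2.mul_const _)]
    refine lintegral_mono_ae ?_
    filter_upwards [c.dom h Y] with w hw
    have h4 := fano_point _ _ _ (c.one_le h (Y, w)) hw α hα
    simp only [I, Set.indicator, A1]
    split_ifs
    · simpa using h4
    · simp
  have e3 : ∀ (Y : Mat J d), ∑ h, ∫⁻ w, A2 h (Y, w) ∂u ≤
      s * ∫⁻ w : Sphere d, σ.ι (Y, app Y w) ∂u +
        s⁻¹ * ∫⁻ w : Sphere d, (σ.ι (Y, app Y w))⁻¹ * beta σ (2 * ε) (Y, app Y w) ∂u := by
    intro Y
    have h2 : ∀ h, Measurable fun w : Sphere d => A2 h (Y, w) := fun h => (hA2 h).comp (hY Y)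
    have h3 : Measurable fun w : Sphere d => σ.ι (Y, app Y w) := σ.ι_meas.comp (pm_meas' Y)
    have h4 : Measurable fun w : Sphere d =>
        (σ.ι (Y, app Y w))⁻¹ * beta σ (2 * ε) (Y, app Y w) :=
      h3.inv.mul ((beta_meas σ _).comp (pm_meas' Y))
    rw [← lintegral_finsetSum _ fun h _ => h2 h, ← lintegral_const_mul _ h3,
      ← lintegral_const_mul _ h4, ← lintegral_add_left (h3.const_mul _)]
    refine lintegral_mono fun w => ?_
    calc ∑ h, A2 h (Y, w) ≤ ∑ h, hat σ (c.a h) (Y, app Y w) * (s * σ.ι (Y, app Y w) +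
          s⁻¹ * ((σ.ι (Y, app Y w))⁻¹ * beta σ (2 * ε) (Y, app Y w))) := by
          refine Finset.sum_le_sum fun h _ => ?_
          exact mul_le_mul_right (amgm _ _ _ _ hs0 hst (cap_sq_le σ (out (c.last h)) ε _)) _
      _ = _ := by rw [← Finset.sum_mul, hhat, one_mul]
  have m1 : ∀ h, Measurable fun Y : Mat J d => ∫⁻ w, A1 h (Y, w) ∂u := fun h =>
    (hA1 h).lintegral_prod_right'
  have m2 : ∀ h, Measurable fun Y : Mat J d => ∫⁻ w, A2 h (Y, w) ∂u := fun h =>
    (hA2 h).lintegral_prod_right'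
  have m3 : Measurable fun Y : Mat J d => ∫⁻ w : Sphere d, σ.ι (Y, app Y w) ∂u :=
    Measurable.lintegral_prod_right' (f := fun q : Mat J d × Sphere d =>
      σ.ι (q.1, app q.1 q.2)) (σ.ι_meas.comp pm_meas)
  have m4 : Measurable fun Y : Mat J d => ∫⁻ w : Sphere d,
      (σ.ι (Y, app Y w))⁻¹ * beta σ (2 * ε) (Y, app Y w) ∂u :=
    Measurable.lintegral_prod_right' (f := fun q : Mat J d × Sphere d =>
      (σ.ι (q.1, app q.1 q.2))⁻¹ * beta σ (2 * ε) (q.1, app q.1 q.2))
      ((σ.ι_meas.comp pm_meas).inv.mul ((beta_meas σ _).comp pm_meas))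
  calc ∑ m, ∫⁻ w in S m, lw m w ∂u = ∑ h, ∫⁻ _Y, ∫⁻ w, c.a h w * I (c.last h) w ∂u ∂gam J d := by
        rw [e1]; simp
    _ ≤ ∑ h, ∫⁻ Y, ((∫⁻ w, A1 h (Y, w) ∂u) * ENNReal.ofReal α⁻¹ +
        ENNReal.ofReal (Real.exp α) * ∫⁻ w, A2 h (Y, w) ∂u) ∂gam J d :=
        Finset.sum_le_sum fun h _ => lintegral_mono fun Y => e2 h Y
    _ = (∑ h, ∫⁻ Y, ∫⁻ w, A1 h (Y, w) ∂u ∂gam J d) * ENNReal.ofReal α⁻¹ +
        ENNReal.ofReal (Real.exp α) * ∫⁻ Y, ∑ h, ∫⁻ w, A2 h (Y, w) ∂u ∂gam J d := by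
        rw [lintegral_finsetSum _ fun h _ => m2 h, Finset.sum_mul, Finset.mul_sum,
          ← Finset.sum_add_distrib]
        refine Finset.sum_congr rfl fun h _ => ?_
        rw [lintegral_add_left ((m1 h).mul_const _), lintegral_mul_const _ (m1 h),
          lintegral_const_mul _ (m2 h)]
    _ ≤ _ := by
        refine add_le_add (mul_le_mul_left c.xi _) (mul_le_mul_right ?_ _)
        refine (lintegral_mono e3).trans (le_of_eq ?_)
        rw [lintegral_add_left (m3.const_mul _), lintegral_const_mul _ m3,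
          lintegral_const_mul _ m4]

theorem law_meas {k : ℕ} {St : Type} [Fintype St] [DecidableEq St]
    (τ : ℕ → St → Mat k d → (Fin k → ℝ) → St)
    (hτ : ∀ t m m', MeasurableSet {p : Mat k d × (Fin k → ℝ) | τ t m p.1 p.2 = m'})
    (m₀ : St) (N : ℕ) : ∀ m, Measurable fun w : Sphere d => law τ m₀ N m w := by
  induction N with
  | zero => intro m; simp only [law]; exact measurable_const
  | succ N ih =>
    intro m
    simp only [law]
    exact Finset.measurable_sum _ fun m' _ => (ih m').mul (step_meas τ hτ N m' m)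

end Crest.Agent.SL.Ch7

namespace Crest.Agent.SL

open MeasureTheory ProbabilityTheory Crest.StreamLearn Ch7
open scoped ENNReal NNReal

/-- job C -/
theorem c1 (hB : B1) (hD : D1) (h4 : G4) (h5 : G5) (h0 : S0) (h1 : S1) : C1 := by
  obtain ⟨C, hC0, hB⟩ := hB
  refine ⟨32 * (C + 1) + 1000, by positivity, ?_⟩
  intro d k hk hk4 hk8 St _ _ τ hτ m₀ N out ε hε0 hε hsucc
  have := h0 d (by omega)
  obtain ⟨σ⟩ := hD (2 * k) d (sphereUniform d) this
  have hBB : BB C d k St (sphereUniform d) := fun ρ hρ L hL hρL τ' hτ' F hF hP =>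
    hB d k hk hk4 hk8 ρ hρ L hL hρL St τ' hτ' F hF hP
  obtain ⟨c⟩ := cert_all τ hτ hC0.le hBB σ m₀ N
  have hcard : (1 : ℝ) ≤ Fintype.card St := by
    have : 0 < Fintype.card St := Fintype.card_pos_iff.2 ⟨m₀⟩
    exact_mod_cast this
  have hl0 : 0 ≤ Real.log (Fintype.card St) := Real.log_nonneg hcard
  set W : ℝ := N * (Real.log (Fintype.card St) / k + d +
    N * Real.log (Fintype.card St) / Real.exp d) with hW
  set R : ℝ := N * (Real.log (Fintype.card St) / k + C * (d +
    N * Real.log (Fintype.card St) / Real.exp d)) with hR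
  have hR0 : 0 ≤ R := by positivity
  have hW0 : 0 ≤ W := by positivity
  have hRW : R ≤ (C + 1) * W := by
    rw [hR, hW]
    have a1 : 0 ≤ Real.log (Fintype.card St) / k := by positivity
    have a2 : 0 ≤ (d : ℝ) + N * Real.log (Fintype.card St) / Real.exp d := by positivity
    have a3 : (0 : ℝ) ≤ N := Nat.cast_nonneg _
    have a4 := mul_nonneg a3 (mul_nonneg hC0.le a1)
    have a5 := mul_nonneg a3 a2
    nlinarith
  set α : ℝ := 4 * R + 1 with hα
  have hα0 : 0 < α := by positivity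
  set A1 : ℝ := 80 ^ d with hA1
  set A2 : ℝ := 6 * 4 ^ d * 2 ^ (2 * k) * (2 * ε) ^ (d - 1 - 2 * k) with hA2
  have hA1p : 0 < A1 := by positivity
  have hA2p : 0 < A2 := by positivity
  set s : ℝ := (5 * A1 * Real.exp α)⁻¹ with hs
  have hsp : 0 < s := by positivity
  have hf := fano σ (law τ m₀ N) (sum_law τ hτ m₀ N) (law_meas τ hτ m₀ N) _ R c out ε α hα0
    (ENNReal.ofReal s) (by simpa using hsp) ENNReal.ofReal_ne_top
  have hkR : (1 : ℝ) ≤ k := by exact_mod_cast hk
  have hk8R : (d : ℝ) ≤ 8 * k := by exact_mod_cast hk8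
  have hk4R : 4 * (k : ℝ) ≤ d := by exact_mod_cast hk4
  have hι : ∫⁻ Y, ∫⁻ w : Sphere d, σ.ι (Y, app Y w) ∂sphereUniform d ∂gam (2 * k) d ≤
      ENNReal.ofReal A1 := by
    refine (mean_iota h4 h5 σ (by omega) (by omega)).trans (ENNReal.ofReal_le_ofReal ?_)
    rw [← mul_pow, ← Real.sqrt_mul (by positivity), pow_mul, Real.sq_sqrt (by positivity)]
    calc (20 / ((2 * k : ℕ) : ℝ) * d) ^ k ≤ 80 ^ k := by
          refine pow_le_pow_left₀ (by positivity) ?_ _
          push_cast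
          rw [div_mul_eq_mul_div, div_le_iff₀ (by positivity)]
          linarith
      _ ≤ 80 ^ d := pow_le_pow_right₀ (by norm_num) (by omega)
  have hβ := mean_beta h0 h1 (J := 2 * k) (by omega) σ (2 * ε) (by positivity) (by linarith)
  have h6 : ENNReal.ofReal (2 / 3) ≤ ENNReal.ofReal (R * α⁻¹ + Real.exp α *
      (s * A1 + s⁻¹ * A2)) := by
    refine hsucc.trans (hf.trans ?_)
    rw [ENNReal.ofReal_add (by positivity) (by positivity), ENNReal.ofReal_mul hR0,
      ENNReal.ofReal_mul (Real.exp_pos α).le, ENNReal.ofReal_add (by positivity) (by positivity),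
      ENNReal.ofReal_mul hsp.le, ENNReal.ofReal_mul (inv_pos.2 hsp).le,
      ENNReal.ofReal_inv_of_pos hsp]
    gcongr
  rw [ENNReal.ofReal_le_ofReal_iff (by positivity)] at h6
  have h7 : R * α⁻¹ ≤ 1 / 4 := by
    rw [← div_eq_mul_inv, div_le_iff₀ hα0]; linarith
  have h8 : Real.exp α * (s * A1 + s⁻¹ * A2) = 1 / 5 + 5 * A1 * A2 * Real.exp α ^ 2 := by
    rw [hs, inv_inv]; field_simp
  have h9 : (1 : ℝ) ≤ 25 * A1 * A2 * Real.exp α ^ 2 := by linarith
  have h10 := Real.log_nonneg h9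
  rw [Real.log_mul (by positivity) (by positivity), Real.log_mul (by positivity) (by positivity),
    Real.log_mul (by positivity) (by positivity), hA1, hA2,
    Real.log_mul (by positivity) (by positivity), Real.log_mul (by positivity) (by positivity),
    Real.log_mul (by positivity) (by positivity)] at h10
  simp only [Real.log_pow, Real.log_exp] at h10
  rw [Real.log_mul (by norm_num) hε0.ne'] at h10
  have l1 : Real.log 25 ≤ 24 := by
    have := Real.log_le_sub_one_of_pos (show (0 : ℝ) < 25 by norm_num); linarith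
  have l2 : Real.log 80 ≤ 79 := by
    have := Real.log_le_sub_one_of_pos (show (0 : ℝ) < 80 by norm_num); linarith
  have l3 : Real.log 6 ≤ 5 := by
    have := Real.log_le_sub_one_of_pos (show (0 : ℝ) < 6 by norm_num); linarith
  have l4 : Real.log 4 ≤ 3 := by
    have := Real.log_le_sub_one_of_pos (show (0 : ℝ) < 4 by norm_num); linarith
  have l5 : Real.log 2 ≤ 1 := by
    have := Real.log_le_sub_one_of_pos (show (0 : ℝ) < 2 by norm_num); linarith
  have l6 : Real.log (1 / ε) = -Real.log ε := by rw [one_div, Real.log_inv]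
  have hlog : 0 < Real.log (1 / ε) := by
    apply Real.log_pos
    rw [lt_div_iff₀ hε0]; linarith
  have he : ((d - 1 - 2 * k : ℕ) : ℝ) = d - 1 - 2 * k := by
    rw [Nat.cast_sub (by omega), Nat.cast_sub (by omega)]; push_cast; ring
  rw [he] at h10
  push_cast at h10
  have hd0 : (0 : ℝ) ≤ d := Nat.cast_nonneg _
  have b1 : (d : ℝ) * Real.log 80 ≤ d * 79 := by gcongr
  have b2 : (d : ℝ) * Real.log 4 ≤ d * 3 := by gcongr
  have b3 : 2 * (k : ℝ) * Real.log 2 ≤ 2 * k * 1 := by gcongr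
  have b4 : ((d : ℝ) - 1 - 2 * k) * Real.log 2 ≤ ((d : ℝ) - 1 - 2 * k) * 1 := by
    gcongr; linarith
  have b5 : (d : ℝ) / 4 * Real.log (1 / ε) ≤ ((d : ℝ) - 1 - 2 * k) * Real.log (1 / ε) := by
    gcongr; linarith
  have b6 : (d : ℝ) / 4 * Real.log (1 / ε) ≤ 8 * R + 100 * d := by
    rw [l6] at b5 ⊢
    nlinarith
  have b7 : 0 ≤ C * d := by positivity
  have b8 : 0 ≤ C * W := by positivity
  nlinarith

end Crest.Agent.SL
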