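import Crest.Agent.SL.Final2

/-! Final assembly for S0499, part 3: derandomization. -/

set_option autoImplicit false

namespace Crest.Agent.SL.Fin7

open MeasureTheory ProbabilityTheory Crest.StreamLearn Crest.Agent.SL
open scoped ENNReal NNReal RealInnerProductSpace

variable {d T M : ℕ}

/-- extended state space -/
abbrev QQ (L : RLearner d T M) : Type := L.St × Option (Fin (T + 1))

/-- one step on the extended state space -/
noncomputable def fL (L : RLearner d T M) (ω : L.Ω) (t : ℕ) (q : QQ L) (x : E d) (y : ℝ) : QQ L :=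
  if h : t < T then
    (if q.2.isSome then q else
      if (L.trans ⟨t, h⟩ ω q.1 x y).2
      then ((L.trans ⟨t, h⟩ ω q.1 x y).1, some ⟨t + 1, by omega⟩)
      else ((L.trans ⟨t, h⟩ ω q.1 x y).1, none))
  else q

/-- initial extended state -/
noncomputable def qL (L : RLearner d T M) (ω : L.Ω) : QQ L :=
  (L.init ω, if L.stopFirst ω then some 0 else none)

/-- forget the bound on the stopping index -/
def emb (L : RLearner d T M) (q : QQ L) : L.St × Option ℕ := (q.1, q.2.map Fin.val)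

/-- output on the extended state space -/
noncomputable def oL (L : RLearner d T M) (ω : L.Ω) (q : QQ L) : E d :=
  L.out ((emb L q).2.getD T) ω (emb L q).1

theorem run_eq (L : RLearner d T M) (ω : L.Ω) (s : E d) (xs : Mat T d) :
    L.run ω s xs = emb L (rn (fL L ω) 0 (qL L ω) T xs (app xs s)) := by
  unfold RLearner.run rn
  have h0 : (L.init ω, if L.stopFirst ω then some 0 else none) = emb L (qL L ω) := by
    unfold emb qL
    by_cases h : L.stopFirst ω <;> simp [h]
  rw [h0]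
  generalize qL L ω = q
  generalize List.finRange T = l
  induction l generalizing q with
  | nil => rfl
  | cons t l ih =>
    simp only [List.foldl_cons]
    rw [← ih]
    congr 1
    unfold fL
    simp only [zero_add, t.isLt, dite_true, Fin.eta, app]
    rcases q with ⟨q1, _ | q2⟩
    · simp only [emb, Option.map_none, Option.isSome_none, Bool.false_eq_true, if_false]
      split_ifs <;> simp
    · simp [emb]

theorem output_eq (L : RLearner d T M) (ω : L.Ω) (s : E d) (xs : Mat T d) :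
    L.output ω s xs = oL L ω (rn (fL L ω) 0 (qL L ω) T xs (app xs s)) := by
  unfold RLearner.output oL
  rw [run_eq]

theorem ms_fL (L : RLearner d T M) (t : ℕ) (q q' : QQ L) :
    @MeasurableSet (L.Ω × (E d × ℝ)) (@Prod.instMeasurableSpace _ _ L.mΩ _)
      {p | fL L p.1 t q p.2.1 p.2.2 = q'} := by
  let _ := L.mΩ
  unfold fL
  by_cases h : t < T
  · simp only [h, dite_true]
    by_cases hq : q.2.isSome
    · simp only [hq, if_true]
      by_cases e : q = q' <;> simp [e]
    · simp only [hq, Bool.false_eq_true, if_false]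
      obtain ⟨m1, m2⟩ := L.trans_measurable ⟨t, h⟩ q.1
      have a1 : MeasurableSet {p : L.Ω × (E d × ℝ) |
          (L.trans ⟨t, h⟩ p.1 q.1 p.2.1 p.2.2).1 = q'.1} :=
        m1 (show @MeasurableSet L.St ⊤ {q'.1} from trivial)
      have a2 : ∀ b, MeasurableSet {p : L.Ω × (E d × ℝ) |
          (L.trans ⟨t, h⟩ p.1 q.1 p.2.1 p.2.2).2 = b} := fun b =>
        m2 (measurableSet_singleton b)
      have a3 : ∀ (P : Prop), MeasurableSet {_p : L.Ω × (E d × ℝ) | P} := fun P => by
        by_cases hP : P <;> simp [hP]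
      have : {p : L.Ω × (E d × ℝ) | (if (L.trans ⟨t, h⟩ p.1 q.1 p.2.1 p.2.2).2 = true
          then ((L.trans ⟨t, h⟩ p.1 q.1 p.2.1 p.2.2).1, some (⟨t + 1, by omega⟩ : Fin (T + 1)))
          else ((L.trans ⟨t, h⟩ p.1 q.1 p.2.1 p.2.2).1, none)) = q'} =
          {p | (L.trans ⟨t, h⟩ p.1 q.1 p.2.1 p.2.2).1 = q'.1} ∩
          (({p | (L.trans ⟨t, h⟩ p.1 q.1 p.2.1 p.2.2).2 = true} ∩
            {_p | some (⟨t + 1, by omega⟩ : Fin (T + 1)) = q'.2}) ∪
           ({p | (L.trans ⟨t, h⟩ p.1 q.1 p.2.1 p.2.2).2 = false} ∩ {_p | none = q'.2})) := by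
        ext p
        simp only [Set.mem_ofPred_eq, Set.mem_inter_iff, Set.mem_union]
        cases hb : (L.trans ⟨t, h⟩ p.1 q.1 p.2.1 p.2.2).2 <;> simp [Prod.ext_iff]
      rw [this]
      exact a1.inter (((a2 true).inter (a3 _)).union ((a2 false).inter (a3 _)))
  · simp only [h, dite_false]
    by_cases e : q = q' <;> simp [e]

theorem ms_qL (L : RLearner d T M) (q' : QQ L) :
    @MeasurableSet L.Ω L.mΩ {ω | qL L ω = q'} := by
  let _ := L.mΩ
  have a1 : MeasurableSet {ω : L.Ω | L.init ω = q'.1} :=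
    L.init_measurable (show @MeasurableSet L.St ⊤ {q'.1} from trivial)
  have a2 : ∀ b, MeasurableSet {ω : L.Ω | L.stopFirst ω = b} := fun b =>
    L.stopFirst_measurable (measurableSet_singleton b)
  have a3 : ∀ (P : Prop), MeasurableSet {_p : L.Ω | P} := fun P => by
    by_cases hP : P <;> simp [hP]
  have : {ω : L.Ω | qL L ω = q'} = {ω | L.init ω = q'.1} ∩
      (({ω | L.stopFirst ω = true} ∩ {_p | some (0 : Fin (T + 1)) = q'.2}) ∪
       ({ω | L.stopFirst ω = false} ∩ {_p | none = q'.2})) := by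
    ext ω
    simp only [qL, Set.mem_ofPred_eq, Set.mem_inter_iff, Set.mem_union]
    cases hb : L.stopFirst ω <;> simp [Prod.ext_iff]
  rw [this]
  exact a1.inter (((a2 true).inter (a3 _)).union ((a2 false).inter (a3 _)))

theorem norm_sub_le_of_arccos {a b : E d} (ha : ‖a‖ = 1) (hb : ‖b‖ = 1) {ε : ℝ}
    (h : Real.arccos ⟪a, b⟫ ≤ ε) : ‖b - a‖ ≤ ε := by
  have h1 : |(⟪a, b⟫ : ℝ)| ≤ 1 := by
    have := abs_real_inner_le_norm a b
    rwa [ha, hb, one_mul] at this
  obtain ⟨h2, h3⟩ := abs_le.1 h1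
  have h4 := Real.cos_arccos h2 h3
  have h5 := Real.one_sub_sq_div_two_le_cos (x := Real.arccos ⟪a, b⟫)
  have h6 := Real.arccos_nonneg (⟪a, b⟫ : ℝ)
  have h7 : ‖b - a‖ ^ 2 = 2 - 2 * ⟪a, b⟫ := by
    rw [norm_sub_sq_real, ha, hb, real_inner_comm]; ring
  have h8 : ‖b - a‖ ^ 2 ≤ ε ^ 2 := by nlinarith
  exact abs_le_of_sq_le_sq' h8 (h6.trans h) |>.2

/-- a good seed -/
theorem exists_seed (h0 : S0) (hd : 1 ≤ d) (L : RLearner d T M) (ε : ℝ)
    (h : 2 / 3 ≤ L.successProb ε) :
    ∃ ω : L.Ω, ENNReal.ofReal (2 / 3) ≤ ∫⁻ w : Sphere d,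
      gam T d {X | ‖(w : E d) - oL L ω (rn (fL L ω) 0 (qL L ω) T X (app X w))‖ ≤ ε}
        ∂sphereUniform d := by
  let _ := L.mΩ
  have := L.prob
  have := h0 d hd
  let _ := L.fin
  let S : Set (Sphere d × (L.Ω × Mat T d)) := {p | ‖(p.1 : E d) -
    oL L p.2.1 (rn (fL L p.2.1) 0 (qL L p.2.1) T p.2.2 (app p.2.2 p.1))‖ ≤ ε}
  have hrun : ∀ q', MeasurableSet {p : Sphere d × (L.Ω × Mat T d) |
      rn (fL L p.2.1) 0 (qL L p.2.1) T p.2.2 (app p.2.2 p.1) = q'} := by
    unfold rn
    refine ms_fold (List.finRange T) (fun t q (p : Sphere d × (L.Ω × Mat T d)) =>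
      fL L p.2.1 (0 + t.val) q (p.2.2 t) (app p.2.2 p.1 t)) ?_ (fun p => qL L p.2.1) ?_
    · intro t q q''
      have hm : Measurable fun p : Sphere d × (L.Ω × Mat T d) =>
          (p.2.1, (p.2.2 t, app p.2.2 p.1 t)) := by
        refine Measurable.prodMk (by fun_prop) (Measurable.prodMk (by fun_prop) ?_)
        unfold app
        exact Measurable.inner (by fun_prop) (by fun_prop)
      exact hm (ms_fL L (0 + t.val) q q'')
    · intro q''
      have hm : Measurable fun p : Sphere d × (L.Ω × Mat T d) => p.2.1 := by fun_prop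
      exact hm (ms_qL L q'')
  have hS : MeasurableSet S := by
    have : S = ⋃ m, ({p : Sphere d × (L.Ω × Mat T d) |
        rn (fL L p.2.1) 0 (qL L p.2.1) T p.2.2 (app p.2.2 p.1) = m} ∩
        {p : Sphere d × (L.Ω × Mat T d) | ‖(p.1 : E d) - oL L p.2.1 m‖ ≤ ε}) := by
      ext p
      simp only [S, Set.mem_ofPred_eq, Set.mem_iUnion, Set.mem_inter_iff]
      constructor
      · intro h; exact ⟨_, rfl, h⟩
      · rintro ⟨q, h1, h2⟩; rw [h1]; exact h2
    rw [this]
    refine MeasurableSet.iUnion fun m => MeasurableSet.inter (hrun m) ?_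
    have hm : Measurable fun p : Sphere d × (L.Ω × Mat T d) => oL L p.2.1 m :=
      (L.out_measurable _ _).comp (by fun_prop)
    exact measurableSet_le (Measurable.norm (Measurable.sub (by fun_prop) hm)) measurable_const
  have h1 : ENNReal.ofReal (2 / 3) ≤ ((sphereUniform d).prod (L.ρ.prod (gam T d))) S := by
    unfold RLearner.successProb at h
    refine (ENNReal.ofReal_le_of_le_toReal h).trans (measure_mono ?_)
    intro p hp
    simp only [Set.mem_ofPred_eq, output_eq] at hp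
    exact norm_sub_le_of_arccos (L.out_unit _ _ _) (by simp) hp
  let g : Sphere d → L.Ω → ℝ≥0∞ := fun w ω =>
    gam T d {X | ‖(w : E d) - oL L ω (rn (fL L ω) 0 (qL L ω) T X (app X w))‖ ≤ ε}
  have hg : Measurable (Function.uncurry g) := by
    have hm : Measurable fun p : (Sphere d × L.Ω) × Mat T d => (p.1.1, (p.1.2, p.2)) := by
      fun_prop
    exact measurable_measure_prodMk_left (ν := gam T d) (hm hS)
  have h2 : ((sphereUniform d).prod (L.ρ.prod (gam T d))) S =
      ∫⁻ ω, ∫⁻ w, g w ω ∂sphereUniform d ∂L.ρ := by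
    rw [Measure.prod_apply hS, ← lintegral_lintegral_swap hg.aemeasurable]
    refine lintegral_congr fun w => ?_
    have hm : MeasurableSet (Prod.mk w ⁻¹' S) := measurable_prodMk_left hS
    rw [Measure.prod_apply hm]
    rfl
  have h3 : ∫⁻ ω, ∫⁻ w, g w ω ∂sphereUniform d ∂L.ρ ≠ ∞ := by
    rw [← h2]; exact measure_ne_top _ _
  obtain ⟨ω, hω⟩ := exists_lintegral_le h3
  exact ⟨ω, h1.trans (h2.le.trans hω)⟩

/-- the final statement from the jobs -/
theorem final (hC : C1) (h0 : S0) (h1 : S1) (h3 : S3) :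
    ∀ A : ℝ, 0 < A → ∃ c : ℝ, 0 < c ∧ ∃ d₀ : ℕ, ∀ d ≥ d₀, ∀ (M T : ℕ),
      (M : ℝ) ≤ A * (d : ℝ) ^ 2 → ∀ ε : ℝ, 0 < ε → ε ≤ 1 / 10 →
        ∀ L : Crest.StreamLearn.RLearner d T M,
          2 / 3 ≤ L.successProb ε → c * d * Real.log (1 / ε) ≤ T := by
  intro A hA
  obtain ⟨c, hc0, hc⟩ := det_bound hC h0 h1 h3 A hA
  refine ⟨c, hc0, 4, fun d hd M T hM ε hε0 hε L hL => ?_⟩
  obtain ⟨ω, hω⟩ := exists_seed h0 (by omega) L ε hL
  let _ := L.fin
  let _ := L.mΩ
  refine hc d hd M T hM ε hε0 hε (QQ L) ?_ (fL L ω) ?_ ?_ (qL L ω) (oL L ω) hω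
  · rw [Fintype.card_prod, Fintype.card_option, Fintype.card_fin]
    exact Nat.mul_le_mul_right _ L.card_le
  · intro t q q'
    have hm : Measurable fun p : E d × ℝ => (ω, p) := by fun_prop
    exact hm (ms_fL L t q q')
  · intro t ht q x y
    unfold fL
    rw [dif_neg (by omega)]

end Crest.Agent.SL.Fin7
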