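import Mathlib
import Crest.Prelude.Def_StreamLearn

/-! Shared definitions and job statements for S0499 (memory-sample lower bound). -/

set_option autoImplicit false

namespace Crest.Agent.SL

open MeasureTheory ProbabilityTheory Crest.StreamLearn
open scoped ENNReal NNReal RealInnerProductSpace

/-- `k` sample vectors of `ℝ^d` (rows of a `k × d` matrix). -/
abbrev Mat (k d : ℕ) := Fin k → E d

/-- the law of `k` independent standard Gaussian rows -/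
noncomputable def gam (k d : ℕ) : Measure (Mat k d) :=
  Measure.pi fun _ : Fin k => stdGaussian (E d)

instance (k d : ℕ) : IsProbabilityMeasure (gam k d) := by unfold gam; infer_instance

/-- the measurements `X v`, in `Fin k → ℝ` (sup norm) -/
noncomputable def app {k d : ℕ} (X : Mat k d) (v : E d) : Fin k → ℝ := fun i => ⟪X i, v⟫

/-- the measurements `X v`, in Euclidean space -/
noncomputable def appE {k d : ℕ} (X : Mat k d) (v : E d) : E k := WithLp.toLp 2 (app X v)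

/-- distance from `v` to the linear span of `U` -/
noncomputable def sd {m : ℕ} (v : E m) (U : Set (E m)) : ℝ :=
  Metric.infDist v (Submodule.span ℝ U : Set (E m))

/-- distance from `v` to the affine span of the points `w i`, `i < j` (and `w 0`) -/
noncomputable def dl {m n : ℕ} (w : Fin (n + 1) → E m) (j : Fin (n + 1)) (v : E m) : ℝ :=
  sd (v - w 0) ((fun i => w i - w 0) '' Set.Iio j)

/-- `x ↦ x^{-k}` in `ℝ≥0∞` (so `0 ↦ ∞` when `k ≥ 1`) -/
noncomputable def npow (k : ℕ) (x : ℝ) : ℝ≥0∞ := (ENNReal.ofReal x)⁻¹ ^ k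

/-- the weight `∏_{j ≥ 1} dist(w_j, aff(w_0..w_{j-1}))^{-k}` -/
noncomputable def VV (k : ℕ) {m n : ℕ} (w : Fin (n + 1) → E m) : ℝ≥0∞ :=
  ∏ j : Fin n, npow k (dl w j.succ (w j.succ))

/-- tuple of sphere points as vectors -/
def vecs {d n : ℕ} (w : Fin n → Sphere d) : Fin n → E d := fun i => (w i : E d)

/-! ### Job G (Gaussian lemmas) -/

/-- measurability of `dl` -/
def G0 : Prop := ∀ (m n : ℕ) (j : Fin (n + 1)),
  Measurable fun p : (Fin (n + 1) → E m) × E m => dl p.1 j p.2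

/-- slab probability -/
def G1 : Prop := ∀ (k d n : ℕ) (w : Fin (n + 1) → E d) (r : ℝ), 0 < r →
  gam k d {X | ∀ j : Fin n, ‖app X (w j.succ) - app X (w 0)‖ ≤ r}
    ≤ (ENNReal.ofReal (2 * r)) ^ (k * n) * VV k w

/-- second moment of the projected distance -/
def G2 : Prop := ∀ (J d : ℕ) (v : E d) (U : Set (E d)),
  ∫⁻ X, ENNReal.ofReal (sd (appE X v) (appE X '' U) ^ 2) ∂gam J d
    ≤ ENNReal.ofReal (J * sd v U ^ 2)

/-- negative moment of the projected distance -/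
def G3 : Prop := ∀ (J d k r : ℕ) (v : E d) (U : Set (E d)),
  Module.finrank ℝ (Submodule.span ℝ U) ≤ r → r + k + 1 ≤ J →
  ∫⁻ X, npow k (sd (appE X v) (appE X '' U)) ∂gam J d
    ≤ ENNReal.ofReal ((1 + 2 ^ (k + 1) * Real.exp (J / 2)) / Real.sqrt J ^ k) * npow k (sd v U)

/-- volume of the image of a ball -/
def G4 : Prop := ∀ (k d : ℕ) (X : Mat k d) (h : ℝ), 1 ≤ k → k ≤ d → 0 ≤ h →
  volume (app X '' Metric.closedBall 0 h)
    ≤ ENNReal.ofReal ((h * Real.sqrt (20 / k)) ^ k * ∏ i, ‖X i‖)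

/-- mean of the product of the row norms -/
def G5 : Prop := ∀ (k d : ℕ),
  ∫⁻ X, ENNReal.ofReal (∏ i, ‖X i‖) ∂gam k d ≤ ENNReal.ofReal (Real.sqrt d ^ k)

/-! ### Job S (sphere lemmas) -/

/-- `sphereUniform` is a probability measure -/
def S0 : Prop := ∀ d : ℕ, 1 ≤ d → IsProbabilityMeasure (sphereUniform d)

/-- ball bound -/
def S1 : Prop := ∀ (d : ℕ) (v : E d) (r : ℝ), 1 ≤ d → 0 < r → r ≤ 1 →
  sphereUniform d {w : Sphere d | ‖(w : E d) - v‖ ≤ r} ≤ ENNReal.ofReal (3 * 4 ^ d * r ^ (d - 1))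

/-- crude tube bound -/
def S2 : Prop := ∀ (d k r : ℕ) (U : Set (E d)) (h : ℝ), 1 ≤ d →
  Module.finrank ℝ (Submodule.span ℝ U) ≤ r → r + k ≤ d → 0 ≤ h →
  sphereUniform d {w : Sphere d | sd (w : E d) U ≤ h} ≤ ENNReal.ofReal ((d : ℝ) ^ d * h ^ k)

/-- few samples: no recovery, whatever the memory -/
def S3 : Prop := ∀ (d T : ℕ) (X : Mat T d) (φ : (Fin T → ℝ) → E d), 1 ≤ d → 4 * T ≤ d →
  MeasurableSet {w : Sphere d | ‖(w : E d) - φ (app X w)‖ ≤ 1 / 10} →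
  sphereUniform d {w : Sphere d | ‖(w : E d) - φ (app X w)‖ ≤ 1 / 10} ≤ ENNReal.ofReal (13 / 20)

/-! ### Job D (slicing) -/

/-- Disintegration of `ρ` along the measurements `X w`, the inverse density `ι` of the law of
`X w`, and the domination inequality. -/
structure Slicing (k d : ℕ) (ρ : Measure (Sphere d)) where
  π : Kernel (Mat k d × (Fin k → ℝ)) (Sphere d)
  markov : IsMarkovKernel π
  ι : Mat k d × (Fin k → ℝ) → ℝ≥0∞
  ι_meas : Measurable ι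
  disint : ∀ (X : Mat k d) (f : (Fin k → ℝ) × Sphere d → ℝ≥0∞), Measurable f →
    ∫⁻ w, ∫⁻ w', f (app X w, w') ∂π (X, app X w) ∂ρ = ∫⁻ w, f (app X w, w) ∂ρ
  ι_le : ∀ (X : Mat k d) (f : (Fin k → ℝ) → ℝ≥0∞), Measurable f →
    ∫⁻ w, ι (X, app X w) * f (app X w) ∂ρ ≤ ∫⁻ y, f y
  ι_lt_top : ∀ X : Mat k d, ∀ᵐ (w : Sphere d) ∂ρ, ι (X, app X (w : E d)) < ⊤
  pi_meas : ∀ n : ℕ, Measurable fun p : Mat k d × (Fin k → ℝ) =>
    Measure.pi fun _ : Fin n => π p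
  dom : ∀ (n : ℕ) (H : (Fin (n + 1) → Sphere d) → ℝ≥0∞), Measurable H →
    ∫⁻ ws, VV k (vecs ws) ∂(Measure.pi fun _ : Fin (n + 1) => ρ) ≠ ⊤ →
    ∫⁻ X, ∫⁻ w, ∫⁻ ws, (ι (X, app X w))⁻¹ ^ n * H ws
        ∂(Measure.pi fun _ : Fin (n + 1) => π (X, app X w)) ∂ρ ∂gam k d
      ≤ ∫⁻ ws, H ws * VV k (vecs ws) ∂(Measure.pi fun _ : Fin (n + 1) => ρ)

/-- existence of slicings -/
def D1 : Prop := ∀ (k d : ℕ) (ρ : Measure (Sphere d)), IsProbabilityMeasure ρ →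
  Nonempty (Slicing k d ρ)

/-! ### Job B (batch lemma) -/

def B1 : Prop := ∃ C : ℝ, 0 < C ∧ ∀ (d k : ℕ), 1 ≤ k → 4 * k ≤ d → d ≤ 8 * k →
  ∀ (ρ : Measure (Sphere d)), IsProbabilityMeasure ρ → ∀ L : ℝ, 1 ≤ L →
  ρ ≤ ENNReal.ofReal L • sphereUniform d →
  ∀ (St : Type) [Fintype St] (τ : Mat k d → (Fin k → ℝ) → St),
  (∀ m, MeasurableSet {p : Mat k d × (Fin k → ℝ) | τ p.1 p.2 = m}) →
  ∀ F : St → Mat (2 * k) d × Sphere d → ℝ≥0, (∀ m, Measurable (F m)) →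
  (∀ m (Y : Mat (2 * k) d) (H : (Fin (2 * k) → ℝ) → ℝ≥0∞), Measurable H →
    ∫⁻ w, F m (Y, w) * H (app Y w) ∂ρ ≤ ∫⁻ w, H (app Y w) ∂ρ) →
  ∫⁻ Y, ∫⁻ w, ∫⁻ X, ENNReal.ofReal (Real.log (1 + F (τ X (app X w)) (Y, w)))
      ∂gam k d ∂ρ ∂gam (2 * k) d
    ≤ ENNReal.ofReal (Real.log (Fintype.card St) / k + C * (d + Real.log L / Real.exp d))

/-! ### Job C (chain of batches and the Fano step) -/

/-- probability, given the signal `w`, that batch `t` moves the state from `m` to `m'` -/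
noncomputable def step {k d : ℕ} {St : Type} (τ : ℕ → St → Mat k d → (Fin k → ℝ) → St)
    (t : ℕ) (m m' : St) (w : E d) : ℝ≥0∞ :=
  gam k d {X | τ t m X (app X w) = m'}

/-- law of the state after `N` batches, given the signal `w` -/
noncomputable def law {k d : ℕ} {St : Type} [Fintype St] [DecidableEq St]
    (τ : ℕ → St → Mat k d → (Fin k → ℝ) → St) (m₀ : St) : ℕ → St → E d → ℝ≥0∞
  | 0, m', _ => if m' = m₀ then 1 else 0
  | N + 1, m', w => ∑ m, law τ m₀ N m w * step τ N m m' w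

def C1 : Prop := ∃ C : ℝ, 0 < C ∧ ∀ (d k : ℕ), 1 ≤ k → 4 * k ≤ d → d ≤ 8 * k →
  ∀ (St : Type) [Fintype St] [DecidableEq St] (τ : ℕ → St → Mat k d → (Fin k → ℝ) → St),
  (∀ t m m', MeasurableSet {p : Mat k d × (Fin k → ℝ) | τ t m p.1 p.2 = m'}) →
  ∀ (m₀ : St) (N : ℕ) (out : St → E d) (ε : ℝ), 0 < ε → ε ≤ 1 / 10 →
  ENNReal.ofReal (2 / 3) ≤
    ∑ m, ∫⁻ w in {w : Sphere d | ‖(w : E d) - out m‖ ≤ ε}, law τ m₀ N m w ∂sphereUniform d →
  d * Real.log (1 / ε) ≤ C * (d + N * (Real.log (Fintype.card St) / k + d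
    + N * Real.log (Fintype.card St) / Real.exp d))

end Crest.Agent.SL
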