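import Mathlib
import Crest.Agent.SL.Defs

/-! Core Gaussian lemmas for row 322: resampling identity and the product bound. -/

set_option autoImplicit false
set_option linter.unusedSectionVars false

namespace Crest.Agent.SL

open MeasureTheory ProbabilityTheory Crest.StreamLearn
open scoped ENNReal NNReal RealInnerProductSpace

/-- Tonelli for finite products. -/
theorem lintegral_fin_prod {n : ℕ} {A : Type*} [MeasurableSpace A] (μ : Measure A)
    [SigmaFinite μ] (f : Fin n → A → ℝ≥0∞) (hf : ∀ i, Measurable (f i)) :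
    ∫⁻ x : Fin n → A, ∏ i, f i (x i) ∂(Measure.pi fun _ => μ) = ∏ i, ∫⁻ x, f i x ∂μ := by
  induction n with
  | zero => simp
  | succ n ih =>
    have h1 := ((measurePreserving_piFinSuccAbove (fun _ : Fin (n + 1) => μ) 0).symm)
    rw [← h1.lintegral_comp_emb (MeasurableEquiv.measurableEmbedding _)]
    have h2 : ∀ a : A × (Fin n → A),
        ∏ i, f i ((MeasurableEquiv.piFinSuccAbove (fun _ : Fin (n + 1) => A) 0).symm a i)
          = f 0 a.1 * ∏ i : Fin n, f i.succ (a.2 i) := by
      intro a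
      simp [MeasurableEquiv.piFinSuccAbove_symm_apply, Fin.insertNthEquiv, Fin.prod_univ_succ]
    simp_rw [h2, Fin.prod_univ_succ]
    rw [lintegral_prod_mul (f := f 0) (g := fun y : Fin n → A => ∏ i, f i.succ (y i))
      (hf 0).aemeasurable, ih _ (fun i => hf _)]
    exact (Finset.measurable_prod _ fun i _ => (hf _).comp (measurable_pi_apply i)).aemeasurable

section
variable {V : Type*} [NormedAddCommGroup V] [InnerProductSpace ℝ V] [FiniteDimensional ℝ V]
  [MeasurableSpace V] [BorelSpace V]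

/-- resampling along a unit vector -/
noncomputable def resamp (e : V) (p : V × ℝ) : V := p.1 - ⟪p.1, e⟫ • e + p.2 • e

theorem measurable_resamp (e : V) : Measurable (resamp e) := by
  have : Continuous (resamp e) := by unfold resamp; fun_prop
  exact this.measurable

theorem inner_resamp (e : V) (p : V × ℝ) (t : V) :
    ⟪resamp e p, t⟫ = ⟪p.1, t - ⟪e, t⟫ • e⟫ + p.2 * ⟪e, t⟫ := by
  simp only [resamp, inner_add_left, inner_sub_left, inner_sub_right, real_inner_smul_left,
    real_inner_smul_right]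
  ring

theorem map_resamp (e : V) (he : ‖e‖ = 1) :
    ((stdGaussian V).prod (gaussianReal 0 1)).map (resamp e) = stdGaussian V := by
  have : IsProbabilityMeasure (((stdGaussian V).prod (gaussianReal 0 1)).map (resamp e)) :=
    Measure.isProbabilityMeasure_map (measurable_resamp e).aemeasurable
  apply Measure.ext_of_charFun
  ext t
  rw [charFun_apply, integral_map (measurable_resamp e).aemeasurable
    (Measurable.aestronglyMeasurable (by fun_prop))]
  simp_rw [inner_resamp, Complex.ofReal_add, add_mul, Complex.exp_add]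
  rw [integral_prod_mul (f := fun x : V => Complex.exp ((⟪x, t - ⟪e, t⟫ • e⟫ : ℝ) * Complex.I))
    (g := fun s : ℝ => Complex.exp (((s * ⟪e, t⟫ : ℝ)) * Complex.I)), ← charFun_apply,
    charFun_stdGaussian, charFun_stdGaussian]
  have h2 : ∫ s : ℝ, Complex.exp (((s * ⟪e, t⟫ : ℝ)) * Complex.I) ∂gaussianReal 0 1
      = Complex.exp (-((⟪e, t⟫ : ℝ) : ℂ) ^ 2 / 2) := by
    have := charFun_gaussianReal (μ := 0) (v := 1) ⟪e, t⟫
    rw [charFun_apply_real] at this
    simp only [Complex.ofReal_zero, mul_zero, zero_mul, NNReal.coe_one, Complex.ofReal_one,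
      one_mul, zero_sub] at this
    rw [neg_div, ← this]
    congr 1
    ext s
    push_cast
    ring_nf
  rw [h2, ← Complex.exp_add]
  congr 1
  have h3 : ‖t - ⟪e, t⟫ • e‖ ^ 2 = ‖t‖ ^ 2 - ⟪e, t⟫ ^ 2 := by
    rw [norm_sub_sq_real, norm_smul, he, real_inner_smul_right, real_inner_comm e t,
      Real.norm_eq_abs, mul_one, sq_abs]
    ring
  have h4 : ((‖t - ⟪e, t⟫ • e‖ : ℝ) : ℂ) ^ 2 = ((‖t‖ : ℝ) : ℂ) ^ 2 - ((⟪e, t⟫ : ℝ) : ℂ) ^ 2 := by
    exact_mod_cast h3
  rw [h4]
  ring

theorem measurePreserving_resamp (e : V) (he : ‖e‖ = 1) :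
    MeasurePreserving (resamp e) ((stdGaussian V).prod (gaussianReal 0 1)) (stdGaussian V) :=
  ⟨measurable_resamp e, map_resamp e he⟩

end

/-- one-dimensional density bound -/
theorem lintegral_gauss_affine_le (f : ℝ → ℝ≥0∞) (hf : Measurable f) (c δ : ℝ) (hδ : 0 < δ) :
    ∫⁻ t, f (c + δ * t) ∂gaussianReal 0 1
      ≤ ENNReal.ofReal ((Real.sqrt (2 * Real.pi) * δ)⁻¹) * ∫⁻ u, f u := by
  have h1 : ∫⁻ t, f (c + δ * t) = ENNReal.ofReal δ⁻¹ * ∫⁻ u, f u := by
    have h2 : ∫⁻ t, f (c + δ * t) = ∫⁻ s, f (c + s) ∂(Measure.map (fun t => δ * t) volume) := by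
      rw [lintegral_map (f := fun s => f (c + s)) (by fun_prop) (by fun_prop)]
    rw [h2, Real.map_volume_mul_left hδ.ne', lintegral_smul_measure, lintegral_add_left_eq_self,
      abs_of_pos (inv_pos.2 hδ), smul_eq_mul]
  rw [gaussianReal_of_var_ne_zero 0 one_ne_zero,
    lintegral_withDensity_eq_lintegral_mul _ (measurable_gaussianPDF 0 1) (by fun_prop)]
  calc ∫⁻ a, (gaussianPDF 0 1 * fun t => f (c + δ * t)) a
      ≤ ∫⁻ a, ENNReal.ofReal (Real.sqrt (2 * Real.pi))⁻¹ * f (c + δ * a) := by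
        refine lintegral_mono fun a => ?_
        simp only [Pi.mul_apply]
        gcongr
        rw [gaussianPDF]
        apply ENNReal.ofReal_le_ofReal
        rw [gaussianPDFReal]
        simp only [NNReal.coe_one, mul_one, sub_zero]
        have : Real.exp (-a ^ 2 / 2) ≤ 1 := by
          rw [Real.exp_le_one_iff]
          have := sq_nonneg a
          linarith
        calc _ ≤ (Real.sqrt (2 * Real.pi))⁻¹ * 1 := by gcongr
          _ = _ := mul_one _
    _ = _ := by
        rw [lintegral_const_mul _ (by fun_prop), h1, ← mul_assoc, ← ENNReal.ofReal_mul (by positivity),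
          mul_inv]

section
variable {V : Type*} [NormedAddCommGroup V] [InnerProductSpace ℝ V] [FiniteDimensional ℝ V]
  [MeasurableSpace V] [BorelSpace V]

/-- The product bound `G*`. -/
theorem gstar (n : ℕ) (D e : Fin n → V) (δ : Fin n → ℝ) (hδ : ∀ j, 0 < δ j)
    (he : ∀ j, ‖e j‖ = 1) (hD : ∀ j, ⟪e j, D j⟫ = δ j) (hlt : ∀ i j, i < j → ⟪e j, D i⟫ = 0)
    (f : Fin n → ℝ → ℝ≥0∞) (hf : ∀ j, Measurable (f j)) :
    ∫⁻ x, ∏ j, f j ⟪x, D j⟫ ∂stdGaussian V
      ≤ ∏ j, (ENNReal.ofReal ((Real.sqrt (2 * Real.pi) * δ j)⁻¹) * ∫⁻ u, f j u) := by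
  induction n with
  | zero => simp
  | succ n ih =>
    have hm : Measurable fun x : V => ∏ j, f j ⟪x, D j⟫ :=
      Finset.measurable_prod _ fun j _ => (hf j).comp (by fun_prop)
    rw [← (measurePreserving_resamp (e (Fin.last n)) (he _)).lintegral_comp hm]
    refine (lintegral_prod_le _).trans ?_
    simp_rw [Fin.prod_univ_castSucc, inner_resamp]
    have h0 : ∀ j : Fin n, ⟪e (Fin.last n), D j.castSucc⟫ = 0 := fun j =>
      hlt _ _ (Fin.castSucc_lt_last j)
    simp only [h0, zero_smul, sub_zero, mul_zero, add_zero, hD]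
    calc ∫⁻ x, ∫⁻ y, (∏ j : Fin n, f j.castSucc ⟪x, D j.castSucc⟫) *
          f (Fin.last n) (⟪x, D (Fin.last n) - δ (Fin.last n) • e (Fin.last n)⟫
            + y * δ (Fin.last n)) ∂gaussianReal 0 1 ∂stdGaussian V
        ≤ ∫⁻ x, (∏ j : Fin n, f j.castSucc ⟪x, D j.castSucc⟫) *
          (ENNReal.ofReal ((Real.sqrt (2 * Real.pi) * δ (Fin.last n))⁻¹) *
            ∫⁻ u, f (Fin.last n) u) ∂stdGaussian V := by
          refine lintegral_mono fun x => ?_
          have hm1 : Measurable fun y : ℝ => f (Fin.last n)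
              (⟪x, D (Fin.last n) - δ (Fin.last n) • e (Fin.last n)⟫ + y * δ (Fin.last n)) :=
            (hf _).comp (by fun_prop)
          rw [lintegral_const_mul _ hm1]
          gcongr
          have := lintegral_gauss_affine_le _ (hf (Fin.last n))
            ⟪x, D (Fin.last n) - δ (Fin.last n) • e (Fin.last n)⟫ _ (hδ (Fin.last n))
          simpa only [mul_comm (δ (Fin.last n))] using this
      _ ≤ _ := by
          have hm2 : Measurable fun x : V => ∏ j : Fin n, f j.castSucc ⟪x, D j.castSucc⟫ :=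
            Finset.measurable_prod _ fun j _ => (hf _).comp (by fun_prop)
          rw [lintegral_mul_const _ hm2]
          gcongr
          exact ih (fun j => D j.castSucc) (fun j => e j.castSucc) (fun j => δ j.castSucc)
            (fun j => hδ _) (fun j => he _) (fun j => hD _)
            (fun i j hij => hlt _ _ (Fin.castSucc_lt_castSucc_iff.2 hij)) _ (fun j => hf _)

/-- second moment of a linear functional -/
theorem lintegral_inner_sq (z : V) :
    ∫⁻ x, ENNReal.ofReal (⟪x, z⟫ ^ 2) ∂stdGaussian V = ENNReal.ofReal (‖z‖ ^ 2) := by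
  have h1 := variance_dual_stdGaussian (innerSL ℝ z)
  have hm : MemLp (innerSL ℝ z) 2 (stdGaussian V) := IsGaussian.memLp_dual _ _ _ (by simp)
  rw [variance_eq_sub hm, integral_strongDual_stdGaussian, innerSL_apply_norm] at h1
  rw [← h1, ← ofReal_integral_eq_lintegral_ofReal]
  · congr 1
    simp [real_inner_comm]
  · simpa [real_inner_comm] using hm.integrable_sq
  · exact Filter.Eventually.of_forall fun x => sq_nonneg _

end

/-- the unit normal direction from a subspace -/
theorem exists_normal {m : ℕ} (v : E m) (U : Set (E m)) :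
    ∃ u ∈ Submodule.span ℝ U, ‖v - u‖ = sd v U ∧ ∀ w ∈ Submodule.span ℝ U, ⟪v - u, w⟫ = 0 := by
  refine ⟨(Submodule.span ℝ U).starProjection v, Submodule.starProjection_apply_mem _ _, ?_,
    fun w hw => Submodule.starProjection_inner_eq_zero v w hw⟩
  rw [Submodule.starProjection_minimal, sd, Metric.infDist_eq_iInf]
  simp only [dist_eq_norm]
  rfl

theorem exists_unit_normal {m : ℕ} (v : E m) (U : Set (E m)) (h : 0 < sd v U) :
    ∃ e : E m, ‖e‖ = 1 ∧ ⟪e, v⟫ = sd v U ∧ ∀ w ∈ Submodule.span ℝ U, ⟪e, w⟫ = 0 := by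
  obtain ⟨u, hu, h1, h2⟩ := exists_normal v U
  refine ⟨(sd v U)⁻¹ • (v - u), ?_, ?_, ?_⟩
  · rw [norm_smul, h1, Real.norm_eq_abs, abs_of_pos (inv_pos.2 h), inv_mul_cancel₀ h.ne']
  · have : ⟪v - u, v⟫ = sd v U ^ 2 := by
      have h3 : ⟪v - u, v⟫ = ⟪v - u, v - u⟫ + ⟪v - u, u⟫ := by
        rw [← inner_add_right]; simp
      rw [h3, h2 u hu, real_inner_self_eq_norm_sq, h1, add_zero]
    rw [real_inner_smul_left, this]
    field_simp
  · intro w hw
    rw [real_inner_smul_left, h2 w hw, mul_zero]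

theorem sd_nonneg {m : ℕ} (v : E m) (U : Set (E m)) : 0 ≤ sd v U := Metric.infDist_nonneg

end Crest.Agent.SL
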