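import Mathlib
import Crest.Agent.SL.Defs
import Crest.Agent.SL.GaussCore

/-! Gaussian lemmas `G0`–`G5` for row 322. -/

set_option autoImplicit false

namespace Crest.Agent.SL

open MeasureTheory ProbabilityTheory Crest.StreamLearn
open scoped ENNReal NNReal RealInnerProductSpace

theorem g0 : G0 := by
  intro m n j
  apply measurable_of_Iio
  intro a
  have : (fun p : (Fin (n + 1) → E m) × E m => dl p.1 j p.2) ⁻¹' Set.Iio a
      = ⋃ c : Set.Iio j → ℝ, {p : (Fin (n + 1) → E m) × E m |
          dist (p.2 - p.1 0) (∑ i : Set.Iio j, c i • (p.1 i - p.1 0)) < a} := by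
    ext p
    simp only [Set.mem_preimage, Set.mem_Iio, dl, sd, Set.mem_iUnion, Set.mem_ofPred_eq]
    rw [Metric.infDist_lt_iff ⟨0, Submodule.zero_mem _⟩, Set.image_eq_range]
    constructor
    · rintro ⟨y, hy, h⟩
      obtain ⟨c, rfl⟩ := (Submodule.mem_span_range_iff_exists_fun ℝ).1 hy
      exact ⟨c, h⟩
    · rintro ⟨c, h⟩
      exact ⟨_, (Submodule.mem_span_range_iff_exists_fun ℝ).2 ⟨c, rfl⟩, h⟩
  rw [this]
  refine (isOpen_iUnion fun c => ?_).measurableSet
  exact isOpen_lt (by fun_prop) continuous_const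

theorem npow_ne_zero (k : ℕ) (x : ℝ) : npow k x ≠ 0 := by
  unfold npow
  exact pow_ne_zero _ (ENNReal.inv_ne_zero.2 ENNReal.ofReal_ne_top)

theorem npow_of_pos (k : ℕ) {x : ℝ} (hx : 0 < x) : npow k x = ENNReal.ofReal (x⁻¹ ^ k) := by
  unfold npow
  rw [← ENNReal.ofReal_inv_of_pos hx, ENNReal.ofReal_pow (by positivity)]

theorem npow_anti (k : ℕ) {x y : ℝ} (h : x ≤ y) : npow k y ≤ npow k x := by
  unfold npow
  gcongr

theorem one_le_sqrt_two_pi : 1 ≤ Real.sqrt (2 * Real.pi) := by
  rw [Real.one_le_sqrt]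
  have := Real.pi_gt_three
  linarith

theorem g1 : G1 := by
  intro k d n w r hr
  rcases Nat.eq_zero_or_pos k with rfl | hk
  · simp [VV, npow, prob_le_one]
  by_cases hδ : ∀ j : Fin n, 0 < dl w j.succ (w j.succ)
  swap
  · push Not at hδ
    obtain ⟨j, hj⟩ := hδ
    have h1 : VV k w = ⊤ := by
      unfold VV
      refine WithTop.prod_eq_top (Finset.mem_univ j) ?_ fun i _ => npow_ne_zero _ _
      change npow _ _ = (⊤ : ℝ≥0∞)
      unfold npow
      rw [ENNReal.ofReal_eq_zero.2 hj, ENNReal.inv_zero, ENNReal.top_pow hk.ne']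
    rw [h1, ENNReal.mul_top]
    · exact le_top
    · exact pow_ne_zero _ (by simpa using hr)
  choose e he hD hlt using fun j : Fin n => exists_unit_normal _ _ (hδ j)
  set S : Set (E d) := {x | ∀ j : Fin n, ⟪x, w j.succ - w 0⟫ ∈ Set.Icc (-r) r} with hS
  have hset : {X : Mat k d | ∀ j : Fin n, ‖app X (w j.succ) - app X (w 0)‖ ≤ r}
      = Set.univ.pi fun _ : Fin k => S := by
    ext X
    simp only [Set.mem_ofPred_eq, Set.mem_pi, Set.mem_univ, forall_const, hS,
      pi_norm_le_iff_of_nonneg hr.le, Pi.sub_apply, app, Real.norm_eq_abs, abs_le, Set.mem_Icc,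
      inner_sub_right]
    exact forall_comm
  have hrow : stdGaussian (E d) S ≤ ∏ j : Fin n,
      (ENNReal.ofReal (2 * r) * (ENNReal.ofReal (dl w j.succ (w j.succ)))⁻¹) := by
    have h1 := gstar n (fun j => w j.succ - w 0) e (fun j => dl w j.succ (w j.succ)) hδ he hD
      (fun i j hij => hlt j _ (Submodule.subset_span ⟨i.succ, Fin.succ_lt_succ_iff.2 hij, rfl⟩))
      (fun _ => (Set.Icc (-r) r).indicator 1)
      (fun _ => measurable_one.indicator measurableSet_Icc)
    refine le_trans ?_ (h1.trans ?_)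
    · refine le_trans ?_ (lintegral_mono (f := S.indicator 1) fun x => ?_)
      · rw [lintegral_indicator_one]
        simp only [hS, Set.ofPred_forall]
        exact MeasurableSet.iInter fun j =>
          (by fun_prop : Measurable fun x : E d => ⟪x, w j.succ - w 0⟫) measurableSet_Icc
      · by_cases hx : x ∈ S
        · rw [Set.indicator_of_mem hx, Finset.prod_eq_one]
          · rfl
          · intro j _
            rw [Set.indicator_of_mem (hx j)]
            rfl
        · rw [Set.indicator_of_notMem hx]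
          exact zero_le
    · refine Finset.prod_le_prod' fun j _ => ?_
      rw [lintegral_indicator_one measurableSet_Icc, Real.volume_Icc, mul_comm,
        ← ENNReal.ofReal_inv_of_pos (hδ j)]
      gcongr
      · linarith
      · exact hδ j
      · exact le_mul_of_one_le_left (hδ j).le one_le_sqrt_two_pi
  rw [hset, gam, Measure.pi_pi, Finset.prod_const, Finset.card_univ, Fintype.card_fin]
  refine (pow_le_pow_left' hrow k).trans (le_of_eq ?_)
  rw [Finset.prod_mul_distrib, mul_pow, Finset.prod_const, Finset.card_univ, Fintype.card_fin,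
    ← pow_mul, mul_comm n k, VV, ← Finset.prod_pow]
  rfl

/-- `appE X` as a linear map -/
noncomputable def appL {k d : ℕ} (X : Mat k d) : E d →ₗ[ℝ] E k where
  toFun := appE X
  map_add' u v := by ext i; simp [appE, app, inner_add_right]
  map_smul' c v := by ext i; simp [appE, app, inner_smul_right]

theorem appL_apply {k d : ℕ} (X : Mat k d) (v : E d) : appL X v = appE X v := rfl

theorem span_appE {k d : ℕ} (X : Mat k d) (U : Set (E d)) :
    Submodule.span ℝ (appE X '' U) = (Submodule.span ℝ U).map (appL X) := by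
  rw [Submodule.map_span]
  rfl

theorem g2 : G2 := by
  intro J d v U
  obtain ⟨u, hu, h1, -⟩ := exists_normal v U
  calc ∫⁻ X, ENNReal.ofReal (sd (appE X v) (appE X '' U) ^ 2) ∂gam J d
      ≤ ∫⁻ X, ∑ i, ENNReal.ofReal (⟪X i, v - u⟫ ^ 2) ∂gam J d := by
        refine lintegral_mono fun X => ?_
        rw [← ENNReal.ofReal_sum_of_nonneg fun i _ => sq_nonneg _]
        apply ENNReal.ofReal_le_ofReal
        have h2 : sd (appE X v) (appE X '' U) ≤ ‖appE X (v - u)‖ := by
          have h3 : appE X u ∈ Submodule.span ℝ (appE X '' U) := by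
            rw [span_appE]
            exact Submodule.mem_map_of_mem hu
          refine (Metric.infDist_le_dist_of_mem h3).trans (le_of_eq ?_)
          rw [dist_eq_norm, ← appL_apply, ← appL_apply, ← appL_apply, map_sub]
        refine (pow_le_pow_left₀ (sd_nonneg _ _) h2 2).trans (le_of_eq ?_)
        rw [EuclideanSpace.real_norm_sq_eq]
        rfl
    _ = ∑ i : Fin J, ∫⁻ X, ENNReal.ofReal (⟪X i, v - u⟫ ^ 2) ∂gam J d :=
        lintegral_finsetSum _ fun i _ => by fun_prop
    _ = ∑ i : Fin J, ENNReal.ofReal (‖v - u‖ ^ 2) := by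
        refine Finset.sum_congr rfl fun i _ => ?_
        rw [← lintegral_inner_sq (v - u)]
        exact (measurePreserving_eval (μ := fun _ : Fin J => stdGaussian (E d)) i).lintegral_comp
          (f := fun x : E d => ENNReal.ofReal (⟪x, v - u⟫ ^ 2)) (by fun_prop)
    _ = _ := by
        rw [Finset.sum_const, Finset.card_univ, Fintype.card_fin, h1, nsmul_eq_mul,
          ENNReal.ofReal_mul (Nat.cast_nonneg _), ENNReal.ofReal_natCast]
    _ ≤ _ := le_rfl

theorem lintegral_norm_sq_gauss (d : ℕ) :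
    ∫⁻ x, ENNReal.ofReal (‖x‖ ^ 2) ∂stdGaussian (E d) = ENNReal.ofReal d := by
  calc ∫⁻ x, ENNReal.ofReal (‖x‖ ^ 2) ∂stdGaussian (E d)
      = ∫⁻ x, ∑ i : Fin d, ENNReal.ofReal (⟪x, EuclideanSpace.single i (1 : ℝ)⟫ ^ 2)
          ∂stdGaussian (E d) := by
        refine lintegral_congr fun x => ?_
        rw [← ENNReal.ofReal_sum_of_nonneg fun i _ => sq_nonneg _, EuclideanSpace.real_norm_sq_eq]
        simp [EuclideanSpace.inner_single_right]
    _ = ∑ i : Fin d, ∫⁻ x, ENNReal.ofReal (⟪x, EuclideanSpace.single i (1 : ℝ)⟫ ^ 2)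
          ∂stdGaussian (E d) := lintegral_finsetSum _ fun i _ => by fun_prop
    _ = _ := by
        simp_rw [lintegral_inner_sq]
        simp

theorem lintegral_norm_gauss_le (d : ℕ) :
    ∫⁻ x, ENNReal.ofReal ‖x‖ ∂stdGaussian (E d) ≤ ENNReal.ofReal (Real.sqrt d) := by
  rcases Nat.eq_zero_or_pos d with rfl | hd
  · have : ∀ x : E 0, ‖x‖ = 0 := fun x => by rw [Subsingleton.elim x 0, norm_zero]
    simp [this]
  have hs : 0 < Real.sqrt d := Real.sqrt_pos.2 (by exact_mod_cast hd)
  have hs2 : Real.sqrt d ^ 2 = d := Real.sq_sqrt (Nat.cast_nonneg _)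
  calc ∫⁻ x, ENNReal.ofReal ‖x‖ ∂stdGaussian (E d)
      ≤ ∫⁻ x, (ENNReal.ofReal (2 * Real.sqrt d)⁻¹ * ENNReal.ofReal (‖x‖ ^ 2)
          + ENNReal.ofReal (Real.sqrt d / 2)) ∂stdGaussian (E d) := by
        refine lintegral_mono fun x => ?_
        rw [← ENNReal.ofReal_mul (by positivity), ← ENNReal.ofReal_add (by positivity) (by positivity)]
        apply ENNReal.ofReal_le_ofReal
        have h1 : (2 * Real.sqrt d)⁻¹ * ‖x‖ ^ 2 + Real.sqrt d / 2 - ‖x‖
            = (2 * Real.sqrt d)⁻¹ * (‖x‖ - Real.sqrt d) ^ 2 := by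
          field_simp
          ring
        have h2 : 0 ≤ (2 * Real.sqrt d)⁻¹ * (‖x‖ - Real.sqrt d) ^ 2 := by positivity
        linarith
    _ = _ := by
        rw [lintegral_add_right _ measurable_const, lintegral_const_mul _ (by fun_prop),
          lintegral_norm_sq_gauss, lintegral_const, measure_univ, mul_one,
          ← ENNReal.ofReal_mul (by positivity), ← ENNReal.ofReal_add (by positivity) (by positivity)]
        congr 1
        field_simp
        linarith
    _ ≤ _ := le_rfl

theorem g5 : G5 := by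
  intro k d
  simp_rw [ENNReal.ofReal_prod_of_nonneg fun i _ => norm_nonneg _]
  rw [gam, lintegral_fin_prod (stdGaussian (E d)) (fun _ x => ENNReal.ofReal ‖x‖)
    (fun _ => by fun_prop), Finset.prod_const, Finset.card_univ, Fintype.card_fin,
    ENNReal.ofReal_pow (Real.sqrt_nonneg _)]
  exact pow_le_pow_left' (lintegral_norm_gauss_le d) k

theorem lintegral_exp_neg_sq (θ c : ℝ) (hθ : 0 < θ) :
    ∫⁻ u : ℝ, ENNReal.ofReal (Real.exp (-θ * (c + u) ^ 2))
      = ENNReal.ofReal (Real.sqrt (Real.pi / θ)) := by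
  rw [lintegral_add_left_eq_self (fun u : ℝ => ENNReal.ofReal (Real.exp (-θ * u ^ 2))) c,
    ← ofReal_integral_eq_lintegral_ofReal (integrable_exp_neg_mul_sq hθ)
      (Filter.Eventually.of_forall fun _ => (Real.exp_pos _).le), integral_gaussian]

theorem vol_ball_le (k : ℕ) (hk : 1 ≤ k) (h : ℝ) (hh : 0 < h) :
    volume {c : Fin k → ℝ | ∑ j, c j ^ 2 ≤ h ^ 2}
      ≤ ENNReal.ofReal ((h * Real.sqrt (20 / k)) ^ k) := by
  have hk' : (0 : ℝ) < k := by exact_mod_cast hk
  set θ : ℝ := k / (2 * h ^ 2) with hθ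
  have hθ0 : 0 < θ := by positivity
  have hm : MeasurableSet {c : Fin k → ℝ | ∑ j, c j ^ 2 ≤ h ^ 2} :=
    measurableSet_le (by fun_prop) measurable_const
  calc volume {c : Fin k → ℝ | ∑ j, c j ^ 2 ≤ h ^ 2}
      = ∫⁻ c, {c : Fin k → ℝ | ∑ j, c j ^ 2 ≤ h ^ 2}.indicator 1 c :=
        (lintegral_indicator_one hm).symm
    _ ≤ ∫⁻ c : Fin k → ℝ, ∏ j, (ENNReal.ofReal (Real.exp (1 / 2)) *
          ENNReal.ofReal (Real.exp (-θ * (0 + c j) ^ 2))) := by
        refine lintegral_mono fun c => ?_
        by_cases hc : c ∈ {c : Fin k → ℝ | ∑ j, c j ^ 2 ≤ h ^ 2}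
        · rw [Set.indicator_of_mem hc]
          simp_rw [← ENNReal.ofReal_mul (Real.exp_pos _).le, ← Real.exp_add]
          rw [← ENNReal.ofReal_prod_of_nonneg fun i _ => (Real.exp_pos _).le, ← Real.exp_sum,
            Pi.one_apply, ENNReal.one_le_ofReal, Real.one_le_exp_iff, Finset.sum_add_distrib,
            ← Finset.mul_sum, Finset.sum_const, Finset.card_univ, Fintype.card_fin, nsmul_eq_mul]
          simp only [zero_add]
          have h1 : θ * ∑ j, c j ^ 2 ≤ θ * h ^ 2 := mul_le_mul_of_nonneg_left hc hθ0.le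
          have h2 : θ * h ^ 2 = k / 2 := by rw [hθ]; field_simp
          linarith
        · rw [Set.indicator_of_notMem hc]
          exact zero_le
    _ = ∏ j : Fin k, ∫⁻ u : ℝ, (ENNReal.ofReal (Real.exp (1 / 2)) *
          ENNReal.ofReal (Real.exp (-θ * (0 + u) ^ 2))) :=
        lintegral_fin_prod volume (fun _ u => ENNReal.ofReal (Real.exp (1 / 2)) *
          ENNReal.ofReal (Real.exp (-θ * (0 + u) ^ 2))) (fun _ => by fun_prop)
    _ ≤ _ := by
        rw [Finset.prod_const, Finset.card_univ, Fintype.card_fin,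
          lintegral_const_mul _ (by fun_prop), lintegral_exp_neg_sq _ _ hθ0,
          ← ENNReal.ofReal_mul (Real.exp_pos _).le, ENNReal.ofReal_pow (by positivity)]
        refine pow_le_pow_left' (ENNReal.ofReal_le_ofReal ?_) k
        refine (pow_le_pow_iff_left₀ (by positivity) (by positivity) two_ne_zero).1 ?_
        rw [mul_pow, mul_pow, Real.sq_sqrt (by positivity), Real.sq_sqrt (by positivity),
          ← Real.exp_nat_mul]
        have h1 : Real.exp (((2 : ℕ) : ℝ) * (1 / 2)) ≤ 3 := by
          have : ((2 : ℕ) : ℝ) * (1 / 2) = 1 := by norm_num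
          rw [this]
          have := Real.exp_one_lt_d9
          linarith
        have h2 : Real.pi ≤ 3.2 := by
          have := Real.pi_lt_d2
          linarith
        have h3 : Real.pi / θ = Real.pi * (2 * h ^ 2 / k) := by rw [hθ]; field_simp
        rw [h3]
        calc _ ≤ 3 * (3.2 * (2 * h ^ 2 / k)) := by gcongr
          _ = 19.2 * (h ^ 2 / k) := by ring
          _ ≤ 20 * (h ^ 2 / k) := by gcongr; norm_num
          _ = _ := by ring

theorem g4 : G4 := by
  intro k d X h hk hkd hh
  rcases hh.eq_or_lt with rfl | hh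
  · have : Nonempty (Fin k) := ⟨⟨0, hk⟩⟩
    rw [Metric.closedBall_zero, Set.image_singleton, measure_singleton]
    exact zero_le
  let f : Fin d → E d := fun i => if hi : i.val < k then X ⟨i, hi⟩ else 0
  have hf : ∀ i : Fin k, f (Fin.castLE hkd i) = X i := fun i => by simp [f]
  let b := InnerProductSpace.gramSchmidtOrthonormalBasis (𝕜 := ℝ) (by simp) f
  have hb : ∀ (i : Fin k) (j : Fin d), i.val < j.val → ⟪X i, b j⟫ = 0 := by
    intro i j hij
    rw [real_inner_comm, ← hf i]
    exact InnerProductSpace.gramSchmidtOrthonormalBasis_inv_triangular _ f hij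
  let L : Matrix (Fin k) (Fin k) ℝ := Matrix.of fun i j => ⟪X i, b (Fin.castLE hkd j)⟫
  have hsub : app X '' Metric.closedBall 0 h
      ⊆ Matrix.toLin' L '' {c : Fin k → ℝ | ∑ j, c j ^ 2 ≤ h ^ 2} := by
    rintro _ ⟨v, hv, rfl⟩
    refine ⟨fun j => ⟪b (Fin.castLE hkd j), v⟫, ?_, ?_⟩
    · have h1 : Orthonormal ℝ fun j : Fin k => b (Fin.castLE hkd j) :=
        b.orthonormal.comp _ (Fin.castLE_injective hkd)
      have h2 := h1.sum_inner_products_le v (s := Finset.univ)
      simp only [Real.norm_eq_abs, sq_abs] at h2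
      refine h2.trans (pow_le_pow_left₀ (norm_nonneg _) ?_ 2)
      simpa using hv
    · ext i
      simp only [Matrix.toLin'_apply, Matrix.mulVec, dotProduct, L, Matrix.of_apply, app]
      rw [← b.sum_inner_mul_inner (X i) v]
      refine Finset.sum_of_injOn (Fin.castLE hkd) (Fin.castLE_injective hkd).injOn
        (fun _ _ => Finset.mem_univ _) ?_ (fun _ _ => rfl)
      intro j _ hj
      rw [hb i j, zero_mul]
      by_contra hlt
      exact hj ⟨⟨j, by omega⟩, by simp, rfl⟩
  refine (measure_mono hsub).trans ?_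
  rw [Measure.addHaar_image_linearMap, LinearMap.det_toLin', mul_comm,
    ENNReal.ofReal_mul (by positivity)]
  gcongr
  · exact vol_ball_le k hk h hh
  · rw [Matrix.det_of_isLowerTriangular L (fun i j hij => hb i _ hij), Finset.abs_prod]
    refine Finset.prod_le_prod (fun _ _ => abs_nonneg _) fun i _ => ?_
    refine (abs_real_inner_le_norm (X i) (b (Fin.castLE hkd i))).trans (le_of_eq ?_)
    rw [b.orthonormal.1, mul_one]

theorem npow_mul (k : ℕ) {x : ℝ} (hx : 0 ≤ x) (y : ℝ) : npow k (x * y) = npow k x * npow k y := by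
  unfold npow
  rw [ENNReal.ofReal_mul hx, ENNReal.mul_inv (Or.inr ENNReal.ofReal_ne_top)
    (Or.inl ENNReal.ofReal_ne_top), mul_pow]

theorem npow_sqrt_le (k J : ℕ) (hJ : 1 ≤ J) (a : ℝ) (ha : 0 ≤ a) :
    npow k (Real.sqrt a) ≤ ENNReal.ofReal (1 / Real.sqrt J ^ k) *
      (1 + ∑' l : ℕ, ENNReal.ofReal (2 ^ ((l + 1) * k) * Real.exp (J / 2)) *
        ENNReal.ofReal (Real.exp (-(4 ^ l / 2) * a))) := by
  have hJ' : (0 : ℝ) < J := by exact_mod_cast hJ
  have hs : 0 < Real.sqrt J := Real.sqrt_pos.2 hJ'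
  rcases ha.eq_or_lt with rfl | ha
  · have h1 : ∑' l : ℕ, ENNReal.ofReal (2 ^ ((l + 1) * k) * Real.exp (J / 2)) *
        ENNReal.ofReal (Real.exp (-(4 ^ l / 2) * 0)) = ⊤ := by
      rw [eq_top_iff, ← ENNReal.tsum_const_eq_top_of_ne_zero (α := ℕ) one_ne_zero]
      refine ENNReal.tsum_le_tsum fun l => ?_
      rw [mul_zero, Real.exp_zero, ENNReal.ofReal_one, mul_one, ENNReal.one_le_ofReal]
      exact one_le_mul_of_one_le_of_one_le (one_le_pow₀ one_le_two)
        (Real.one_le_exp (by positivity))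
    rw [h1, add_top, ENNReal.mul_top]
    · exact le_top
    · rw [Ne, ENNReal.ofReal_eq_zero, not_le]
      positivity
  rcases lt_or_ge (J : ℝ) a with h | h
  · refine (npow_anti k (Real.sqrt_le_sqrt h.le)).trans ?_
    rw [npow_of_pos k hs, inv_pow, one_div]
    exact le_mul_of_one_le_right' le_self_add
  obtain ⟨l, h1, h2⟩ := exists_nat_pow_near (x := J / a) (y := 4)
    (by rw [le_div_iff₀ ha]; linarith) (by norm_num)
  rw [le_div_iff₀ ha] at h1
  rw [div_lt_iff₀ ha] at h2
  have h3 : Real.sqrt J / 2 ^ (l + 1) ≤ Real.sqrt a := by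
    rw [div_le_iff₀ (by positivity)]
    refine Real.sqrt_le_iff.2 ⟨by positivity, ?_⟩
    rw [mul_pow, Real.sq_sqrt ha.le, ← pow_mul, mul_comm (l + 1) 2, pow_mul]
    norm_num
    linarith
  refine (npow_anti k h3).trans ?_
  rw [npow_of_pos k (by positivity)]
  refine le_trans ?_ (mul_le_mul_right ((ENNReal.le_tsum l).trans le_add_self) _)
  rw [← ENNReal.ofReal_mul (by positivity), ← ENNReal.ofReal_mul (by positivity)]
  apply ENNReal.ofReal_le_ofReal
  have h4 : 1 ≤ Real.exp (J / 2) * Real.exp (-(4 ^ l / 2) * a) := by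
    rw [← Real.exp_add]
    exact Real.one_le_exp (by linarith)
  calc (Real.sqrt J / 2 ^ (l + 1))⁻¹ ^ k = 1 / Real.sqrt J ^ k * (2 ^ ((l + 1) * k) * 1) := by
        rw [inv_div, div_pow, pow_mul]
        ring
    _ ≤ 1 / Real.sqrt J ^ k * (2 ^ ((l + 1) * k) *
          (Real.exp (J / 2) * Real.exp (-(4 ^ l / 2) * a))) := by gcongr
    _ = _ := by ring

theorem lintegral_exp_orth {J m : ℕ} (e : Fin m → E J) (he : Orthonormal ℝ e) (c : Fin m → ℝ)
    (l : ℕ) :
    ∫⁻ t, ENNReal.ofReal (Real.exp (-(4 ^ l / 2) * ∑ i, (c i + ⟪t, e i⟫) ^ 2)) ∂stdGaussian (E J)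
      ≤ ENNReal.ofReal (((2 : ℝ) ^ l)⁻¹ ^ m) := by
  have h1 := gstar m e e (fun _ => 1) (fun _ => one_pos) he.1
    (fun j => by rw [real_inner_self_eq_norm_sq, he.1, one_pow])
    (fun i j hij => he.2 hij.ne')
    (fun i u => ENNReal.ofReal (Real.exp (-(4 ^ l / 2) * (c i + u) ^ 2))) (fun _ => by fun_prop)
  refine le_trans (le_of_eq ?_) (h1.trans (le_of_eq ?_))
  · refine lintegral_congr fun t => ?_
    rw [← ENNReal.ofReal_prod_of_nonneg fun i _ => (Real.exp_pos _).le, ← Real.exp_sum,
      Finset.mul_sum]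
  · simp_rw [lintegral_exp_neg_sq _ _ (show (0 : ℝ) < 4 ^ l / 2 by positivity)]
    rw [Finset.prod_const, Finset.card_univ, Fintype.card_fin,
      ← ENNReal.ofReal_mul (by positivity), ← ENNReal.ofReal_pow (by positivity)]
    congr 2
    have h2 : Real.pi / (4 ^ l / 2) = (2 * Real.pi) / (2 ^ l) ^ 2 := by
      rw [← pow_mul, mul_comm l 2, pow_mul]
      norm_num
      field_simp
    have h3 : 0 < Real.sqrt (2 * Real.pi) := lt_of_lt_of_le one_pos one_le_sqrt_two_pi
    rw [h2, Real.sqrt_div (by positivity), Real.sqrt_sq (by positivity)]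
    field_simp

theorem neg_moment (J k : ℕ) (W : Submodule ℝ (E J)) (hW : Module.finrank ℝ W + k + 1 ≤ J)
    (c : E J) (δ : ℝ) (hδ : 0 < δ) :
    ∫⁻ t, npow k (Metric.infDist (c + δ • t) (W : Set (E J))) ∂stdGaussian (E J)
      ≤ ENNReal.ofReal ((1 + 2 ^ (k + 1) * Real.exp (J / 2)) / Real.sqrt J ^ k) * npow k δ := by
  have hdim : k + 1 ≤ Module.finrank ℝ Wᗮ := by
    have := W.finrank_add_finrank_orthogonal
    rw [finrank_euclideanSpace_fin] at this
    omega
  let b := stdOrthonormalBasis ℝ Wᗮ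
  let e : Fin (k + 1) → E J := fun i => (b (Fin.castLE hdim i) : E J)
  have he : Orthonormal ℝ e :=
    (b.orthonormal.comp _ (Fin.castLE_injective hdim)).comp_linearIsometry Wᗮ.subtypeₗᵢ
  have heW : ∀ i, ∀ y ∈ W, ⟪e i, y⟫ = 0 := fun i y hy =>
    Submodule.inner_left_of_mem_orthogonal hy (b (Fin.castLE hdim i)).2
  let a : E J → ℝ := fun t => ∑ i, (⟪e i, c⟫ / δ + ⟪t, e i⟫) ^ 2
  have ha : ∀ t, 0 ≤ a t := fun t => Finset.sum_nonneg fun _ _ => sq_nonneg _
  have hpt : ∀ t, δ * Real.sqrt (a t) ≤ Metric.infDist (c + δ • t) (W : Set (E J)) := by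
    intro t
    rw [Metric.le_infDist ⟨0, W.zero_mem⟩]
    intro y hy
    refine (pow_le_pow_iff_left₀ (by positivity) (by positivity) two_ne_zero).1 ?_
    rw [mul_pow, Real.sq_sqrt (ha t), dist_eq_norm]
    refine le_trans (le_of_eq ?_) (he.sum_inner_products_le (c + δ • t - y) (s := Finset.univ))
    rw [Finset.mul_sum]
    refine Finset.sum_congr rfl fun i _ => ?_
    rw [Real.norm_eq_abs, sq_abs, inner_sub_right, heW i y hy, inner_add_right,
      real_inner_smul_right, real_inner_comm t]
    field_simp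
    ring
  have hm : ∀ l : ℕ, Measurable fun t : E J =>
      ENNReal.ofReal (2 ^ ((l + 1) * k) * Real.exp (J / 2)) *
        ENNReal.ofReal (Real.exp (-(4 ^ l / 2) * a t)) := fun l => by
    simp only [a]
    fun_prop
  calc ∫⁻ t, npow k (Metric.infDist (c + δ • t) (W : Set (E J))) ∂stdGaussian (E J)
      ≤ ∫⁻ t, npow k δ * (ENNReal.ofReal (1 / Real.sqrt J ^ k) *
          (1 + ∑' l : ℕ, ENNReal.ofReal (2 ^ ((l + 1) * k) * Real.exp (J / 2)) *
            ENNReal.ofReal (Real.exp (-(4 ^ l / 2) * a t)))) ∂stdGaussian (E J) := by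
        refine lintegral_mono fun t => ?_
        refine (npow_anti k (hpt t)).trans ?_
        rw [npow_mul k hδ.le]
        gcongr
        exact npow_sqrt_le k J (by omega) _ (ha t)
    _ = npow k δ * (ENNReal.ofReal (1 / Real.sqrt J ^ k) *
          (1 + ∑' l : ℕ, ENNReal.ofReal (2 ^ ((l + 1) * k) * Real.exp (J / 2)) *
            ∫⁻ t, ENNReal.ofReal (Real.exp (-(4 ^ l / 2) * a t)) ∂stdGaussian (E J))) := by
        have hm2 := Measurable.ennreal_tsum hm
        rw [lintegral_const_mul _ ((hm2.const_add _).const_mul _),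
          lintegral_const_mul _ (hm2.const_add _), lintegral_add_left measurable_const,
          lintegral_const, measure_univ, mul_one, lintegral_tsum fun l => (hm l).aemeasurable]
        congr 4
        ext l
        rw [lintegral_const_mul]
        simp only [a]
        fun_prop
    _ ≤ npow k δ * (ENNReal.ofReal (1 / Real.sqrt J ^ k) *
          (1 + ∑' l : ℕ, ENNReal.ofReal (2 ^ k * Real.exp (J / 2)) * 2⁻¹ ^ l)) := by
        refine mul_le_mul_right (mul_le_mul_right (add_le_add_right
          (ENNReal.tsum_le_tsum fun l => ?_) _) _) _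
        refine (mul_le_mul_right (lintegral_exp_orth e he _ l) _).trans (le_of_eq ?_)
        have h2 : (2⁻¹ : ℝ≥0∞) = ENNReal.ofReal 2⁻¹ := by
          rw [ENNReal.ofReal_inv_of_pos two_pos, ENNReal.ofReal_ofNat]
        rw [h2, ← ENNReal.ofReal_pow (by positivity), ← ENNReal.ofReal_mul (by positivity),
          ← ENNReal.ofReal_mul (by positivity)]
        congr 1
        rw [inv_pow, inv_pow, ← pow_mul]
        field_simp
        ring
    _ = _ := by
        rw [ENNReal.tsum_mul_left, ENNReal.tsum_geometric_two, mul_comm (npow k δ)]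
        congr 1
        rw [← ENNReal.ofReal_ofNat 2, ← ENNReal.ofReal_mul (by positivity), ← ENNReal.ofReal_one,
          ← ENNReal.ofReal_add (by positivity) (by positivity),
          ← ENNReal.ofReal_mul (by positivity)]
        congr 1
        ring

theorem measurePreserving_resamp_rows (J d : ℕ) (e : E d) (he : ‖e‖ = 1) :
    MeasurePreserving (fun (p : Mat J d × (Fin J → ℝ)) (i : Fin J) => resamp e (p.1 i, p.2 i))
      ((gam J d).prod (Measure.pi fun _ => gaussianReal 0 1)) (gam J d) :=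
  (measurePreserving_pi (fun _ : Fin J => (stdGaussian (E d)).prod (gaussianReal 0 1))
    (fun _ : Fin J => stdGaussian (E d)) fun _ => measurePreserving_resamp e he).comp
    (measurePreserving_arrowProdEquivProdArrow (E d) ℝ (Fin J) (fun _ => stdGaussian (E d))
      (fun _ => gaussianReal 0 1)).symm

theorem g3 : G3 := by
  intro J d k r v U hU hJ
  have hJ' : (0 : ℝ) < J := by exact_mod_cast (show 0 < J by omega)
  rcases (sd_nonneg v U).eq_or_lt with h0 | hδ
  · rcases Nat.eq_zero_or_pos k with rfl | hk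
    · simp only [npow, pow_zero, lintegral_const, measure_univ, mul_one, div_one,
        ENNReal.one_le_ofReal]
      exact le_add_of_nonneg_right (by positivity)
    · rw [← h0, npow, ENNReal.ofReal_zero, ENNReal.inv_zero, ENNReal.top_pow hk.ne',
        ENNReal.mul_top]
      · exact le_top
      · rw [Ne, ENNReal.ofReal_eq_zero, not_le]
        positivity
  obtain ⟨e, he, hev, heU⟩ := exists_unit_normal v U hδ
  rw [← (measurePreserving_resamp_rows J d e he).map_eq]
  refine (lintegral_map_le _ _).trans ((lintegral_prod_le _).trans ?_)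
  refine le_trans (lintegral_mono fun X => ?_) (le_of_eq (lintegral_const _ |>.trans
    (by rw [measure_univ, mul_one])))
  have hW : Module.finrank ℝ (Submodule.span ℝ (appE X '' U)) + k + 1 ≤ J := by
    have := Submodule.finrank_map_le (appL X) (Submodule.span ℝ U)
    rw [span_appE]
    omega
  refine le_trans (le_of_eq ?_) (neg_moment J k _ hW (appE X (v - sd v U • e)) _ hδ)
  rw [← map_pi_eq_stdGaussian, lintegral_map _ (by fun_prop)]
  · refine lintegral_congr fun t => ?_
    congr 1
    have h1 : appE (fun i => resamp e (X i, t i)) '' U = appE X '' U := by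
      refine Set.image_congr fun u hu => ?_
      ext i
      simp [appE, app, inner_resamp, heU u (Submodule.subset_span hu)]
    have h2 : appE (fun i => resamp e (X i, t i)) v
        = appE X (v - sd v U • e) + sd v U • WithLp.toLp 2 t := by
      ext i
      simp [appE, app, inner_resamp, hev, mul_comm]
    simp only [h1, h2]
    rfl
  · unfold npow
    have : Continuous fun t : E J => Metric.infDist (appE X (v - sd v U • e) + sd v U • t)
        (Submodule.span ℝ (appE X '' U) : Set (E J)) :=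
      (Metric.continuous_infDist_pt _).comp (by fun_prop)
    exact (this.measurable.ennreal_ofReal.inv).pow_const _

end Crest.Agent.SL
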