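import Crest.Agent.SL.Slice1

/-! Job D: existence of slicings. -/

set_option autoImplicit false

namespace Crest.Agent.SL

open MeasureTheory ProbabilityTheory Filter Topology Set Crest.StreamLearn
open scoped ENNReal

theorem sl_app_cont (k d : ℕ) : Continuous fun p : Mat k d × E d => app p.1 p.2 := by
  unfold app
  refine continuous_pi fun i => ?_
  exact ((continuous_apply i).comp continuous_fst).inner continuous_snd

theorem sl_app_meas (k d : ℕ) : Measurable fun p : Mat k d × Sphere d => app p.1 (p.2 : E d) :=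
  ((sl_app_cont k d).comp (continuous_fst.prodMk
    (continuous_subtype_val.comp continuous_snd))).measurable

theorem sl_app_meas' {k d : ℕ} (X : Mat k d) : Measurable fun w : Sphere d => app X (w : E d) :=
  (sl_app_meas k d).comp (measurable_const.prodMk measurable_id)

/-- the radii -/
noncomputable def slR (m : ℕ) : ℝ := 1 / ((m : ℝ) + 1)

theorem slR_pos (m : ℕ) : 0 < slR m := Nat.one_div_pos_of_nat

theorem slR_tendsto : Tendsto slR atTop (𝓝[>] 0) :=
  tendsto_nhdsWithin_iff.2 ⟨tendsto_one_div_add_atTop_nhds_zero_nat,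
    Eventually.of_forall slR_pos⟩

/-- volume of the sup-norm ball -/
noncomputable def slV (k m : ℕ) : ℝ≥0∞ := ENNReal.ofReal (2 * slR m) ^ k

theorem slV_eq (k m : ℕ) (y : Fin k → ℝ) : volume (Metric.closedBall y (slR m)) = slV k m := by
  rw [Real.volume_pi_closedBall y (slR_pos m).le, slV, Fintype.card_fin,
    ENNReal.ofReal_pow (by have := slR_pos m; positivity)]

theorem slV_ne_zero (k m : ℕ) : slV k m ≠ 0 :=
  pow_ne_zero _ (by have := slR_pos m; simpa using this)

theorem slV_ne_top (k m : ℕ) : slV k m ≠ ⊤ := ENNReal.pow_ne_top ENNReal.ofReal_ne_top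

section
variable {k d : ℕ} (ρ : Measure (Sphere d))

/-- mass of a slab -/
noncomputable def slA (S : Set (Sphere d)) (m : ℕ) (p : Mat k d × (Fin k → ℝ)) : ℝ≥0∞ :=
  ρ (S ∩ {w | ‖app p.1 (w : E d) - p.2‖ ≤ slR m})

theorem slA_set {S : Set (Sphere d)} (hS : MeasurableSet S) (m : ℕ) :
    MeasurableSet {q : (Mat k d × (Fin k → ℝ)) × Sphere d |
      q.2 ∈ S ∧ ‖app q.1.1 (q.2 : E d) - q.1.2‖ ≤ slR m} := by
  have h : Measurable fun q : (Mat k d × (Fin k → ℝ)) × Sphere d =>
      ‖app q.1.1 (q.2 : E d) - q.1.2‖ :=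
    (((sl_app_meas k d).comp (measurable_fst.fst.prodMk measurable_snd)).sub
      measurable_fst.snd).norm
  exact (measurable_snd hS).inter (measurableSet_le h measurable_const)

theorem slA_meas [IsProbabilityMeasure ρ] {S : Set (Sphere d)} (hS : MeasurableSet S) (m : ℕ) :
    Measurable (slA (k := k) ρ S m) :=
  measurable_measure_prodMk_left (ν := ρ) (slA_set hS m)

theorem slA_eq (S : Set (Sphere d)) (m : ℕ) (X : Mat k d) (y : Fin k → ℝ) :
    ((ρ.restrict S).map fun w : Sphere d => app X (w : E d)) (Metric.closedBall y (slR m))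
      = slA ρ S m (X, y) := by
  rw [Measure.map_apply (sl_app_meas' X) Metric.isClosed_closedBall.measurableSet,
    Measure.restrict_apply (sl_app_meas' X Metric.isClosed_closedBall.measurableSet), slA,
    inter_comm]
  congr 1

/-- the inverse density -/
noncomputable def slI (p : Mat k d × (Fin k → ℝ)) : ℝ≥0∞ :=
  liminf (fun m => slV k m / slA ρ univ m p) atTop

theorem slI_meas [IsProbabilityMeasure ρ] : Measurable (slI (k := k) ρ) :=
  Measurable.liminf fun m => measurable_const.div (slA_meas ρ MeasurableSet.univ m)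

theorem slI_ae [IsProbabilityMeasure ρ] (X : Mat k d) :
    ∀ᵐ y ∂(ρ.map fun w : Sphere d => app X (w : E d)),
      Tendsto (fun m => slV k m / slA ρ univ m (X, y)) atTop (𝓝 (slI ρ (X, y))) ∧
      slI ρ (X, y) = volume.rnDeriv (ρ.map fun w : Sphere d => app X (w : E d)) y := by
  filter_upwards [Besicovitch.ae_tendsto_rnDeriv (volume : Measure (Fin k → ℝ))
    (ρ.map fun w : Sphere d => app X (w : E d))] with y hy
  have h1 := hy.comp slR_tendsto
  have h2 : Tendsto (fun m => slV k m / slA ρ univ m (X, y)) atTop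
      (𝓝 (volume.rnDeriv (ρ.map fun w : Sphere d => app X (w : E d)) y)) := by
    refine h1.congr fun m => ?_
    simp only [Function.comp]
    rw [slV_eq, ← slA_eq, Measure.restrict_univ]
  have h3 : slI ρ (X, y) = _ := h2.liminf_eq
  exact ⟨h3 ▸ h2, h3⟩

/-- joint law of measurement and signal -/
noncomputable def slK [IsProbabilityMeasure ρ] : Kernel (Mat k d) ((Fin k → ℝ) × Sphere d) where
  toFun X := ρ.map fun w : Sphere d => (app X (w : E d), w)
  measurable' := by
    refine Measure.measurable_of_measurable_coe _ fun s hs => ?_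
    have hm : Measurable fun p : Mat k d × Sphere d => (app p.1 (p.2 : E d), p.2) :=
      (sl_app_meas k d).prodMk measurable_snd
    have := measurable_measure_prodMk_left (ν := ρ) (hm hs)
    convert this using 2 with X
    rw [Measure.map_apply ((sl_app_meas' X).prodMk measurable_id') hs]
    rfl

theorem slK_apply [IsProbabilityMeasure ρ] (X : Mat k d) :
    slK ρ X = ρ.map fun w : Sphere d => (app X (w : E d), w) := rfl

instance [IsProbabilityMeasure ρ] : IsMarkovKernel (slK (k := k) ρ) :=
  ⟨fun X => by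
    rw [slK_apply]
    exact Measure.isProbabilityMeasure_map
      ((sl_app_meas' X).prodMk measurable_id').aemeasurable⟩

theorem sl_exists_pi [IsProbabilityMeasure ρ] :
    ∃ π : Kernel (Mat k d × (Fin k → ℝ)) (Sphere d), IsMarkovKernel π ∧
      ∀ (X : Mat k d) (f : (Fin k → ℝ) × Sphere d → ℝ≥0∞), Measurable f →
        ∫⁻ w, ∫⁻ w', f (app X w, w') ∂π (X, app X w) ∂ρ = ∫⁻ w, f (app X w, w) ∂ρ := by
  have : Nonempty (Sphere d) := nonempty_of_isProbabilityMeasure ρ
  refine ⟨(slK ρ).condKernel, inferInstance, fun X f hf => ?_⟩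
  have h := lintegral_condKernel (κ := slK (k := k) ρ) hf X
  rw [Kernel.fst_apply, slK_apply, Measure.map_map measurable_fst
    ((sl_app_meas' X).prodMk measurable_id'),
    lintegral_map hf ((sl_app_meas' X).prodMk measurable_id')] at h
  rw [← h, lintegral_map]
  · rfl
  · exact Measurable.lintegral_kernel_prod_right''
      (η := (slK (k := k) ρ).condKernel) (a := X) (f := f) hf
  · exact sl_app_meas' X

variable {ρ}

theorem sl_restrict_map [IsProbabilityMeasure ρ]
    (π : Kernel (Mat k d × (Fin k → ℝ)) (Sphere d)) [IsMarkovKernel π]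
    (hπ : ∀ (X : Mat k d) (f : (Fin k → ℝ) × Sphere d → ℝ≥0∞), Measurable f →
        ∫⁻ w, ∫⁻ w', f (app X w, w') ∂π (X, app X w) ∂ρ = ∫⁻ w, f (app X w, w) ∂ρ)
    (X : Mat k d) {S : Set (Sphere d)} (hS : MeasurableSet S) (g : (Fin k → ℝ) → ℝ≥0∞)
    (hg : Measurable g) :
    ∫⁻ w, g (app X w) * π (X, app X w) S ∂ρ = ∫⁻ w in S, g (app X w) ∂ρ := by
  have h := hπ X (fun q => g q.1 * S.indicator 1 q.2)
    ((hg.comp measurable_fst).mul ((measurable_one.indicator hS).comp measurable_snd))
  rw [← lintegral_indicator hS]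
  refine Eq.trans (lintegral_congr fun w => ?_) (h.trans (lintegral_congr fun w => ?_))
  · dsimp only
    rw [lintegral_const_mul _ (measurable_one.indicator hS), lintegral_indicator_one hS]
  · by_cases hw : w ∈ S <;> simp [hw]

theorem sl_pi_ae [IsProbabilityMeasure ρ]
    (π : Kernel (Mat k d × (Fin k → ℝ)) (Sphere d)) [IsMarkovKernel π]
    (hπ : ∀ (X : Mat k d) (f : (Fin k → ℝ) × Sphere d → ℝ≥0∞), Measurable f →
        ∫⁻ w, ∫⁻ w', f (app X w, w') ∂π (X, app X w) ∂ρ = ∫⁻ w, f (app X w, w) ∂ρ)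
    (X : Mat k d) {S : Set (Sphere d)} (hS : MeasurableSet S) :
    ∀ᵐ y ∂(ρ.map fun w : Sphere d => app X (w : E d)),
      Tendsto (fun m => slA ρ S m (X, y) / slA ρ univ m (X, y)) atTop (𝓝 (π (X, y) S)) := by
  have hm : Measurable fun y : Fin k → ℝ => π (X, y) S :=
    (π.measurable_coe hS).comp (measurable_const.prodMk measurable_id)
  have e : ((ρ.restrict S).map fun w : Sphere d => app X (w : E d))
      = (ρ.map fun w : Sphere d => app X (w : E d)).withDensity fun y => π (X, y) S := by
    ext B hB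
    rw [withDensity_apply _ hB, ← lintegral_indicator hB,
      lintegral_map (hm.indicator hB) (sl_app_meas' X), ← lintegral_indicator_one hB,
      lintegral_map (measurable_one.indicator hB) (sl_app_meas' X),
      ← sl_restrict_map π hπ X hS _ (measurable_one.indicator hB)]
    congr 1
    ext w
    by_cases hw : app X (w : E d) ∈ B <;> simp [hw]
  filter_upwards [Besicovitch.ae_tendsto_rnDeriv
    ((ρ.restrict S).map fun w : Sphere d => app X (w : E d))
    (ρ.map fun w : Sphere d => app X (w : E d)),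
    Measure.rnDeriv_withDensity (ρ.map fun w : Sphere d => app X (w : E d)) hm] with y hy hy2
  rw [← e] at hy2
  rw [hy2] at hy
  refine (hy.comp slR_tendsto).congr fun m => ?_
  simp only [Function.comp]
  rw [slA_eq, ← slA_eq ρ univ, Measure.restrict_univ]

theorem sl_VV_meas (h0 : G0) (k d n : ℕ) :
    Measurable fun ws : Fin (n + 1) → Sphere d => VV k (vecs ws) := by
  have hv : Measurable fun ws : Fin (n + 1) → Sphere d => vecs ws :=
    measurable_pi_lambda _ fun i => measurable_subtype_coe.comp (measurable_pi_apply i)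
  have h : ∀ j : Fin n, Measurable fun ws : Fin (n + 1) → Sphere d =>
      dl (vecs ws) j.succ (vecs ws j.succ) := fun j => by
    have h2 : Measurable fun ws : Fin (n + 1) → Sphere d => (vecs ws, vecs ws j.succ) :=
      hv.prodMk ((measurable_pi_apply _).comp hv)
    have h3 := (h0 d n j.succ).comp h2
    simpa only [Function.comp_def] using h3
  exact Finset.measurable_prod _ fun j _ => ((h j).ennreal_ofReal.inv).pow_const k

theorem sl_slab (h1 : G1) [IsProbabilityMeasure ρ] {n : ℕ}
    (S : Fin (n + 1) → Set (Sphere d)) (hS : ∀ i, MeasurableSet (S i)) (m : ℕ) :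
    ∫⁻ X, ∫⁻ w in S 0, (slV k m)⁻¹ ^ n * ∏ j : Fin n, slA ρ (S j.succ) m (X, app X w) ∂ρ
        ∂gam k d
      ≤ ∫⁻ ws in Set.pi univ S, VV k (vecs ws) ∂(Measure.pi fun _ : Fin (n + 1) => ρ) := by
  have hT : MeasurableSet {q : Mat k d × (Fin (n + 1) → Sphere d) | q.2 ∈ Set.pi univ S ∧
      ∀ j : Fin n, ‖app q.1 (q.2 j.succ : E d) - app q.1 (q.2 0 : E d)‖ ≤ slR m} := by
    have ha : ∀ i, Measurable fun q : Mat k d × (Fin (n + 1) → Sphere d) =>
        app q.1 (q.2 i : E d) := fun i => by
      have h2 : Measurable fun q : Mat k d × (Fin (n + 1) → Sphere d) => (q.1, q.2 i) :=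
        measurable_fst.prodMk ((measurable_pi_apply _).comp measurable_snd)
      have h3 := (sl_app_meas k d).comp h2
      simpa only [Function.comp_def] using h3
    have h := MeasurableSet.iInter fun j : Fin n =>
      measurableSet_le ((ha j.succ).sub (ha 0)).norm (measurable_const (a := slR m))
    convert (measurable_snd (MeasurableSet.univ_pi hS)).inter h using 1
    ext q
    simp
  set T := {q : Mat k d × (Fin (n + 1) → Sphere d) | q.2 ∈ Set.pi univ S ∧
      ∀ j : Fin n, ‖app q.1 (q.2 j.succ : E d) - app q.1 (q.2 0 : E d)‖ ≤ slR m} with hTdef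
  have hc : (slV k m)⁻¹ ^ n ≠ ⊤ := ENNReal.pow_ne_top (ENNReal.inv_ne_top.2 (slV_ne_zero k m))
  have e1 : ∀ X : Mat k d, ∫⁻ w in S 0, ∏ j : Fin n, slA ρ (S j.succ) m (X, app X w) ∂ρ
      = (Measure.pi fun _ : Fin (n + 1) => ρ) (Prod.mk X ⁻¹' T) := by
    intro X
    have hp := (measurePreserving_piFinSuccAbove (fun _ : Fin (n + 1) => ρ) 0).symm
    have hX : MeasurableSet (Prod.mk X ⁻¹' T) := measurable_prodMk_left hT
    rw [← hp.measure_preimage hX.nullMeasurableSet, Measure.prod_apply (hp.measurable hX),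
      ← lintegral_indicator (hS 0)]
    congr 1
    ext w
    by_cases hw : w ∈ S 0
    · rw [indicator_of_mem hw]
      unfold slA
      rw [← Measure.pi_pi]
      congr 1
      ext ws
      simp [hTdef, MeasurableEquiv.piFinSuccAbove, Fin.forall_fin_succ, hw, forall_and]
    · rw [indicator_of_notMem hw]
      symm
      convert measure_empty (μ := Measure.pi fun j : Fin n => ρ)
      ext ws
      simp [hTdef, MeasurableEquiv.piFinSuccAbove, Fin.forall_fin_succ, hw]
  simp_rw [lintegral_const_mul' _ _ hc, e1]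
  rw [← Measure.prod_apply hT, Measure.prod_apply_symm hT, ← lintegral_const_mul' _ _ hc,
    ← lintegral_indicator (MeasurableSet.univ_pi hS)]
  refine lintegral_mono fun ws => ?_
  by_cases hws : ws ∈ Set.pi univ S
  · rw [indicator_of_mem hws]
    have h := h1 k d n (vecs ws) (slR m) (slR_pos m)
    have e : (fun X : Mat k d => (X, ws)) ⁻¹' T
        = {X | ∀ j : Fin n, ‖app X (vecs ws j.succ) - app X (vecs ws 0)‖ ≤ slR m} := by
      ext X
      simp only [hTdef, mem_preimage, mem_ofPred_eq, hws, true_and]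
      rfl
    rw [e]
    refine (mul_le_mul_right h _).trans (le_of_eq ?_)
    rw [pow_mul, ← mul_assoc, ← mul_pow]
    change ((slV k m)⁻¹ * slV k m) ^ n * _ = _
    rw [ENNReal.inv_mul_cancel (slV_ne_zero k m) (slV_ne_top k m), one_pow, one_mul]
  · have e : (fun X : Mat k d => (X, ws)) ⁻¹' T = ∅ := by
      ext X
      simp only [hTdef, mem_preimage, mem_ofPred_eq, hws, false_and, mem_empty_iff_false]
    rw [e]
    simp

theorem sl_box (h1 : G1) [IsProbabilityMeasure ρ]
    (π : Kernel (Mat k d × (Fin k → ℝ)) (Sphere d)) [IsMarkovKernel π]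
    (hπ : ∀ (X : Mat k d) (f : (Fin k → ℝ) × Sphere d → ℝ≥0∞), Measurable f →
        ∫⁻ w, ∫⁻ w', f (app X w, w') ∂π (X, app X w) ∂ρ = ∫⁻ w, f (app X w, w) ∂ρ)
    {n : ℕ} (S : Fin (n + 1) → Set (Sphere d)) (hS : ∀ i, MeasurableSet (S i)) :
    ∫⁻ X, ∫⁻ w, (slI ρ (X, app X w))⁻¹ ^ n * ∏ i, π (X, app X w) (S i) ∂ρ ∂gam k d
      ≤ ∫⁻ ws in Set.pi univ S, VV k (vecs ws) ∂(Measure.pi fun _ : Fin (n + 1) => ρ) := by
  have hF : ∀ m, Measurable fun p : Mat k d × Sphere d =>
      (slV k m)⁻¹ ^ n * ∏ j : Fin n, slA ρ (S j.succ) m (p.1, app p.1 p.2) := fun m =>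
    measurable_const.mul (Finset.measurable_prod _ fun j _ =>
      (slA_meas ρ (hS _) m).comp (measurable_fst.prodMk (sl_app_meas k d)))
  have step : ∀ X : Mat k d,
      ∫⁻ w, (slI ρ (X, app X w))⁻¹ ^ n * ∏ i, π (X, app X w) (S i) ∂ρ
        ≤ liminf (fun m => ∫⁻ w in S 0,
          (slV k m)⁻¹ ^ n * ∏ j : Fin n, slA ρ (S j.succ) m (X, app X w) ∂ρ) atTop := by
    intro X
    have hg : Measurable fun y : Fin k → ℝ =>
        (slI ρ (X, y))⁻¹ ^ n * ∏ j : Fin n, π (X, y) (S j.succ) :=
      (((slI_meas ρ).comp (measurable_const.prodMk measurable_id)).inv.pow_const _).mul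
        (Finset.measurable_prod _ fun j _ =>
          (π.measurable_coe (hS _)).comp (measurable_const.prodMk measurable_id))
    have e := sl_restrict_map π hπ X (hS 0) _ hg
    have e' : ∫⁻ w, (slI ρ (X, app X w))⁻¹ ^ n * ∏ i, π (X, app X w) (S i) ∂ρ
        = ∫⁻ w in S 0, (slI ρ (X, app X w))⁻¹ ^ n * ∏ j : Fin n, π (X, app X w) (S j.succ) ∂ρ := by
      rw [← e]
      congr 1
      ext w
      rw [Fin.prod_univ_succ]
      ring
    rw [e']
    have hF' : ∀ m, Measurable fun w : Sphere d =>
        (slV k m)⁻¹ ^ n * ∏ j : Fin n, slA ρ (S j.succ) m (X, app X w) := fun m => by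
      have h3 := (hF m).comp (measurable_prodMk_left (x := X))
      simpa only [Function.comp_def] using h3
    refine le_trans (lintegral_mono_ae (ae_restrict_of_ae ?_)) (lintegral_liminf_le hF')
    have a1 := ae_of_ae_map (sl_app_meas' X).aemeasurable (slI_ae ρ X)
    have a2 := ae_of_ae_map (sl_app_meas' X).aemeasurable
      (Measure.rnDeriv_lt_top (volume : Measure (Fin k → ℝ))
        (ρ.map fun w : Sphere d => app X (w : E d)))
    have a3 := ae_all_iff.2 fun j : Fin n => ae_of_ae_map (sl_app_meas' X).aemeasurable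
      (sl_pi_ae π hπ X (hS j.succ))
    filter_upwards [a1, a2, a3] with w b1 b2 b3
    exact sl_prod_le_liminf (fun j m => slA ρ (S j.succ) m (X, app X w))
      (fun m => slA ρ univ m (X, app X w)) (slV k) _ _ (b1.2 ▸ b2.ne) b3 b1.1
      (fun m => measure_ne_top _ _) (slV_ne_zero k)
  refine (lintegral_mono step).trans ((lintegral_liminf_le fun m => ?_).trans ?_)
  · exact (hF m).lintegral_prod_right'
  · exact liminf_le_of_frequently_le' (Frequently.of_forall fun m => sl_slab h1 S hS m)

end

theorem d1 (h0 : G0) (h1 : G1) : D1 := by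
  intro k d ρ hρ
  obtain ⟨π, hm, hπ⟩ := sl_exists_pi (k := k) ρ
  have hpi : ∀ n : ℕ, Measurable fun p : Mat k d × (Fin k → ℝ) =>
      Measure.pi fun _ : Fin n => π p := by
    intro n
    refine Measurable.measure_of_isPiSystem_of_isProbabilityMeasure generateFrom_pi.symm
      isPiSystem_pi ?_
    rintro _ ⟨S, hS, rfl⟩
    simp_rw [Measure.pi_pi]
    exact Finset.measurable_prod _ fun i _ => π.measurable_coe (hS i trivial)
  refine ⟨⟨π, hm, slI ρ, slI_meas ρ, hπ, fun X f hf => ?_, fun X => ?_, hpi,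
    fun n H hH hV => ?_⟩⟩
  · have hg : Measurable fun y : Fin k → ℝ => slI ρ (X, y) :=
      (slI_meas ρ).comp (measurable_const.prodMk measurable_id)
    have hgf : Measurable fun y : Fin k → ℝ => slI ρ (X, y) * f y := hg.mul hf
    rw [← lintegral_map hgf (sl_app_meas' X)]
    calc ∫⁻ y, slI ρ (X, y) * f y ∂(ρ.map fun w : Sphere d => app X (w : E d))
        = ∫⁻ y, (volume.rnDeriv (ρ.map fun w : Sphere d => app X (w : E d)) * f) y
          ∂(ρ.map fun w : Sphere d => app X (w : E d)) := by
          refine lintegral_congr_ae ?_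
          filter_upwards [slI_ae ρ X] with y hy
          rw [hy.2]; rfl
      _ = _ := (lintegral_withDensity_eq_lintegral_mul _ (Measure.measurable_rnDeriv _ _) hf).symm
      _ ≤ _ := lintegral_mono' (Measure.withDensity_rnDeriv_le _ _) le_rfl
  · have a1 := ae_of_ae_map (sl_app_meas' X).aemeasurable (slI_ae ρ X)
    have a2 := ae_of_ae_map (sl_app_meas' X).aemeasurable
      (Measure.rnDeriv_lt_top (volume : Measure (Fin k → ℝ))
        (ρ.map fun w : Sphere d => app X (w : E d)))
    filter_upwards [a1, a2] with w b1 b2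
    exact b1.2 ▸ b2
  · have hq : Measurable fun p : Mat k d × Sphere d => (p.1, app p.1 (p.2 : E d)) :=
      measurable_fst.prodMk (sl_app_meas k d)
    have hc : Measurable fun p : Mat k d × Sphere d => (slI ρ (p.1, app p.1 (p.2 : E d)))⁻¹ ^ n :=
      ((slI_meas ρ).comp hq).inv.pow_const _
    have hK : Measurable fun p : Mat k d × Sphere d =>
        Measure.pi fun _ : Fin (n + 1) => π (p.1, app p.1 (p.2 : E d)) := (hpi (n + 1)).comp hq
    set μL : Measure (Fin (n + 1) → Sphere d) :=
      (((gam k d).prod ρ).withDensity fun p => (slI ρ (p.1, app p.1 (p.2 : E d)))⁻¹ ^ n).bind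
        fun p => Measure.pi fun _ : Fin (n + 1) => π (p.1, app p.1 (p.2 : E d)) with hμL
    have hL : ∀ G : (Fin (n + 1) → Sphere d) → ℝ≥0∞, Measurable G →
        ∫⁻ ws, G ws ∂μL = ∫⁻ X, ∫⁻ w, (slI ρ (X, app X w))⁻¹ ^ n *
          ∫⁻ ws, G ws ∂(Measure.pi fun _ : Fin (n + 1) => π (X, app X w)) ∂ρ ∂gam k d := by
      intro G hG
      have hG' : Measurable fun p : Mat k d × Sphere d =>
          ∫⁻ ws, G ws ∂(Measure.pi fun _ : Fin (n + 1) => π (p.1, app p.1 (p.2 : E d))) :=
        (Measure.measurable_lintegral hG).comp hK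
      rw [hμL, Measure.lintegral_bind hK.aemeasurable hG.aemeasurable,
        lintegral_withDensity_eq_lintegral_mul _ hc hG',
        lintegral_prod _ (hc.mul hG').aemeasurable]
      rfl
    have hVm := sl_VV_meas h0 k d n
    have : IsFiniteMeasure ((Measure.pi fun _ : Fin (n + 1) => ρ).withDensity
        fun ws => VV k (vecs ws)) := isFiniteMeasure_withDensity hV
    have hle : μL ≤ (Measure.pi fun _ : Fin (n + 1) => ρ).withDensity
        fun ws => VV k (vecs ws) := by
      refine sl_le_of_boxes _ _ fun S hS => ?_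
      have hS' := MeasurableSet.univ_pi hS
      rw [withDensity_apply _ hS', ← lintegral_indicator_one hS',
        hL _ (measurable_one.indicator hS')]
      simp_rw [lintegral_indicator_one hS', Measure.pi_pi]
      exact sl_box h1 π hπ S hS
    simp_rw [lintegral_const_mul _ hH]
    rw [← hL H hH]
    refine (lintegral_mono' hle le_rfl).trans (le_of_eq ?_)
    rw [lintegral_withDensity_eq_lintegral_mul _ hVm hH]
    congr 1
    ext ws
    exact mul_comm _ _

end Crest.Agent.SL
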