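import Mathlib
import Crest.Agent.SL.Defs

/-! Sphere lemmas `S0`–`S3` for row 322. -/

set_option autoImplicit false

namespace Crest.Agent.SL

open MeasureTheory ProbabilityTheory Crest.StreamLearn Set Metric
open scoped ENNReal NNReal RealInnerProductSpace Pointwise

/-- the open cone over a subset of the sphere -/
def sphCone {d : ℕ} (s : Set (Sphere d)) : Set (E d) :=
  Ioo (0 : ℝ) 1 • ((↑) '' s : Set (E d))

theorem mem_sphCone {d : ℕ} {s : Set (Sphere d)} {x : E d} :
    x ∈ sphCone s ↔ ∃ t : ℝ, 0 < t ∧ t < 1 ∧ ∃ w ∈ s, x = t • (w : E d) := by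
  constructor
  · rintro ⟨t, ht, _, ⟨w, hw, rfl⟩, rfl⟩
    exact ⟨t, ht.1, ht.2, w, hw, rfl⟩
  · rintro ⟨t, h0, h1, w, hw, rfl⟩
    exact ⟨t, ⟨h0, h1⟩, _, ⟨w, hw, rfl⟩, rfl⟩

theorem sph_ball_ne_zero (d : ℕ) : (volume : Measure (E d)) (ball 0 1) ≠ 0 :=
  (measure_ball_pos _ _ one_pos).ne'

theorem sph_ball_ne_top (d : ℕ) : (volume : Measure (E d)) (ball 0 1) ≠ ⊤ :=
  measure_ball_lt_top.ne

theorem sphereUniform_apply {d : ℕ} (hd : 1 ≤ d) {s : Set (Sphere d)} (hs : MeasurableSet s) :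
    sphereUniform d s = volume (sphCone s) / (volume : Measure (E d)) (ball 0 1) := by
  have hd0 : (d : ℝ≥0∞) ≠ 0 := by exact_mod_cast (by omega : d ≠ 0)
  have hdt : (d : ℝ≥0∞) ≠ ⊤ := ENNReal.natCast_ne_top d
  rw [sphereUniform, Measure.smul_apply, Measure.toSphere_apply_univ,
    Measure.toSphere_apply' _ hs, finrank_euclideanSpace_fin, smul_eq_mul,
    ENNReal.mul_inv (Or.inl hd0) (Or.inl hdt), ENNReal.div_eq_inv_mul, sphCone]
  calc (d : ℝ≥0∞)⁻¹ * ((volume : Measure (E d)) (ball 0 1))⁻¹ *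
        (d * volume (Ioo (0 : ℝ) 1 • ((↑) '' s : Set (E d))))
      = ((d : ℝ≥0∞)⁻¹ * d) * (((volume : Measure (E d)) (ball 0 1))⁻¹ *
        volume (Ioo (0 : ℝ) 1 • ((↑) '' s : Set (E d)))) := by ring
    _ = _ := by rw [ENNReal.inv_mul_cancel hd0 hdt, one_mul]

theorem sphereUniform_le {d : ℕ} (hd : 1 ≤ d) {s : Set (Sphere d)} (hs : MeasurableSet s)
    {c : ℝ≥0∞} (h : volume (sphCone s) ≤ c * (volume : Measure (E d)) (ball 0 1)) :
    sphereUniform d s ≤ c := by
  rw [sphereUniform_apply hd hs]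
  exact ENNReal.div_le_of_le_mul h

theorem s0 : S0 := by
  intro d hd
  constructor
  rw [sphereUniform, Measure.smul_apply, smul_eq_mul]
  refine ENNReal.inv_mul_cancel ?_ (measure_ne_top _ _)
  rw [Measure.toSphere_apply_univ, finrank_euclideanSpace_fin]
  exact mul_ne_zero (by exact_mod_cast (by omega : d ≠ 0)) (sph_ball_ne_zero d)

theorem sph_norm {d : ℕ} (w : Sphere d) : ‖(w : E d)‖ = 1 := norm_eq_of_mem_sphere w

theorem s1 : S1 := by
  intro d v r hd hr hr1
  have hs : MeasurableSet {w : Sphere d | ‖(w : E d) - v‖ ≤ r} :=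
    measurableSet_le (by fun_prop) measurable_const
  refine sphereUniform_le hd hs ?_
  set N : ℕ := ⌊1 / r⌋₊ + 1 with hN
  have hsub : sphCone {w : Sphere d | ‖(w : E d) - v‖ ≤ r}
      ⊆ ⋃ j ∈ Finset.range N, closedBall (((j : ℝ) * r) • v) (3 * r) := by
    intro x hx
    obtain ⟨t, h0, h1, w, hw, rfl⟩ := mem_sphCone.1 hx
    have hw' : ‖(w : E d) - v‖ ≤ r := hw
    have hv : ‖v‖ ≤ 2 := by
      have : ‖v‖ ≤ ‖(w : E d)‖ + ‖(w : E d) - v‖ := by
        calc ‖v‖ = ‖(w : E d) - ((w : E d) - v)‖ := by congr 1; abel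
          _ ≤ _ := norm_sub_le _ _
      rw [sph_norm] at this
      linarith
    have htr : 0 ≤ t / r := by positivity
    have hj1 : (⌊t / r⌋₊ : ℝ) * r ≤ t := by
      have := Nat.floor_le htr
      rwa [le_div_iff₀ hr] at this
    have hj2 : t ≤ (⌊t / r⌋₊ : ℝ) * r + r := by
      have := (Nat.lt_floor_add_one (t / r)).le
      rw [div_le_iff₀ hr] at this
      linarith
    simp only [mem_iUnion, Finset.mem_range]
    refine ⟨⌊t / r⌋₊, ?_, ?_⟩
    · rw [hN]
      exact Nat.lt_succ_of_le (Nat.floor_le_floor (by gcongr))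
    · rw [mem_closedBall, dist_eq_norm]
      have : t • (w : E d) - ((⌊t / r⌋₊ : ℝ) * r) • v
          = t • ((w : E d) - v) + (t - (⌊t / r⌋₊ : ℝ) * r) • v := by
        rw [smul_sub, sub_smul]; abel
      rw [this]
      refine (norm_add_le _ _).trans ?_
      rw [norm_smul, norm_smul, Real.norm_of_nonneg h0.le, Real.norm_of_nonneg (by linarith)]
      have h3 : t * ‖(w : E d) - v‖ ≤ 1 * r := by gcongr
      have h4 : (t - (⌊t / r⌋₊ : ℝ) * r) * ‖v‖ ≤ r * 2 := by
        gcongr
        linarith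
      linarith
  refine (measure_mono hsub).trans ((measure_biUnion_finset_le _ _).trans ?_)
  have hb : ∀ j ∈ Finset.range N, (volume : Measure (E d)) (closedBall (((j : ℝ) * r) • v) (3 * r))
      = ENNReal.ofReal ((3 * r) ^ d) * (volume : Measure (E d)) (ball 0 1) := fun j _ => by
    rw [Measure.addHaar_closedBall _ _ (by positivity), finrank_euclideanSpace_fin]
  rw [Finset.sum_congr rfl hb, Finset.sum_const, Finset.card_range, nsmul_eq_mul, ← mul_assoc,
    ← ENNReal.ofReal_natCast, ← ENNReal.ofReal_mul (Nat.cast_nonneg _)]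
  refine mul_le_mul_left (ENNReal.ofReal_le_ofReal ?_) _
  have hN1 : (N : ℝ) * r ≤ 2 := by
    have h1 : (⌊1 / r⌋₊ : ℝ) ≤ 1 / r := Nat.floor_le (by positivity)
    rw [le_div_iff₀ hr] at h1
    rw [hN]
    push_cast
    linarith
  obtain ⟨e, rfl⟩ : ∃ e, d = e + 1 := ⟨d - 1, by omega⟩
  rw [Nat.add_sub_cancel, mul_pow]
  calc (N : ℝ) * (3 ^ (e + 1) * r ^ (e + 1)) = (N * r) * (3 ^ (e + 1) * r ^ e) := by ring
    _ ≤ 3 * (4 ^ (e + 1) * r ^ e) := by
        gcongr
        · linarith
        · norm_num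
    _ = _ := by ring

/-- volume of a box in the coordinates of an orthonormal basis -/
theorem vol_box {d : ℕ} (b : OrthonormalBasis (Fin d) ℝ (E d)) (a : Fin d → ℝ) :
    (volume : Measure (E d)) {x | ∀ i, |⟪b i, x⟫| ≤ a i} = ∏ i, ENNReal.ofReal (2 * a i) := by
  have h := (PiLp.volume_preserving_ofLp (Fin d)).comp b.measurePreserving_repr
  have h2 := h.measure_preimage
    (s := Icc (fun i => -a i) a) measurableSet_Icc.nullMeasurableSet
  rw [Real.volume_Icc_pi] at h2
  have h3 : {x : E d | ∀ i, |⟪b i, x⟫| ≤ a i}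
      = (WithLp.ofLp ∘ b.repr) ⁻¹' Icc (fun i => -a i) a := by
    ext x
    simp only [mem_ofPred_eq, mem_preimage, mem_Icc, Pi.le_def, Function.comp_apply,
      OrthonormalBasis.repr_apply_apply, abs_le, forall_and]
  rw [h3, h2]
  refine Finset.prod_congr rfl fun i _ => ?_
  congr 1
  ring

theorem vol_ball_ge {d : ℕ} (hd : 1 ≤ d) :
    ENNReal.ofReal ((2 / d) ^ d) ≤ (volume : Measure (E d)) (ball 0 1) := by
  have hd' : (1 : ℝ) ≤ d := by exact_mod_cast hd
  rw [← Measure.addHaar_unitClosedBall_eq_addHaar_unitBall]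
  let b := EuclideanSpace.basisFun (Fin d) ℝ
  have h := vol_box b (fun _ => 1 / (d : ℝ))
  rw [Finset.prod_const, Finset.card_univ, Fintype.card_fin, ← ENNReal.ofReal_pow (by positivity),
    mul_one_div] at h
  rw [← h]
  refine measure_mono fun x hx => ?_
  rw [mem_closedBall, dist_zero_right]
  have h1 := b.sum_sq_inner_right x
  have h2 : ∑ i, ⟪b i, x⟫ ^ 2 ≤ ∑ _i : Fin d, (1 / (d : ℝ)) ^ 2 := by
    refine Finset.sum_le_sum fun i _ => ?_
    rw [← sq_abs]
    exact pow_le_pow_left₀ (abs_nonneg _) (hx i) 2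
  rw [Finset.sum_const, Finset.card_univ, Fintype.card_fin, nsmul_eq_mul, h1] at h2
  have h3 : (d : ℝ) * (1 / d) ^ 2 ≤ 1 := by
    have : (d : ℝ) * (1 / d) ^ 2 = 1 / d := by field_simp
    rw [this, div_le_one (by linarith)]
    exact hd'
  nlinarith [norm_nonneg x]

theorem s2 : S2 := by
  intro d k r U h hd hU hrk hh
  have hd' : (1 : ℝ) ≤ d := by exact_mod_cast hd
  set W := Submodule.span ℝ U with hW
  have hs : MeasurableSet {w : Sphere d | sd (w : E d) U ≤ h} := by
    refine measurableSet_le ?_ measurable_const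
    exact ((continuous_infDist_pt _).comp continuous_subtype_val).measurable
  refine sphereUniform_le hd hs ?_
  have hdim : k ≤ Module.finrank ℝ Wᗮ := by
    have := W.finrank_add_finrank_orthogonal
    rw [finrank_euclideanSpace_fin] at this
    omega
  let c := stdOrthonormalBasis ℝ Wᗮ
  let v : Fin d → E d := fun i =>
    if hi : i.val < k then (c (Fin.castLE hdim ⟨i, hi⟩) : E d) else 0
  have he : Orthonormal ℝ fun i : Fin k => (c (Fin.castLE hdim i) : E d) :=
    (c.orthonormal.comp _ (Fin.castLE_injective hdim)).comp_linearIsometry Wᗮ.subtypeₗᵢ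
  have hv : Orthonormal ℝ ({i : Fin d | i.val < k}.domRestrict v) := by
    have := he.comp (fun i : {i : Fin d | i.val < k} => (⟨i.1.1, i.2⟩ : Fin k)) (by
      intro i j hij
      have h3 : i.1.1 = j.1.1 := congrArg (fun q : Fin k => q.val) hij
      exact Subtype.ext (Fin.ext h3))
    convert this using 1
    ext1 i
    have hi : i.1.1 < k := i.2
    simp [v, hi]
  obtain ⟨b, hb⟩ := hv.exists_orthonormalBasis_extension_of_card_eq (by simp)
  have hsub : sphCone {w : Sphere d | sd (w : E d) U ≤ h}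
      ⊆ {x | ∀ i, |⟪b i, x⟫| ≤ if i.val < k then h else 1} := by
    intro x hx i
    obtain ⟨t, h0, h1, w, hw, rfl⟩ := mem_sphCone.1 hx
    have hw' : sd (w : E d) U ≤ h := hw
    rw [real_inner_smul_right, abs_mul, abs_of_pos h0]
    refine (mul_le_of_le_one_left (abs_nonneg _) h1.le).trans ?_
    split_ifs with hi
    · refine le_trans ?_ hw'
      rw [sd, Metric.le_infDist ⟨0, W.zero_mem⟩]
      intro y hy
      have hbi : b i = (c (Fin.castLE hdim ⟨i, hi⟩) : E d) := by
        rw [hb i hi]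
        simp [v, hi]
      have h0 : ⟪b i, y⟫ = 0 := by
        rw [hbi]
        exact Submodule.inner_left_of_mem_orthogonal hy (c _).2
      have h2 := abs_real_inner_le_norm (b i) ((w : E d) - y)
      rw [inner_sub_right, h0, sub_zero, b.orthonormal.1 i, one_mul] at h2
      rwa [dist_eq_norm]
    · have h2 := abs_real_inner_le_norm (b i) (w : E d)
      rwa [b.orthonormal.1 i, one_mul, sph_norm] at h2
  refine (measure_mono hsub).trans ?_
  rw [vol_box]
  refine le_trans (le_of_eq ?_) (mul_le_mul_right (vol_ball_ge hd) _)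
  rw [← ENNReal.ofReal_mul (by positivity), ← ENNReal.ofReal_prod_of_nonneg]
  · congr 1
    rw [Finset.prod_mul_distrib, Finset.prod_const, Finset.card_univ, Fintype.card_fin,
      Finset.prod_ite, Finset.prod_const, Finset.prod_const_one, mul_one]
    have hc : (Finset.univ.filter fun i : Fin d => i.val < k).card = k := by
      rw [Fin.card_filter_val_lt]
      omega
    rw [hc, div_pow]
    field_simp
  · intro i _
    split_ifs <;> positivity

/-- the action of a linear isometry on the sphere -/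
noncomputable def sphMap {d : ℕ} (f : E d ≃ₗᵢ[ℝ] E d) (w : Sphere d) : Sphere d :=
  ⟨f w, by simp⟩

theorem sphMap_coe {d : ℕ} (f : E d ≃ₗᵢ[ℝ] E d) (w : Sphere d) :
    (sphMap f w : E d) = f w := rfl

theorem measurable_sphMap {d : ℕ} (f : E d ≃ₗᵢ[ℝ] E d) : Measurable (sphMap f) :=
  Measurable.subtype_mk (f.continuous.comp continuous_subtype_val).measurable

theorem measurePreserving_sphMap {d : ℕ} (hd : 1 ≤ d) (f : E d ≃ₗᵢ[ℝ] E d) :
    MeasurePreserving (sphMap f) (sphereUniform d) (sphereUniform d) := by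
  refine ⟨measurable_sphMap f, ?_⟩
  ext s hs
  rw [Measure.map_apply (measurable_sphMap f) hs, sphereUniform_apply hd hs,
    sphereUniform_apply hd (measurable_sphMap f hs)]
  congr 1
  rw [← f.measurePreserving.measure_preimage_emb f.toHomeomorph.measurableEmbedding (sphCone s)]
  congr 1
  ext x
  rw [mem_preimage, mem_sphCone, mem_sphCone]
  constructor
  · rintro ⟨t, h0, h1, w, hw, rfl⟩
    exact ⟨t, h0, h1, sphMap f w, hw, by rw [map_smul, sphMap_coe]⟩
  · rintro ⟨t, h0, h1, w, hw, hx⟩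
    refine ⟨t, h0, h1, sphMap f.symm w, ?_, ?_⟩
    · have : sphMap f (sphMap f.symm w) = w := Subtype.ext (by simp [sphMap_coe])
      rw [mem_preimage, this]
      exact hw
    · rw [sphMap_coe, ← map_smul, ← hx, f.symm_apply_apply]

theorem sph_inner_sq {d : ℕ} (hd : 1 ≤ d) (e : E d) (he : ‖e‖ = 1) :
    ∫⁻ w : Sphere d, ENNReal.ofReal (⟪e, (w : E d)⟫ ^ 2) ∂sphereUniform d = (d : ℝ≥0∞)⁻¹ := by
  have := s0 d hd
  have hm : ∀ z : E d, Measurable fun w : Sphere d => ENNReal.ofReal (⟪z, (w : E d)⟫ ^ 2) :=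
    fun z => by fun_prop
  have key : ∀ z : E d, ‖z‖ = 1 →
      ∫⁻ w : Sphere d, ENNReal.ofReal (⟪z, (w : E d)⟫ ^ 2) ∂sphereUniform d
        = ∫⁻ w : Sphere d, ENNReal.ofReal (⟪e, (w : E d)⟫ ^ 2) ∂sphereUniform d := by
    intro z hz
    let f := (ℝ ∙ (e - z))ᗮ.reflection
    have hf : f e = z := Submodule.reflection_sub (he.trans hz.symm)
    rw [← (measurePreserving_sphMap hd f).lintegral_comp (hm z)]
    refine lintegral_congr fun w => ?_
    rw [sphMap_coe, ← hf, f.inner_map_map]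
  let b := EuclideanSpace.basisFun (Fin d) ℝ
  have h1 : ∑ i, ∫⁻ w : Sphere d, ENNReal.ofReal (⟪b i, (w : E d)⟫ ^ 2) ∂sphereUniform d = 1 := by
    rw [← lintegral_finsetSum _ fun i _ => hm _]
    have : ∀ w : Sphere d, ∑ i, ENNReal.ofReal (⟪b i, (w : E d)⟫ ^ 2) = 1 := fun w => by
      rw [← ENNReal.ofReal_sum_of_nonneg fun i _ => sq_nonneg _, b.sum_sq_inner_right, sph_norm]
      simp
    simp [this]
  rw [Finset.sum_congr rfl fun i _ => key (b i) (b.orthonormal.1 i), Finset.sum_const,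
    Finset.card_univ, Fintype.card_fin, nsmul_eq_mul] at h1
  exact ENNReal.eq_inv_of_mul_eq_one_left (by rw [mul_comm]; exact h1)

theorem s3 : S3 := by
  intro d T X φ hd hT hS
  have := s0 d hd
  set S := {w : Sphere d | ‖(w : E d) - φ (app X w)‖ ≤ 1 / 10} with hSdef
  let K : Submodule ℝ (E d) := Submodule.span ℝ (range X)
  have hK : Module.finrank ℝ K ≤ T := by
    have := finrank_range_le_card (R := ℝ) X
    rwa [Fintype.card_fin] at this
  let R := K.reflection
  have happ : ∀ w : E d, app X (R w) = app X w := fun w => by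
    ext i
    have h1 : R (X i) = X i :=
      Submodule.reflection_mem_subspace_eq_self (Submodule.subset_span ⟨i, rfl⟩)
    simp only [app]
    conv_lhs => rw [← h1]
    rw [R.inner_map_map]
  let c := stdOrthonormalBasis ℝ K
  let g : Sphere d → ℝ≥0∞ := fun w => ∑ j, ENNReal.ofReal (⟪(c j : E d), (w : E d)⟫ ^ 2)
  have hgm : ∀ j, Measurable fun w : Sphere d =>
      ENNReal.ofReal (⟪(c j : E d), (w : E d)⟫ ^ 2) := fun j => by fun_prop
  have hg : ∫⁻ w, g w ∂sphereUniform d ≤ ENNReal.ofReal (1 / 4) := by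
    rw [lintegral_finsetSum _ fun j _ => hgm j,
      Finset.sum_congr rfl fun j _ => sph_inner_sq hd (c j : E d) (c.orthonormal.1 j),
      Finset.sum_const, Finset.card_univ, Fintype.card_fin, nsmul_eq_mul]
    have hd' : (0 : ℝ) < d := by exact_mod_cast hd
    rw [← ENNReal.ofReal_natCast, ← ENNReal.ofReal_natCast d, ← ENNReal.ofReal_inv_of_pos hd',
      ← ENNReal.ofReal_mul (Nat.cast_nonneg _)]
    refine ENNReal.ofReal_le_ofReal ?_
    rw [← div_eq_mul_inv, div_le_div_iff₀ hd' (by norm_num)]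
    have : ((Module.finrank ℝ K * 4 : ℕ) : ℝ) ≤ d := by exact_mod_cast (by omega)
    push_cast at this
    linarith
  have hsub : S ∩ sphMap R ⁻¹' S ⊆ {w | ENNReal.ofReal (99 / 100) ≤ g w} := by
    rintro w ⟨h1, h2⟩
    have h1' : ‖(w : E d) - φ (app X w)‖ ≤ 1 / 10 := h1
    have h2' : ‖R w - φ (app X (R w))‖ ≤ 1 / 10 := h2
    rw [happ] at h2'
    have h3 : ‖(w : E d) - R w‖ ≤ 1 / 5 := by
      calc ‖(w : E d) - R w‖ = ‖((w : E d) - φ (app X w)) - (R w - φ (app X w))‖ := by
            congr 1; abel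
        _ ≤ _ := norm_sub_le _ _
        _ ≤ 1 / 5 := by linarith
    have h4 : (w : E d) - R w = (2 : ℝ) • Kᗮ.starProjection w := by
      rw [Submodule.starProjection_orthogonal_val, Submodule.reflection_apply, two_smul, two_smul]
      abel
    rw [h4, norm_smul, Real.norm_ofNat] at h3
    have h5 := Submodule.norm_sq_eq_add_norm_sq_projection (w : E d) K
    rw [sph_norm, ← c.sum_sq_inner_right] at h5
    simp only [Submodule.inner_orthogonalProjectionOnto_eq_of_mem_left] at h5
    have h6 : ‖Kᗮ.orthogonalProjectionOnto (w : E d)‖ ≤ 1 / 10 := by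
      have : ‖Kᗮ.orthogonalProjectionOnto (w : E d)‖ = ‖Kᗮ.starProjection (w : E d)‖ := rfl
      linarith
    simp only [mem_ofPred_eq, g]
    rw [← ENNReal.ofReal_sum_of_nonneg fun i _ => sq_nonneg _]
    refine ENNReal.ofReal_le_ofReal ?_
    nlinarith [norm_nonneg (Kᗮ.orthogonalProjectionOnto (w : E d))]
  have hI : sphereUniform d (S ∩ sphMap R ⁻¹' S) ≤ ENNReal.ofReal (3 / 10) := by
    refine (measure_mono hsub).trans ?_
    refine (meas_ge_le_lintegral_div (Finset.measurable_sum _ fun j _ => hgm j).aemeasurable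
      (by simp) ENNReal.ofReal_ne_top).trans ?_
    refine ENNReal.div_le_of_le_mul (hg.trans ?_)
    rw [← ENNReal.ofReal_mul (by norm_num)]
    exact ENNReal.ofReal_le_ofReal (by norm_num)
  have h1 := measure_union_add_inter (μ := sphereUniform d) S (measurable_sphMap R hS)
  rw [(measurePreserving_sphMap hd R).measure_preimage hS.nullMeasurableSet] at h1
  have h2 : 2 * sphereUniform d S ≤ 2 * ENNReal.ofReal (13 / 20) := by
    rw [two_mul, ← h1]
    refine (add_le_add prob_le_one hI).trans (le_of_eq ?_)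
    rw [← ENNReal.ofReal_one, ← ENNReal.ofReal_add (by norm_num) (by norm_num),
      ← ENNReal.ofReal_ofNat 2, ← ENNReal.ofReal_mul (by norm_num)]
    norm_num
  exact (ENNReal.mul_le_mul_iff_right (by norm_num) (by norm_num)).1 h2

end Crest.Agent.SL
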