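import Crest.Agent.SL.Defs

/-! Elementary lemmas for the batch lemma `B1`. -/

set_option autoImplicit false

namespace Crest.Agent.SL.Bt

open MeasureTheory ProbabilityTheory Crest.StreamLearn
open scoped ENNReal NNReal RealInnerProductSpace

/-- integrate the coordinates from last to first -/
theorem seq_int {α : Type*} [MeasurableSpace α] (ρ : Measure α) [IsProbabilityMeasure ρ] (N : ℕ)
    (φ : Fin N → (Fin N → α) → ℝ≥0∞) (hφ : ∀ j, Measurable (φ j)) (c : ℝ≥0∞)
    (hdep : ∀ j t : Fin N, j < t → ∀ ws a, φ j (Function.update ws t a) = φ j ws)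
    (hint : ∀ (j : Fin N) ws, ∫⁻ a, φ j (Function.update ws j a) ∂ρ ≤ c) :
    ∫⁻ ws, ∏ j, φ j ws ∂(Measure.pi fun _ : Fin N => ρ) ≤ c ^ N := by
  classical
  have key : ∀ t : ℕ, t ≤ N →
      ∫⁻ ws, ∏ j ∈ Finset.univ.filter (fun j : Fin N => j.val < t), φ j ws
        ∂(Measure.pi fun _ : Fin N => ρ) ≤ c ^ t := by
    intro t
    induction t with
    | zero => intro _; simp
    | succ t ih =>
      intro ht
      have ht' : t < N := ht
      have hs : Finset.univ.filter (fun j : Fin N => j.val < t + 1)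
          = insert ⟨t, ht'⟩ (Finset.univ.filter (fun j : Fin N => j.val < t)) := by
        ext j
        simp only [Finset.mem_filter, Finset.mem_univ, true_and, Finset.mem_insert, Fin.ext_iff]
        omega
      have hn : (⟨t, ht'⟩ : Fin N) ∉ Finset.univ.filter (fun j : Fin N => j.val < t) := by simp
      have hm : Measurable fun ws =>
          ∏ j ∈ Finset.univ.filter (fun j : Fin N => j.val < t), φ j ws :=
        Finset.measurable_prod _ fun j _ => hφ j
      have hup : ∀ ws a, ∏ j ∈ Finset.univ.filter (fun j : Fin N => j.val < t),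
          φ j (Function.update ws ⟨t, ht'⟩ a)
          = ∏ j ∈ Finset.univ.filter (fun j : Fin N => j.val < t), φ j ws := by
        intro ws a
        refine Finset.prod_congr rfl fun j hj => hdep j _ ?_ ws a
        simpa [Fin.lt_def] using hj
      calc ∫⁻ ws, ∏ j ∈ Finset.univ.filter (fun j : Fin N => j.val < t + 1), φ j ws
            ∂(Measure.pi fun _ : Fin N => ρ)
          ≤ ∫⁻ ws, c * ∏ j ∈ Finset.univ.filter (fun j : Fin N => j.val < t), φ j ws
            ∂(Measure.pi fun _ : Fin N => ρ) := by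
            refine lintegral_le_of_lmarginal_le {(⟨t, ht'⟩ : Fin N)}
              (Finset.measurable_prod _ fun j _ => hφ j) (hm.const_mul c) ?_
            rw [lmarginal_singleton, lmarginal_singleton]
            intro ws
            simp only [hs, Finset.prod_insert hn, hup]
            have hmm : Measurable fun a => φ ⟨t, ht'⟩ (Function.update ws ⟨t, ht'⟩ a) :=
              (hφ _).comp (measurable_update ws)
            rw [lintegral_mul_const _ hmm, lintegral_const]
            simp only [measure_univ, mul_one]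
            exact mul_le_mul_left (hint _ ws) _
        _ = c * ∫⁻ ws, ∏ j ∈ Finset.univ.filter (fun j : Fin N => j.val < t), φ j ws
            ∂(Measure.pi fun _ : Fin N => ρ) := lintegral_const_mul _ hm
        _ ≤ c * c ^ t := mul_le_mul_right (ih ht'.le) _
        _ = c ^ (t + 1) := by ring
  have h := key N le_rfl
  have hu : Finset.univ.filter (fun j : Fin N => j.val < N) = Finset.univ := by
    ext j; simp
  rwa [hu] at h

theorem npow_ne_zero (k : ℕ) (x : ℝ) : npow k x ≠ 0 := by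
  unfold npow
  exact pow_ne_zero _ (ENNReal.inv_ne_zero.2 ENNReal.ofReal_ne_top)

theorem measurable_npow (k : ℕ) : Measurable (npow k) := by
  unfold npow
  exact (ENNReal.measurable_ofReal.inv).pow_const k

theorem pow_mul_npow_le (k : ℕ) (x : ℝ) : ENNReal.ofReal x ^ k * npow k x ≤ 1 := by
  unfold npow
  rw [← mul_pow]
  exact pow_le_one₀ (zero_le) (ENNReal.mul_inv_le_one _)

theorem npow_of_pos (k : ℕ) {x : ℝ} (hx : 0 < x) : npow k x = ENNReal.ofReal ((x ^ k)⁻¹) := by
  unfold npow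
  rw [← ENNReal.ofReal_inv_of_pos hx, ← ENNReal.ofReal_pow (inv_nonneg.2 hx.le), inv_pow]

theorem npow_eq_top {k : ℕ} (hk : 1 ≤ k) {x : ℝ} (hx : x ≤ 0) : npow k x = ⊤ := by
  unfold npow
  rw [ENNReal.ofReal_of_nonpos hx, ENNReal.inv_zero, ENNReal.top_pow (by omega)]

/-- dyadic layer-cake bound -/
theorem npow_le_tsum (k : ℕ) (x : ℝ) :
    npow k x ≤ 1 + ∑' l : ℕ, (2 : ℝ≥0∞) ^ ((l + 1) * k) *
      Set.indicator {x : ℝ | x ≤ (1 / 2) ^ l} 1 x := by
  by_cases h0 : x ≤ 0
  · have : ∑' l : ℕ, (2 : ℝ≥0∞) ^ ((l + 1) * k) * Set.indicator {x : ℝ | x ≤ (1 / 2) ^ l} 1 x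
        = ⊤ := by
      refine top_le_iff.1 ?_
      calc (⊤ : ℝ≥0∞) = ∑' _ : ℕ, (1 : ℝ≥0∞) := (ENNReal.tsum_const_eq_top_of_ne_zero one_ne_zero).symm
        _ ≤ _ := by
          refine ENNReal.tsum_le_tsum fun l => ?_
          have : x ∈ {x : ℝ | x ≤ (1 / 2) ^ l} := h0.trans (by positivity)
          rw [Set.indicator_of_mem this]
          simp only [Pi.one_apply, mul_one]
          exact one_le_pow₀ (by norm_num)
    rw [this]; simp
  push Not at h0
  by_cases h1 : 1 < x
  · refine le_trans ?_ le_self_add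
    unfold npow
    refine pow_le_one₀ zero_le ?_
    rw [ENNReal.inv_le_one]
    exact ENNReal.one_le_ofReal.2 h1.le
  push Not at h1
  obtain ⟨l, hl1, hl2⟩ := exists_nat_pow_near_of_lt_one h0 h1 (show (0 : ℝ) < 1 / 2 by norm_num)
    (show (1 / 2 : ℝ) < 1 by norm_num)
  refine le_trans ?_ le_add_self
  refine le_trans ?_ (ENNReal.le_tsum l)
  have : x ∈ {x : ℝ | x ≤ (1 / 2) ^ l} := hl2
  rw [Set.indicator_of_mem this]
  simp only [Pi.one_apply, mul_one]
  unfold npow
  rw [pow_mul]
  refine pow_le_pow_left' ?_ k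
  rw [ENNReal.inv_le_iff_inv_le]
  have : ((2 : ℝ≥0∞) ^ (l + 1))⁻¹ = ENNReal.ofReal ((1 / 2) ^ (l + 1)) := by
    rw [ENNReal.ofReal_pow (by norm_num), ENNReal.inv_pow]
    congr 1
    rw [one_div, ENNReal.ofReal_inv_of_pos (by norm_num)]; simp
  rw [this]
  exact ENNReal.ofReal_le_ofReal hl1.le

theorem lintegral_npow_le {α : Type*} [MeasurableSpace α] (ρ : Measure α) [IsProbabilityMeasure ρ]
    (k : ℕ) (g : α → ℝ) (hg : Measurable g) :
    ∫⁻ a, npow k (g a) ∂ρ ≤ 1 + ∑' l : ℕ, (2 : ℝ≥0∞) ^ ((l + 1) * k) *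
      ρ {a | g a ≤ (1 / 2) ^ l} := by
  have hms : ∀ l : ℕ, MeasurableSet {a | g a ≤ (1 / 2) ^ l} := fun l =>
    measurableSet_le hg measurable_const
  calc ∫⁻ a, npow k (g a) ∂ρ
      ≤ ∫⁻ a, 1 + ∑' l : ℕ, (2 : ℝ≥0∞) ^ ((l + 1) * k) *
          Set.indicator {a | g a ≤ (1 / 2) ^ l} 1 a ∂ρ := by
        refine lintegral_mono fun a => (npow_le_tsum k (g a)).trans (le_of_eq ?_)
        congr 1
    _ = _ := by
        rw [lintegral_add_left measurable_const, lintegral_const, lintegral_tsum]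
        · simp only [measure_univ, mul_one]
          congr 1
          refine tsum_congr fun l => ?_
          rw [lintegral_const_mul _ (measurable_one.indicator (hms l)),
            lintegral_indicator_one (hms l)]
        · intro l
          exact ((measurable_one.indicator (hms l)).const_mul _).aemeasurable

/-- geometric tail -/
theorem tail_le (k l0 : ℕ) (A : ℝ) (h : 2 ^ (k + 1) * A ≤ 2 ^ l0) (p : ℕ → ℝ≥0∞)
    (hp : ∀ l, p l ≤ ENNReal.ofReal (A * ((1 / 2) ^ l) ^ (k + 1))) :
    ∑' l : ℕ, (2 : ℝ≥0∞) ^ ((l + 1) * k) * p l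
      ≤ ∑ l ∈ Finset.range l0, (2 : ℝ≥0∞) ^ ((l + 1) * k) * p l + 1 := by
  rw [← ENNReal.summable.sum_add_tsum_nat_add' (k := l0)]
  refine add_le_add_right ?_ _
  calc ∑' l : ℕ, (2 : ℝ≥0∞) ^ ((l + l0 + 1) * k) * p (l + l0)
      ≤ ∑' l : ℕ, (2⁻¹ : ℝ≥0∞) ^ (l + 1) := by
        refine ENNReal.tsum_le_tsum fun l => ?_
        refine (mul_le_mul_right (hp _) _).trans ?_
        have e1 : (2 : ℝ≥0∞) ^ ((l + l0 + 1) * k) = ENNReal.ofReal (2 ^ ((l + l0 + 1) * k)) := by
          rw [ENNReal.ofReal_pow (by norm_num)]; simp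
        have e2 : (2⁻¹ : ℝ≥0∞) ^ (l + 1) = ENNReal.ofReal ((1 / 2) ^ (l + 1)) := by
          rw [ENNReal.ofReal_pow (by norm_num), one_div, ENNReal.ofReal_inv_of_pos (by norm_num)]
          simp
        rw [e1, e2, ← ENNReal.ofReal_mul (by positivity)]
        refine ENNReal.ofReal_le_ofReal ?_
        have e3 : (2 : ℝ) ^ ((l + l0 + 1) * k) * (A * ((1 / 2) ^ (l + l0)) ^ (k + 1))
            = (2 ^ (k + 1) * A) * (1 / 2) ^ l0 * (1 / 2) ^ (l + 1) := by
          have : (2 : ℝ) ^ ((l + l0 + 1) * k) * ((1 / 2) ^ (l + l0)) ^ (k + 1)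
              = 2 ^ (k + 1) * (1 / 2) ^ l0 * (1 / 2) ^ (l + 1) := by
            simp only [one_div, inv_pow, ← pow_mul]
            field_simp
            ring
          calc _ = A * ((2 : ℝ) ^ ((l + l0 + 1) * k) * ((1 / 2) ^ (l + l0)) ^ (k + 1)) := by ring
            _ = _ := by rw [this]; ring
        rw [e3]
        have : (2 ^ (k + 1) * A) * (1 / 2 : ℝ) ^ l0 ≤ 1 := by
          rw [one_div, inv_pow, mul_inv_le_iff₀ (by positivity), one_mul]; exact h
        exact mul_le_of_le_one_left (by positivity) this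
    _ = 1 := by
        simp only [pow_succ]
        rw [ENNReal.tsum_mul_right, ENNReal.tsum_geometric_two]
        exact ENNReal.mul_inv_cancel (by norm_num) (by norm_num)

/-! ### geometry of `dl` -/

theorem sd_nonneg {m : ℕ} (v : E m) (U : Set (E m)) : 0 ≤ sd v U := Metric.infDist_nonneg

theorem dl_nonneg {m n : ℕ} (w : Fin (n + 1) → E m) (j : Fin (n + 1)) (v : E m) :
    0 ≤ dl w j v := sd_nonneg _ _

theorem dl_congr {m n : ℕ} {w w' : Fin (n + 1) → E m} (j : Fin n) (v : E m)
    (h : ∀ i, i < j.succ → w i = w' i) : dl w j.succ v = dl w' j.succ v := by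
  unfold dl
  have h0 : w 0 = w' 0 := h 0 (Fin.succ_pos j)
  rw [← h0]
  congr 1
  refine Set.image_congr fun i hi => ?_
  rw [h i hi]

theorem finrank_Iio_le {m n : ℕ} (f : Fin (n + 1) → E m) (j : Fin n) :
    Module.finrank ℝ (Submodule.span ℝ (f '' Set.Iio j.succ)) ≤ n := by
  have hsub : f '' Set.Iio j.succ ⊆ Set.range fun i : Fin n => f i.castSucc := by
    rintro _ ⟨i, hi, rfl⟩
    have hi' : i.val < j.val + 1 := hi
    refine ⟨⟨i.val, by omega⟩, ?_⟩
    congr 1
  refine (Submodule.finrank_mono (Submodule.span_mono hsub)).trans ?_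
  have := finrank_range_le_card (R := ℝ) (fun i : Fin n => f i.castSucc)
  rw [Fintype.card_fin] at this
  exact this

theorem sd_le_dl {m n : ℕ} (w : Fin (n + 1) → E m) (j : Fin n) (v : E m) :
    sd v (w '' Set.Iio j.succ) ≤ dl w j.succ v := by
  unfold dl sd
  rw [Metric.le_infDist (by exact ⟨0, Submodule.zero_mem _⟩)]
  intro e he
  have h0 : w 0 ∈ Submodule.span ℝ (w '' Set.Iio j.succ) :=
    Submodule.subset_span ⟨0, Fin.succ_pos j, rfl⟩
  have he' : e ∈ Submodule.span ℝ (w '' Set.Iio j.succ) := by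
    refine (Submodule.span_le.2 ?_) he
    rintro _ ⟨i, hi, rfl⟩
    exact Submodule.sub_mem _ (Submodule.subset_span ⟨i, hi, rfl⟩) h0
  refine (Metric.infDist_le_dist_of_mem (Submodule.add_mem _ h0 he')).trans (le_of_eq ?_)
  rw [dist_eq_norm, dist_eq_norm]
  congr 1
  abel

/-- `app X` as a linear map -/
noncomputable def appL {k d : ℕ} (X : Mat k d) : E d →ₗ[ℝ] (Fin k → ℝ) where
  toFun := app X
  map_add' a b := by ext i; simp [app, inner_add_right]
  map_smul' c a := by ext i; simp [app, inner_smul_right]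

theorem app_sub {k d : ℕ} (X : Mat k d) (a b : E d) : app X (a - b) = app X a - app X b :=
  (appL X).map_sub a b

theorem appE_sub {k d : ℕ} (X : Mat k d) (a b : E d) : appE X (a - b) = appE X a - appE X b := by
  unfold appE
  rw [app_sub, WithLp.toLp_sub]

theorem dl_appE {k d n : ℕ} (Y : Mat k d) (w : Fin (n + 1) → E d) (j : Fin (n + 1)) (v : E d) :
    dl (fun i => appE Y (w i)) j (appE Y v)
      = sd (appE Y (v - w 0)) (appE Y '' ((fun i => w i - w 0) '' Set.Iio j)) := by
  unfold dl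
  rw [appE_sub, Set.image_image]
  simp only [appE_sub]

theorem mem_ball_of_dl {k d n : ℕ} (X : Mat k d) (w : Fin (n + 1) → E d) (y : Fin k → ℝ)
    (hw : ∀ i, app X (w i) = y) (j : Fin (n + 1)) (v : E d) (h : ℝ) (hv : dl w j v ≤ h) :
    app X v - y ∈ app X '' Metric.closedBall 0 h := by
  unfold dl sd at hv
  set W := Submodule.span ℝ ((fun i => w i - w 0) '' Set.Iio j) with hW
  obtain ⟨p, hp, hd⟩ := (Submodule.closed_of_finiteDimensional W).exists_infDist_eq_dist
    ⟨0, W.zero_mem⟩ (v - w 0)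
  have hk : W ≤ LinearMap.ker (appL X) := by
    refine Submodule.span_le.2 ?_
    rintro _ ⟨i, _, rfl⟩
    show app X (w i - w 0) = 0
    rw [app_sub, hw, hw, sub_self]
  have hp0 : app X p = 0 := hk hp
  refine ⟨v - w 0 - p, ?_, ?_⟩
  · rw [mem_closedBall_zero_iff, ← dist_eq_norm, ← hd]; exact hv
  · rw [app_sub, app_sub, hp0, hw, sub_zero]

theorem continuous_app {k d : ℕ} : Continuous fun p : Mat k d × E d => app p.1 p.2 := by
  unfold app
  fun_prop

theorem continuous_appE {k d : ℕ} : Continuous fun p : Mat k d × E d => appE p.1 p.2 := by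
  unfold appE
  exact (PiLp.continuous_toLp 2 _).comp continuous_app

theorem measurableSet_img {k d : ℕ} (X : Mat k d) (h : ℝ) :
    MeasurableSet (app X '' Metric.closedBall 0 h) :=
  ((isCompact_closedBall 0 h).image
    (continuous_app.comp (continuous_const.prodMk continuous_id))).isClosed.measurableSet

end Crest.Agent.SL.Bt
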