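import Crest.Agent.SL.BatchA

/-! Pointwise inequality and tube bounds for the batch lemma `B1`. -/

set_option autoImplicit false

namespace Crest.Agent.SL.Bt

open MeasureTheory ProbabilityTheory Crest.StreamLearn
open scoped ENNReal NNReal RealInnerProductSpace

theorem log_le_div {z c : ℝ} (hz : 0 < z) (hc : 0 < c) : Real.log z ≤ Real.log c + z / c := by
  have h := Real.log_le_sub_one_of_pos (div_pos hz hc)
  rw [Real.log_div hz.ne' hc.ne'] at h
  linarith

theorem ofReal_sum_le' {ι : Type*} (s : Finset ι) (f : ι → ℝ) :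
    ENNReal.ofReal (∑ i ∈ s, f i) ≤ ∑ i ∈ s, ENNReal.ofReal (f i) := by
  classical
  induction s using Finset.induction_on with
  | empty => simp
  | insert a s ha ih =>
    rw [Finset.sum_insert ha, Finset.sum_insert ha]
    exact ENNReal.ofReal_add_le.trans (add_le_add_right ih _)

theorem pointwise (n : ℕ) (g : Fin (n + 1) → ℝ≥0) (hg : ∀ i, 1 ≤ g i) (t R : Fin n → ℝ≥0∞)
    (ht0 : ∀ j, t j ≠ 0) (hR : ∀ j, t j ≠ ⊤ → ENNReal.ofReal (-Real.log (t j).toReal) ≤ R j)
    (c : ℝ) (hc : 1 ≤ c) :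
    ∑ i, ENNReal.ofReal (Real.log (g i)) ≤ ENNReal.ofReal (Real.log c)
      + ((∏ i, (g i : ℝ≥0∞)) * ∏ j, t j) / ENNReal.ofReal c + ∑ j, R j := by
  have hg0 : ∀ i, (0 : ℝ) < g i := fun i => lt_of_lt_of_le one_pos (by exact_mod_cast hg i)
  have hg0' : ∀ i, (g i : ℝ≥0∞) ≠ 0 := fun i => by
    have := hg0 i
    simp only [ne_eq, ENNReal.coe_eq_zero]
    intro h; rw [h] at this; simp at this
  by_cases htop : ∃ j, t j = ⊤
  · obtain ⟨j, hj⟩ := htop
    have h1 : ∏ j, t j = ⊤ := by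
      rw [← Finset.mul_prod_erase _ _ (Finset.mem_univ j), hj,
        ENNReal.top_mul (Finset.prod_ne_zero_iff.2 fun i _ => ht0 i)]
    rw [h1, ENNReal.mul_top (Finset.prod_ne_zero_iff.2 fun i _ => hg0' i),
      ENNReal.top_div_of_ne_top ENNReal.ofReal_ne_top]
    simp
  push Not at htop
  have htp : ∀ j, 0 < (t j).toReal := fun j => ENNReal.toReal_pos (ht0 j) (htop j)
  set z : ℝ := (∏ i, (g i : ℝ)) * ∏ j, (t j).toReal with hz
  have hzp : 0 < z := mul_pos (Finset.prod_pos fun i _ => hg0 i) (Finset.prod_pos fun j _ => htp j)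
  have hzE : (∏ i, (g i : ℝ≥0∞)) * ∏ j, t j = ENNReal.ofReal z := by
    rw [hz, ENNReal.ofReal_mul (Finset.prod_nonneg fun i _ => (hg0 i).le),
      ENNReal.ofReal_prod_of_nonneg fun i _ => (hg0 i).le,
      ENNReal.ofReal_prod_of_nonneg fun j _ => (htp j).le]
    congr 1
    · exact Finset.prod_congr rfl fun i _ => by simp
    · exact Finset.prod_congr rfl fun j _ => (ENNReal.ofReal_toReal (htop j)).symm
  have hlog : ∑ i, Real.log (g i) = Real.log z + ∑ j, -Real.log (t j).toReal := by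
    rw [hz, Real.log_mul (Finset.prod_pos fun i _ => hg0 i).ne' (Finset.prod_pos fun j _ => htp j).ne',
      Real.log_prod fun i _ => (hg0 i).ne', Real.log_prod fun j _ => (htp j).ne',
      Finset.sum_neg_distrib]
    ring
  rw [← ENNReal.ofReal_sum_of_nonneg fun i _ => Real.log_nonneg (by exact_mod_cast hg i), hlog, hzE]
  refine ENNReal.ofReal_add_le.trans (add_le_add ?_ ?_)
  · refine (ENNReal.ofReal_le_ofReal (log_le_div hzp (by linarith : 0 < c))).trans ?_
    refine ENNReal.ofReal_add_le.trans (le_of_eq ?_)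
    rw [ENNReal.ofReal_div_of_pos (by linarith)]
  · exact (ofReal_sum_le' _ _).trans (Finset.sum_le_sum fun j _ => hR j (htop j))

theorem per_j (k : ℕ) (hk : 1 ≤ k) (J cb : ℝ) (hJ : 0 < J) (hcb : 1 ≤ cb) (ι U : ℝ≥0∞)
    (del delt : ℝ) (hι : ι ≠ ⊤) (hU0 : U ≠ 0) (hU : U ≠ ⊤) (hdel : 0 < del)
    (ht : ι⁻¹ * (npow k delt / U) * ENNReal.ofReal del ^ k ≠ ⊤) :
    ENNReal.ofReal (-Real.log (ι⁻¹ * (npow k delt / U) * ENNReal.ofReal del ^ k).toReal)
      ≤ ENNReal.ofReal (k / 2) * (ENNReal.ofReal (delt ^ 2) / ENNReal.ofReal (J * del ^ 2))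
        + (ENNReal.ofReal (Real.log cb)
          + ENNReal.ofReal (Real.sqrt J ^ k) * U * ι / ENNReal.ofReal cb) := by
  have hd0 : ENNReal.ofReal del ^ k ≠ 0 := pow_ne_zero _ (by simpa using hdel)
  have hq0 : npow k delt / U ≠ 0 := ENNReal.div_ne_zero.2 ⟨npow_ne_zero _ _, hU⟩
  have hi0 : ι⁻¹ ≠ 0 := ENNReal.inv_ne_zero.2 hι
  have hι0 : ι ≠ 0 := by
    rintro rfl
    apply ht
    rw [ENNReal.inv_zero, ENNReal.top_mul hq0, ENNReal.top_mul hd0]
  have hdt : 0 < delt := by
    by_contra h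
    push Not at h
    apply ht
    rw [npow_eq_top hk h, ENNReal.top_div_of_ne_top hU, ENNReal.mul_top hi0, ENNReal.top_mul hd0]
  lift ι to ℝ≥0 using hι
  lift U to ℝ≥0 using hU
  have hιp : (0 : ℝ) < ι := by
    have : ι ≠ 0 := by simpa using hι0
    positivity
  have hUp : (0 : ℝ) < U := by
    have : U ≠ 0 := by simpa using hU0
    positivity
  have e1 : ((ι : ℝ≥0∞)⁻¹ * (npow k delt / U) * ENNReal.ofReal del ^ k).toReal
      = (ι : ℝ)⁻¹ * ((delt ^ k)⁻¹ / U) * del ^ k := by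
    rw [npow_of_pos k hdt]
    simp only [ENNReal.toReal_mul, ENNReal.toReal_inv, ENNReal.toReal_div, ENNReal.toReal_pow,
      ENNReal.coe_toReal]
    rw [ENNReal.toReal_ofReal (by positivity), ENNReal.toReal_ofReal hdel.le]
  have e2 : ENNReal.ofReal (k / 2) * (ENNReal.ofReal (delt ^ 2) / ENNReal.ofReal (J * del ^ 2))
        + (ENNReal.ofReal (Real.log cb)
          + ENNReal.ofReal (Real.sqrt J ^ k) * U * ι / ENNReal.ofReal cb)
      = ENNReal.ofReal (k / 2 * (delt ^ 2 / (J * del ^ 2))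
        + (Real.log cb + Real.sqrt J ^ k * U * ι / cb)) := by
    have hl : 0 ≤ Real.log cb := Real.log_nonneg hcb
    rw [ENNReal.ofReal_add (by positivity) (by positivity),
      ENNReal.ofReal_add hl (by positivity), ENNReal.ofReal_mul (p := (k : ℝ) / 2) (by positivity),
      ENNReal.ofReal_div_of_pos (y := J * del ^ 2) (by positivity),
      ENNReal.ofReal_div_of_pos (y := cb) (by positivity),
      ENNReal.ofReal_mul (p := Real.sqrt J ^ k * U) (by positivity),
      ENNReal.ofReal_mul (p := Real.sqrt J ^ k) (by positivity)]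
    simp
  rw [e1, e2]
  refine ENNReal.ofReal_le_ofReal ?_
  have hs : 0 < Real.sqrt J := Real.sqrt_pos.2 hJ
  have h1 := log_le_div (z := Real.sqrt J ^ k * U * ι) (c := cb) (by positivity) (by linarith)
  have h2 := Real.log_le_sub_one_of_pos (x := delt ^ 2 / (J * del ^ 2)) (by positivity)
  rw [Real.log_div (by positivity) (by positivity), Real.log_mul (by positivity) (by positivity),
    Real.log_pow, Real.log_pow] at h2
  rw [Real.log_mul (by positivity) (by positivity), Real.log_mul (by positivity) (by positivity),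
    Real.log_pow, Real.log_sqrt hJ.le] at h1
  rw [Real.log_mul (by positivity) (by positivity), Real.log_mul (by positivity) (by positivity),
    Real.log_div (by positivity) (by positivity), Real.log_inv, Real.log_inv, Real.log_pow,
    Real.log_pow]
  have hk' : (0 : ℝ) ≤ k / 2 := by positivity
  have h3 := mul_le_mul_of_nonneg_left h2 hk'
  push_cast at h3
  nlinarith

section tube

variable {n d : ℕ} {ρ : Measure (Sphere d)} [IsProbabilityMeasure ρ]

theorem measurable_dl' (h0 : G0) {α : Type*} [MeasurableSpace α] {m n : ℕ} (j : Fin (n + 1))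
    {f : α → Fin (n + 1) → E m} {g : α → E m} (hf : Measurable f) (hg : Measurable g) :
    Measurable fun a => dl (f a) j (g a) := by
  have := (h0 m n j).comp (hf.prodMk hg)
  simpa only [Function.comp_def] using this

theorem measurable_dl (h0 : G0) (w : Fin (n + 1) → E d) (j : Fin (n + 1)) :
    Measurable fun w' : Sphere d => dl w j (w' : E d) :=
  measurable_dl' h0 j measurable_const measurable_subtype_coe

omit [IsProbabilityMeasure ρ] in
theorem tube (s2 : S2) (hd : 2 * (n + 1) ≤ d) {L : ℝ} (hL : 1 ≤ L)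
    (hρ : ρ ≤ ENNReal.ofReal L • sphereUniform d) (w : Fin (n + 1) → E d) (j : Fin n) (h : ℝ)
    (hh : 0 ≤ h) :
    ρ {w' | dl w j.succ (w' : E d) ≤ h} ≤ ENNReal.ofReal (L * (d : ℝ) ^ d * h ^ (n + 1 + 1)) := by
  have h1 := s2 d (n + 1 + 1) n (w '' Set.Iio j.succ) h (by omega) (finrank_Iio_le w j)
    (by omega) hh
  calc ρ {w' | dl w j.succ (w' : E d) ≤ h}
      ≤ ρ {w' : Sphere d | sd (w' : E d) (w '' Set.Iio j.succ) ≤ h} :=
        measure_mono fun w' hw' => (sd_le_dl w j w').trans hw'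
    _ ≤ ENNReal.ofReal L * sphereUniform d
          {w' : Sphere d | sd (w' : E d) (w '' Set.Iio j.succ) ≤ h} :=
        Measure.le_iff'.1 hρ _
    _ ≤ ENNReal.ofReal L * ENNReal.ofReal ((d : ℝ) ^ d * h ^ (n + 1 + 1)) := mul_le_mul_right h1 _
    _ = _ := by rw [← ENNReal.ofReal_mul (by linarith), mul_assoc]

theorem UA_le (h0 : G0) (s2 : S2) (hd : 2 * (n + 1) ≤ d) {L : ℝ} (hL : 1 ≤ L)
    (hρ : ρ ≤ ENNReal.ofReal L • sphereUniform d) (l0 : ℕ)
    (hl0 : 2 ^ (n + 1 + 1) * (L * (d : ℝ) ^ d) ≤ 2 ^ l0) (w : Fin (n + 1) → E d) (j : Fin n) :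
    ∫⁻ w', npow (n + 1) (dl w j.succ (w' : E d)) ∂ρ
      ≤ 2 + ∑ l ∈ Finset.range l0, (2 : ℝ≥0∞) ^ ((l + 1) * (n + 1)) *
        ρ {w' | dl w j.succ (w' : E d) ≤ (1 / 2) ^ l} := by
  refine (lintegral_npow_le ρ (n + 1) _ (measurable_dl h0 w j.succ)).trans ?_
  have := tail_le (n + 1) l0 (L * (d : ℝ) ^ d) hl0
    (fun l => ρ {w' | dl w j.succ (w' : E d) ≤ (1 / 2) ^ l})
    (fun l => tube s2 hd hL hρ w j _ (by positivity))
  refine (add_le_add_right this _).trans (le_of_eq ?_)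
  generalize ∑ l ∈ Finset.range l0, (2 : ℝ≥0∞) ^ ((l + 1) * (n + 1)) *
        ρ {w' | dl w j.succ (w' : E d) ≤ (1 / 2) ^ l} = a
  rw [← one_add_one_eq_two]
  ring

/-- crude finite bound -/
noncomputable def cA (n l0 : ℕ) : ℝ≥0∞ :=
  2 + ∑ l ∈ Finset.range l0, (2 : ℝ≥0∞) ^ ((l + 1) * (n + 1))

theorem cA_ne_top (n l0 : ℕ) : cA n l0 ≠ ⊤ := by
  unfold cA
  refine ENNReal.add_ne_top.2 ⟨by norm_num, ENNReal.sum_ne_top.2 fun l _ => ?_⟩
  exact ENNReal.pow_ne_top (by norm_num)

theorem one_le_cA (n l0 : ℕ) : 1 ≤ cA n l0 := by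
  unfold cA
  exact le_trans (by norm_num) le_self_add

theorem UA_le_cA (h0 : G0) (s2 : S2) (hd : 2 * (n + 1) ≤ d) {L : ℝ} (hL : 1 ≤ L)
    (hρ : ρ ≤ ENNReal.ofReal L • sphereUniform d) (l0 : ℕ)
    (hl0 : 2 ^ (n + 1 + 1) * (L * (d : ℝ) ^ d) ≤ 2 ^ l0) (w : Fin (n + 1) → E d) (j : Fin n) :
    ∫⁻ w', npow (n + 1) (dl w j.succ (w' : E d)) ∂ρ ≤ cA n l0 := by
  refine (UA_le h0 s2 hd hL hρ l0 hl0 w j).trans ?_
  unfold cA
  refine add_le_add_right (Finset.sum_le_sum fun l _ => ?_) _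
  exact mul_le_of_le_one_right' prob_le_one

theorem measurable_vecs {N : ℕ} : Measurable (vecs : (Fin N → Sphere d) → Fin N → E d) :=
  measurable_pi_lambda _ fun i => measurable_subtype_coe.comp (measurable_pi_apply i)

theorem measurable_del (h0 : G0) (j : Fin (n + 1)) :
    Measurable fun ws : Fin (n + 1) → Sphere d => dl (vecs ws) j (vecs ws j) :=
  measurable_dl' h0 j measurable_vecs (measurable_subtype_coe.comp (measurable_pi_apply j))

theorem measurable_VV (h0 : G0) (k : ℕ) :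
    Measurable fun ws : Fin (n + 1) → Sphere d => VV k (vecs ws) := by
  unfold VV
  exact Finset.measurable_prod _ fun j _ => (measurable_npow k).comp (measurable_del h0 j.succ)

theorem VV_ne_top (h0 : G0) (c : ℝ≥0∞) (hc : c ≠ ⊤) (hc1 : 1 ≤ c)
    (hUA : ∀ (w : Fin (n + 1) → E d) (j : Fin n),
      ∫⁻ w', npow (n + 1) (dl w j.succ (w' : E d)) ∂ρ ≤ c) :
    ∫⁻ ws, VV (n + 1) (vecs ws) ∂(Measure.pi fun _ : Fin (n + 1) => ρ) ≠ ⊤ := by
  have h := seq_int ρ (n + 1)
    (fun j => Fin.cases (motive := fun _ => (Fin (n + 1) → Sphere d) → ℝ≥0∞) (fun _ => 1)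
      (fun j ws => npow (n + 1) (dl (vecs ws) j.succ (vecs ws j.succ))) j) ?_ c ?_ ?_
  · refine ne_top_of_le_ne_top (ENNReal.pow_ne_top hc) (le_trans (le_of_eq ?_) h)
    congr 1
    ext ws
    simp [Fin.prod_univ_succ, VV]
  · intro j
    refine Fin.cases ?_ (fun j => ?_) j
    · exact measurable_const
    · exact (measurable_npow _).comp (measurable_del h0 j.succ)
  · intro j t hjt ws a
    revert hjt
    refine Fin.cases (fun _ => rfl) (fun j hjt => ?_) j
    simp only [Fin.cases_succ]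
    have e : vecs (Function.update ws t a) j.succ = vecs ws j.succ := by
      simp [vecs, Function.update_of_ne hjt.ne]
    rw [e, dl_congr j]
    intro i hi
    simp [vecs, Function.update_of_ne (hi.trans hjt).ne]
  · intro j ws
    refine Fin.cases ?_ (fun j => ?_) j
    · simpa using hc1
    · simp only [Fin.cases_succ]
      refine le_trans (le_of_eq ?_) (hUA (vecs ws) j)
      congr 1
      ext a
      have e : vecs (Function.update ws j.succ a) j.succ = a := by simp [vecs]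
      rw [e, dl_congr j]
      intro i hi
      simp [vecs, Function.update_of_ne hi.ne]

end tube

end Crest.Agent.SL.Bt
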