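import Crest.Agent.SL.BatchB

/-! The sample space of the batch lemma `B1` and the expectation bounds. -/

set_option autoImplicit false

namespace Crest.Agent.SL.Bt

open MeasureTheory ProbabilityTheory Crest.StreamLearn
open scoped ENNReal NNReal RealInnerProductSpace

variable {n d : ℕ} {ρ : Measure (Sphere d)} [IsProbabilityMeasure ρ]

/-- the sample space -/
abbrev Om (n d : ℕ) := (Mat (n + 1) d × Sphere d) × (Fin (n + 1) → Sphere d)

theorem measurable_Xy {k : ℕ} :
    Measurable fun p : Mat k d × Sphere d => (p.1, app p.1 (p.2 : E d)) :=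
  measurable_fst.prodMk (continuous_app.measurable.comp
    (measurable_fst.prodMk (measurable_subtype_coe.comp measurable_snd)))

theorem measurable_app_left {k : ℕ} (X : Mat k d) : Measurable fun w : Sphere d => app X (w : E d) :=
  continuous_app.measurable.comp (measurable_const.prodMk measurable_subtype_coe)

/-- resampling kernel -/
noncomputable def kap (S : Slicing (n + 1) d ρ) :
    Kernel (Mat (n + 1) d × Sphere d) (Fin (n + 1) → Sphere d) where
  toFun p := Measure.pi fun _ : Fin (n + 1) => S.π (p.1, app p.1 p.2)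
  measurable' := (S.pi_meas (n + 1)).comp measurable_Xy

omit [IsProbabilityMeasure ρ] in
theorem kap_apply (S : Slicing (n + 1) d ρ) (p : Mat (n + 1) d × Sphere d) :
    kap S p = Measure.pi fun _ : Fin (n + 1) => S.π (p.1, app p.1 p.2) := rfl

instance kap_markov (S : Slicing (n + 1) d ρ) : IsMarkovKernel (kap S) := ⟨fun p => by
  have := S.markov
  rw [kap_apply]; infer_instance⟩

/-- the law of `((X, w), ws)` -/
noncomputable def mu (S : Slicing (n + 1) d ρ) : Measure (Om n d) :=
  ((gam (n + 1) d).prod ρ) ⊗ₘ kap S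

instance mu_prob (S : Slicing (n + 1) d ρ) : IsProbabilityMeasure (mu S) := by
  unfold mu; infer_instance

theorem lint_mu (S : Slicing (n + 1) d ρ) {f : Om n d → ℝ≥0∞} (hf : Measurable f) :
    ∫⁻ z, f z ∂mu S = ∫⁻ X, ∫⁻ w, ∫⁻ ws, f ((X, w), ws)
      ∂(Measure.pi fun _ : Fin (n + 1) => S.π (X, app X w)) ∂ρ ∂gam (n + 1) d := by
  unfold mu
  rw [Measure.lintegral_compProd hf, lintegral_prod]
  · rfl
  · exact (hf.lintegral_kernel_prod_right' (κ := kap S)).aemeasurable

/-- the inverse density at `(X, X w)` -/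
noncomputable def io (S : Slicing (n + 1) d ρ) (z : Om n d) : ℝ≥0∞ :=
  S.ι (z.1.1, app z.1.1 z.1.2)

omit [IsProbabilityMeasure ρ] in
theorem measurable_io (S : Slicing (n + 1) d ρ) : Measurable (io S) :=
  S.ι_meas.comp (measurable_Xy.comp measurable_fst)

theorem ae_io (S : Slicing (n + 1) d ρ) : ∀ᵐ z ∂mu S, io S z ≠ ⊤ := by
  have hm : MeasurableSet {p : Mat (n + 1) d × Sphere d | S.ι (p.1, app p.1 p.2) ≠ ⊤} :=
    (S.ι_meas.comp measurable_Xy) (measurableSet_singleton ⊤).compl
  unfold mu
  refine Measure.ae_compProd_of_ae_fst (p := fun p : Mat (n + 1) d × Sphere d => S.ι (p.1, app p.1 p.2) ≠ ⊤) _ hm ?_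
  rw [Measure.ae_prod_iff_ae_ae hm]
  refine Filter.Eventually.of_forall fun X => ?_
  filter_upwards [S.ι_lt_top X] with w hw using hw.ne

theorem dom_mu (S : Slicing (n + 1) d ρ)
    (hV : ∫⁻ ws, VV (n + 1) (vecs ws) ∂(Measure.pi fun _ : Fin (n + 1) => ρ) ≠ ⊤)
    {H : (Fin (n + 1) → Sphere d) → ℝ≥0∞} (hH : Measurable H) :
    ∫⁻ z, (io S z)⁻¹ ^ n * H z.2 ∂mu S
      ≤ ∫⁻ ws, H ws * VV (n + 1) (vecs ws) ∂(Measure.pi fun _ : Fin (n + 1) => ρ) := by
  have hm : Measurable fun z : Om n d => (io S z)⁻¹ ^ n * H z.2 :=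
    ((measurable_io S).inv.pow_const n).mul (hH.comp measurable_snd)
  rw [lint_mu S hm]
  exact S.dom n H hH hV

/-- distance of `w_{j+1}` to the affine span of the previous points -/
noncomputable def del (ws : Fin (n + 1) → Sphere d) (j : Fin n) : ℝ :=
  dl (vecs ws) j.succ (vecs ws j.succ)

theorem ae_del (h0 : G0) (S : Slicing (n + 1) d ρ)
    (hV : ∫⁻ ws, VV (n + 1) (vecs ws) ∂(Measure.pi fun _ : Fin (n + 1) => ρ) ≠ ⊤) :
    ∀ᵐ z ∂mu S, ∀ j, 0 < del z.2 j := by
  set B : Set (Fin (n + 1) → Sphere d) := {ws | VV (n + 1) (vecs ws) = ⊤} with hB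
  have hBm : MeasurableSet B := measurable_VV h0 (n + 1) (measurableSet_singleton ⊤)
  have h1 := dom_mu S hV (H := B.indicator 1) (measurable_one.indicator hBm)
  have h2 : ∫⁻ ws, B.indicator 1 ws * VV (n + 1) (vecs ws)
      ∂(Measure.pi fun _ : Fin (n + 1) => ρ) = 0 := by
    refine lintegral_eq_zero_of_ae_eq_zero ?_
    filter_upwards [ae_lt_top (measurable_VV h0 (n + 1)) hV] with ws hws
    have : ws ∉ B := hws.ne
    simp [Set.indicator_of_notMem this]
  have hm : Measurable fun z : Om n d => (io S z)⁻¹ ^ n * B.indicator 1 z.2 :=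
    ((measurable_io S).inv.pow_const n).mul ((measurable_one.indicator hBm).comp measurable_snd)
  rw [h2, nonpos_iff_eq_zero, lintegral_eq_zero_iff hm] at h1
  filter_upwards [h1, ae_io S] with z hz hi j
  have hne : (io S z)⁻¹ ^ n ≠ 0 := pow_ne_zero _ (ENNReal.inv_ne_zero.2 hi)
  have hz' : B.indicator (1 : (Fin (n + 1) → Sphere d) → ℝ≥0∞) z.2 = 0 := by
    simpa [hne] using hz
  have hnB : z.2 ∉ B := by
    intro h; rw [Set.indicator_of_mem h] at hz'; simp at hz'
  by_contra hj
  push Not at hj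
  apply hnB
  show VV (n + 1) (vecs z.2) = ⊤
  unfold VV
  rw [← Finset.mul_prod_erase _ _ (Finset.mem_univ j)]
  have : npow (n + 1) (dl (vecs z.2) j.succ (vecs z.2 j.succ)) = ⊤ := npow_eq_top (by omega) hj
  rw [this, ENNReal.top_mul (Finset.prod_ne_zero_iff.2 fun i _ => npow_ne_zero _ _)]

/-- projected points -/
noncomputable def pv {J : ℕ} (Y : Mat J d) (ws : Fin (n + 1) → Sphere d) : Fin (n + 1) → E J :=
  fun i => appE Y (vecs ws i)

/-- projected distance -/
noncomputable def delt {J : ℕ} (Y : Mat J d) (ws : Fin (n + 1) → Sphere d) (j : Fin n) : ℝ :=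
  dl (pv Y ws) j.succ (appE Y (vecs ws j.succ))

/-- normalising integral -/
noncomputable def UU (ρ : Measure (Sphere d)) {J : ℕ} (Y : Mat J d) (ws : Fin (n + 1) → Sphere d)
    (j : Fin n) : ℝ≥0∞ :=
  ∫⁻ w', npow (n + 1) (dl (pv Y ws) j.succ (appE Y (w' : E d))) ∂ρ

theorem measurable_appE' {J : ℕ} {α : Type*} [MeasurableSpace α] {f : α → Mat J d} {g : α → E d}
    (hf : Measurable f) (hg : Measurable g) : Measurable fun a => appE (f a) (g a) := by
  have := continuous_appE.measurable.comp (hf.prodMk hg)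
  simpa only [Function.comp_def] using this

theorem measurable_pv' {J : ℕ} {α : Type*} [MeasurableSpace α] {f : α → Mat J d}
    {g : α → Fin (n + 1) → Sphere d} (hf : Measurable f) (hg : Measurable g) :
    Measurable fun a => pv (f a) (g a) :=
  measurable_pi_lambda _ fun i => measurable_appE' hf
    (measurable_subtype_coe.comp ((measurable_pi_apply i).comp hg))

theorem measurable_del' (h0 : G0) {α : Type*} [MeasurableSpace α]
    {g : α → Fin (n + 1) → Sphere d} (hg : Measurable g) (j : Fin n) :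
    Measurable fun a => del (g a) j := by
  have := (measurable_del h0 j.succ).comp hg
  unfold del
  simpa only [Function.comp_def] using this

theorem measurable_delt' (h0 : G0) {J : ℕ} {α : Type*} [MeasurableSpace α] {f : α → Mat J d}
    {g : α → Fin (n + 1) → Sphere d} (hf : Measurable f) (hg : Measurable g) (j : Fin n) :
    Measurable fun a => delt (f a) (g a) j :=
  measurable_dl' h0 j.succ (measurable_pv' hf hg) (measurable_appE' hf
    (measurable_subtype_coe.comp ((measurable_pi_apply j.succ).comp hg)))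

theorem measurable_UU' (h0 : G0) {J : ℕ} {α : Type*} [MeasurableSpace α] {f : α → Mat J d}
    {g : α → Fin (n + 1) → Sphere d} (hf : Measurable f) (hg : Measurable g) (j : Fin n) :
    Measurable fun a => UU ρ (f a) (g a) j := by
  have h : Measurable fun p : α × Sphere d =>
      npow (n + 1) (dl (pv (f p.1) (g p.1)) j.succ (appE (f p.1) (p.2 : E d))) :=
    (measurable_npow _).comp (measurable_dl' h0 j.succ
      (measurable_pv' (hf.comp measurable_fst) (hg.comp measurable_fst))
      (measurable_appE' (hf.comp measurable_fst) (measurable_subtype_coe.comp measurable_snd)))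
  exact h.lintegral_prod_right'

theorem UU_ne_zero (h0 : G0) {J : ℕ} (Y : Mat J d) (ws : Fin (n + 1) → Sphere d) (j : Fin n) :
    UU ρ Y ws j ≠ 0 := by
  unfold UU
  intro h
  have hm : Measurable fun w' : Sphere d =>
      npow (n + 1) (dl (pv Y ws) j.succ (appE Y (w' : E d))) :=
    (measurable_npow _).comp (measurable_dl' h0 j.succ measurable_const
      (measurable_appE' measurable_const measurable_subtype_coe))
  rw [lintegral_eq_zero_iff hm] at h
  obtain ⟨w, hw⟩ := h.exists
  exact npow_ne_zero _ _ hw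

theorem pv_update {J : ℕ} (Y : Mat J d) (ws : Fin (n + 1) → Sphere d) (t : Fin (n + 1))
    (a : Sphere d) (j : Fin n) (h : j.succ ≤ t) (v : E J) :
    dl (pv Y (Function.update ws t a)) j.succ v = dl (pv Y ws) j.succ v := by
  refine dl_congr j v fun i hi => ?_
  simp [pv, vecs, Function.update_of_ne (hi.trans_le h).ne]

omit [IsProbabilityMeasure ρ] in
theorem UU_update {J : ℕ} (Y : Mat J d) (ws : Fin (n + 1) → Sphere d) (t : Fin (n + 1))
    (a : Sphere d) (j : Fin n) (h : j.succ ≤ t) :
    UU ρ Y (Function.update ws t a) j = UU ρ Y ws j := by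
  unfold UU
  simp only [pv_update Y ws t a j h]

/-- the `Z₀` bound for one state -/
theorem EZ0_one (h0 : G0) {J : ℕ} (Y : Mat J d) (F : Sphere d → ℝ≥0) (hF : Measurable F)
    (P1 : ∀ H : (Fin J → ℝ) → ℝ≥0∞, Measurable H →
      ∫⁻ w, F w * H (app Y w) ∂ρ ≤ ∫⁻ w, H (app Y w) ∂ρ) :
    ∫⁻ ws, (∏ i, ((1 + F (ws i) : ℝ≥0) : ℝ≥0∞)) * ∏ j : Fin n, npow (n + 1) (delt Y ws j) / UU ρ Y ws j
      ∂(Measure.pi fun _ : Fin (n + 1) => ρ) ≤ 2 ^ (n + 1) := by
  have hG : Measurable fun w => ((1 + F w : ℝ≥0) : ℝ≥0∞) :=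
    (measurable_const.add hF).coe_nnreal_ennreal
  have P2 : ∀ H : (Fin J → ℝ) → ℝ≥0∞, Measurable H →
      ∫⁻ w, ((1 + F w : ℝ≥0) : ℝ≥0∞) * H (app Y w) ∂ρ ≤ 2 * ∫⁻ w, H (app Y w) ∂ρ := by
    intro H hH
    simp only [ENNReal.coe_add, ENNReal.coe_one, add_mul, one_mul]
    have hm : Measurable fun w : Sphere d => H (app Y w) := hH.comp (measurable_app_left Y)
    rw [lintegral_add_left hm, two_mul]
    exact add_le_add_right (P1 H hH) _
  have h := seq_int ρ (n + 1)
    (fun j => Fin.cases (motive := fun _ => (Fin (n + 1) → Sphere d) → ℝ≥0∞)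
      (fun ws => ((1 + F (ws 0) : ℝ≥0) : ℝ≥0∞))
      (fun j ws => ((1 + F (ws j.succ) : ℝ≥0) : ℝ≥0∞) * (npow (n + 1) (delt Y ws j) / UU ρ Y ws j))
      j) ?_ 2 ?_ ?_
  · refine le_trans (le_of_eq ?_) h
    congr 1
    ext ws
    simp only [Fin.prod_univ_succ, Fin.cases_zero, Fin.cases_succ, Finset.prod_mul_distrib]
    ring
  · intro j
    refine Fin.cases ?_ (fun j => ?_) j
    · exact hG.comp (measurable_pi_apply 0)
    · exact (hG.comp (measurable_pi_apply j.succ)).mul
        (((measurable_npow _).comp (measurable_delt' h0 measurable_const measurable_id j)).div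
          (measurable_UU' h0 measurable_const measurable_id j))
  · intro j t hjt ws a
    revert hjt
    refine Fin.cases (fun hjt => ?_) (fun j hjt => ?_) j
    · simp [Function.update_of_ne hjt.ne]
    · simp only [Fin.cases_succ]
      rw [UU_update Y ws t a j hjt.le, Function.update_of_ne hjt.ne]
      unfold delt
      rw [pv_update Y ws t a j hjt.le]
      simp [vecs, Function.update_of_ne hjt.ne]
  · intro j ws
    refine Fin.cases ?_ (fun j => ?_) j
    · have := P2 (fun _ => 1) measurable_const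
      simpa using this
    · simp only [Fin.cases_succ]
      have hH : Measurable fun y : Fin J → ℝ =>
          npow (n + 1) (dl (pv Y ws) j.succ (WithLp.toLp 2 y)) / UU ρ Y ws j :=
        ((measurable_npow _).comp (measurable_dl' h0 j.succ measurable_const
          (PiLp.continuous_toLp 2 _).measurable)).div_const _
      have h1 := P2 _ hH
      refine le_trans (le_of_eq ?_) (h1.trans ?_)
      · congr 1
        ext a
        rw [UU_update Y ws _ a j le_rfl, Function.update_self]
        unfold delt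
        rw [pv_update Y ws _ a j le_rfl]
        simp [vecs, appE]
      · simp only [div_eq_mul_inv]
        have hm : Measurable fun w' : Sphere d =>
            npow (n + 1) (dl (pv Y ws) j.succ (WithLp.toLp 2 (app Y (w' : E d)))) :=
          (measurable_npow _).comp (measurable_dl' h0 j.succ measurable_const
            (measurable_appE' measurable_const measurable_subtype_coe))
        rw [lintegral_mul_const _ hm]
        exact mul_le_of_le_one_right' (ENNReal.mul_inv_le_one (UU ρ Y ws j))

theorem EZa (h0 : G0) (g2 : G2) {J : ℕ} (ws : Fin (n + 1) → Sphere d) (j : Fin n) :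
    ∫⁻ Y, ENNReal.ofReal (delt Y ws j ^ 2) / ENNReal.ofReal (J * del ws j ^ 2) ∂gam J d ≤ 1 := by
  simp only [div_eq_mul_inv]
  have hm : Measurable fun Y : Mat J d => ENNReal.ofReal (delt Y ws j ^ 2) :=
    ((measurable_delt' h0 measurable_id measurable_const j).pow_const 2).ennreal_ofReal
  rw [lintegral_mul_const _ hm]
  refine le_trans (mul_le_mul_left ?_ _) (ENNReal.mul_inv_le_one (ENNReal.ofReal (J * del ws j ^ 2)))
  have h1 := g2 J d (vecs ws j.succ - vecs ws 0) ((fun i => vecs ws i - vecs ws 0) '' Set.Iio j.succ)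
  refine le_trans (le_of_eq ?_) h1
  congr 1
  ext Y
  unfold delt pv
  rw [dl_appE]

theorem EU (h0 : G0) (g3 : G3) (ws : Fin (n + 1) → Sphere d) (j : Fin n) :
    ∫⁻ Y, UU ρ Y ws j ∂gam (2 * (n + 1)) d
      ≤ ENNReal.ofReal ((1 + 2 ^ (n + 1 + 1) * Real.exp (((2 * (n + 1) : ℕ) : ℝ) / 2))
          / Real.sqrt ((2 * (n + 1) : ℕ) : ℝ) ^ (n + 1))
        * ∫⁻ w', npow (n + 1) (dl (vecs ws) j.succ (w' : E d)) ∂ρ := by
  unfold UU
  rw [lintegral_lintegral_swap, ← lintegral_const_mul' _ _ ENNReal.ofReal_ne_top]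
  · refine lintegral_mono fun w' => ?_
    have h1 := g3 (2 * (n + 1)) d (n + 1) n ((w' : E d) - vecs ws 0)
      ((fun i => vecs ws i - vecs ws 0) '' Set.Iio j.succ) (finrank_Iio_le _ j) (by omega)
    refine le_trans (le_of_eq ?_) h1
    congr 1
    ext Y
    unfold pv
    rw [dl_appE]
  · exact ((measurable_npow _).comp (measurable_dl' h0 j.succ
      (measurable_pv' measurable_fst measurable_const)
      (measurable_appE' measurable_fst (measurable_subtype_coe.comp measurable_snd)))).aemeasurable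

end Crest.Agent.SL.Bt
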