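import Crest.Agent.SL.BatchC

/-! The `Z_b` bound and the resampling identity for the batch lemma `B1`. -/

set_option autoImplicit false

namespace Crest.Agent.SL.Bt

open MeasureTheory ProbabilityTheory Crest.StreamLearn
open scoped ENNReal NNReal RealInnerProductSpace

variable {n d : ℕ} {ρ : Measure (Sphere d)} [IsProbabilityMeasure ρ]

omit [IsProbabilityMeasure ρ] in
theorem ae_fiber (S : Slicing (n + 1) d ρ) (X : Mat (n + 1) d) :
    ∀ᵐ (w : Sphere d) ∂ρ, ∀ᵐ ws ∂(Measure.pi fun _ : Fin (n + 1) => S.π (X, app X w)),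
      ∀ i, app X (vecs ws i) = app X w := by
  have := S.markov
  set A : Set ((Fin (n + 1) → ℝ) × Sphere d) := {p | app X (p.2 : E d) = p.1}ᶜ with hA
  have hAm : MeasurableSet A :=
    (measurableSet_eq_fun ((measurable_app_left X).comp measurable_snd) measurable_fst).compl
  have hf : Measurable (A.indicator (1 : (Fin (n + 1) → ℝ) × Sphere d → ℝ≥0∞)) := measurable_one.indicator hAm
  have h := S.disint X (A.indicator 1) hf
  have h2 : ∫⁻ w : Sphere d, A.indicator (1 : (Fin (n + 1) → ℝ) × Sphere d → ℝ≥0∞) (app X w, w) ∂ρ = 0 := by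
    refine lintegral_eq_zero_of_ae_eq_zero (Filter.Eventually.of_forall fun w => ?_)
    have : (app X w, w) ∉ A := by simp [hA]
    simp [Set.indicator_of_notMem this]
  have hm : Measurable fun w : Sphere d =>
      ∫⁻ w', A.indicator (1 : (Fin (n + 1) → ℝ) × Sphere d → ℝ≥0∞) (app X w, w') ∂S.π (X, app X w) := by
    have h3 : Measurable fun p : Sphere d × Sphere d =>
        A.indicator (1 : (Fin (n + 1) → ℝ) × Sphere d → ℝ≥0∞) (app X p.1, p.2) :=
      hf.comp (((measurable_app_left X).comp measurable_fst).prodMk measurable_snd)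
    exact h3.lintegral_kernel_prod_right'
      (κ := S.π.comap (fun w : Sphere d => (X, app X w))
        (measurable_const.prodMk (measurable_app_left X)))
  rw [h2, lintegral_eq_zero_iff hm] at h
  filter_upwards [h] with w hw
  have hm2 : Measurable fun w' : Sphere d => A.indicator (1 : (Fin (n + 1) → ℝ) × Sphere d → ℝ≥0∞) (app X w, w') :=
    hf.comp (measurable_const.prodMk measurable_id)
  have hw' := (lintegral_eq_zero_iff hm2).1 hw
  have h4 : ∀ᵐ (w' : Sphere d) ∂S.π (X, app X w), app X (w' : E d) = app X w := by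
    filter_upwards [hw'] with w' h5
    by_contra h6
    have : (app X w, w') ∈ A := h6
    rw [Set.indicator_of_mem this] at h5
    simp at h5
  rw [ae_all_iff]
  intro i
  exact (measurePreserving_eval (fun _ : Fin (n + 1) => S.π (X, app X w)) i).quasiMeasurePreserving.ae
    h4

theorem int_shift {k : ℕ} (X : Mat k d) {K : Set (Fin k → ℝ)} (hK : MeasurableSet K) :
    ∫⁻ y, ρ {w' : Sphere d | app X w' - y ∈ K} = volume K := by
  set A : Set ((Fin k → ℝ) × Sphere d) := {p | app X (p.2 : E d) - p.1 ∈ K} with hA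
  have hAm : MeasurableSet A :=
    (((measurable_app_left X).comp measurable_snd).sub measurable_fst) hK
  have h1 := Measure.prod_apply (μ := (volume : Measure (Fin k → ℝ))) (ν := ρ) hAm
  have h2 := Measure.prod_apply_symm (μ := (volume : Measure (Fin k → ℝ))) (ν := ρ) hAm
  have h3 : ∀ w' : Sphere d, volume ((fun y => (y, w')) ⁻¹' A) = volume K := fun w' =>
    (Measure.measurePreserving_sub_left volume (app X w')).measure_preimage hK.nullMeasurableSet
  simp only [h3, lintegral_const, measure_univ, mul_one] at h2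
  rw [← h2, h1]
  rfl

/-- the negative moment of the distance to the affine span -/
noncomputable def UA (ρ : Measure (Sphere d)) (ws : Fin (n + 1) → Sphere d) (j : Fin n) : ℝ≥0∞ :=
  ∫⁻ w', npow (n + 1) (dl (vecs ws) j.succ (w' : E d)) ∂ρ

theorem measurable_UA (h0 : G0) (j : Fin n) : Measurable fun ws => UA ρ ws j := by
  have h : Measurable fun p : (Fin (n + 1) → Sphere d) × Sphere d =>
      npow (n + 1) (dl (vecs p.1) j.succ (p.2 : E d)) :=
    (measurable_npow _).comp (measurable_dl' h0 j.succ (measurable_vecs.comp measurable_fst)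
      (measurable_subtype_coe.comp measurable_snd))
  exact h.lintegral_prod_right'

theorem EZb_X (g4 : G4) (S : Slicing (n + 1) d ρ) (hd : n + 1 ≤ d) (l0 : ℕ) (j : Fin n)
    (hUA : ∀ ws : Fin (n + 1) → Sphere d,
      UA ρ ws j ≤ 2 + ∑ l ∈ Finset.range l0, (2 : ℝ≥0∞) ^ ((l + 1) * (n + 1)) *
        ρ {w' | dl (vecs ws) j.succ (w' : E d) ≤ (1 / 2) ^ l}) (X : Mat (n + 1) d) :
    ∫⁻ w, ∫⁻ ws, S.ι (X, app X w) * UA ρ ws j
        ∂(Measure.pi fun _ : Fin (n + 1) => S.π (X, app X w)) ∂ρ
      ≤ ENNReal.ofReal ((2 + l0 * 2 ^ (n + 1)) * Real.sqrt (20 / ((n + 1 : ℕ) : ℝ)) ^ (n + 1))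
        * ENNReal.ofReal (∏ i, ‖X i‖) := by
  have := S.markov
  set K : ℝ → Set (Fin (n + 1) → ℝ) := fun h => app X '' Metric.closedBall 0 h with hK
  have hKm : ∀ h, MeasurableSet (K h) := fun h => measurableSet_img X h
  have hmr : ∀ h, Measurable fun y => ρ {w' : Sphere d | app X w' - y ∈ K h} := fun h =>
    measurable_measure_prodMk_left (ν := ρ)
      (s := {p : (Fin (n + 1) → ℝ) × Sphere d | app X (p.2 : E d) - p.1 ∈ K h})
      ((((measurable_app_left X).comp measurable_snd).sub measurable_fst) (hKm h))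
  set B : (Fin (n + 1) → ℝ) → ℝ≥0∞ := fun y => 2 * (K 1).indicator 1 y
    + ∑ l ∈ Finset.range l0, (2 : ℝ≥0∞) ^ ((l + 1) * (n + 1)) *
      ρ {w' : Sphere d | app X w' - y ∈ K ((1 / 2) ^ l)} with hB
  have hB1 : Measurable fun y => 2 * (K 1).indicator (1 : (Fin (n + 1) → ℝ) → ℝ≥0∞) y :=
    (measurable_one.indicator (hKm 1)).const_mul _
  have hBm : Measurable B :=
    hB1.add (Finset.measurable_sum _ fun l _ => (hmr _).const_mul _)
  set s : ℝ := Real.sqrt (20 / ((n + 1 : ℕ) : ℝ)) with hs
  have hs0 : 0 ≤ s := Real.sqrt_nonneg _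
  have hP : 0 ≤ ∏ i, ‖X i‖ := Finset.prod_nonneg fun i _ => norm_nonneg _
  calc ∫⁻ w, ∫⁻ ws, S.ι (X, app X w) * UA ρ ws j
        ∂(Measure.pi fun _ : Fin (n + 1) => S.π (X, app X w)) ∂ρ
      ≤ ∫⁻ w, S.ι (X, app X w) * B (app X w) ∂ρ := by
        refine lintegral_mono_ae ?_
        filter_upwards [ae_fiber S X] with w hw
        calc ∫⁻ ws, S.ι (X, app X w) * UA ρ ws j
              ∂(Measure.pi fun _ : Fin (n + 1) => S.π (X, app X w))
            ≤ ∫⁻ _, S.ι (X, app X w) * B (app X w)
              ∂(Measure.pi fun _ : Fin (n + 1) => S.π (X, app X w)) := by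
              refine lintegral_mono_ae ?_
              filter_upwards [hw] with ws hws
              refine mul_le_mul_right ((hUA ws).trans ?_) _
              have hw1 : app X w ∈ K 1 := ⟨w, by simp, rfl⟩
              simp only [hB, Set.indicator_of_mem hw1, Pi.one_apply, mul_one]
              refine add_le_add_right (Finset.sum_le_sum fun l _ => mul_le_mul_right ?_ _) _
              exact measure_mono fun w' hw' => mem_ball_of_dl X (vecs ws) _ hws j.succ w' _ hw'
          _ = _ := by simp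
    _ ≤ ∫⁻ y, B y := S.ι_le X B hBm
    _ = 2 * volume (K 1) + ∑ l ∈ Finset.range l0, (2 : ℝ≥0∞) ^ ((l + 1) * (n + 1)) *
          volume (K ((1 / 2) ^ l)) := by
        simp only [hB]
        rw [lintegral_add_left hB1, lintegral_const_mul _ (measurable_one.indicator (hKm 1)),
          lintegral_indicator_one (hKm 1), lintegral_finsetSum _ fun l _ => (hmr _).const_mul _]
        congr 1
        refine Finset.sum_congr rfl fun l _ => ?_
        rw [lintegral_const_mul _ (hmr _), int_shift X (hKm _)]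
    _ ≤ 2 * ENNReal.ofReal (s ^ (n + 1) * ∏ i, ‖X i‖) + ∑ l ∈ Finset.range l0,
          ENNReal.ofReal (2 ^ (n + 1) * (s ^ (n + 1) * ∏ i, ‖X i‖)) := by
        refine add_le_add (mul_le_mul_right ?_ _) (Finset.sum_le_sum fun l _ => ?_)
        · have := g4 (n + 1) d X 1 (by omega) hd zero_le_one
          rwa [one_mul] at this
        · refine (mul_le_mul_right (g4 (n + 1) d X ((1 / 2) ^ l) (by omega) hd (by positivity)) _).trans
            (le_of_eq ?_)
          have e1 : (2 : ℝ≥0∞) ^ ((l + 1) * (n + 1)) = ENNReal.ofReal (2 ^ ((l + 1) * (n + 1))) := by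
            rw [ENNReal.ofReal_pow (by norm_num)]; simp
          rw [e1, ← ENNReal.ofReal_mul (by positivity)]
          congr 1
          rw [mul_pow, ← hs]
          have : (2 : ℝ) ^ ((l + 1) * (n + 1)) * ((1 / 2) ^ l) ^ (n + 1) = 2 ^ (n + 1) := by
            rw [pow_mul, ← mul_pow]
            congr 1
            rw [pow_succ, one_div, inv_pow]
            field_simp
          rw [← this]
          ring
    _ = _ := by
        generalize ∏ i, ‖X i‖ = P at hP
        rw [Finset.sum_const, Finset.card_range, nsmul_eq_mul, ← ENNReal.ofReal_mul (by positivity),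
          ← ENNReal.ofReal_natCast, ← ENNReal.ofReal_mul (by positivity),
          ← ENNReal.ofReal_ofNat, ← ENNReal.ofReal_mul (by positivity),
          ← ENNReal.ofReal_add (by positivity) (by positivity)]
        congr 1
        ring

theorem EZb (h0 : G0) (g4 : G4) (g5 : G5) (S : Slicing (n + 1) d ρ) (hd : n + 1 ≤ d)
    (hd8 : d ≤ 8 * (n + 1)) (l0 : ℕ) (j : Fin n)
    (hUA : ∀ ws : Fin (n + 1) → Sphere d,
      UA ρ ws j ≤ 2 + ∑ l ∈ Finset.range l0, (2 : ℝ≥0∞) ^ ((l + 1) * (n + 1)) *
        ρ {w' | dl (vecs ws) j.succ (w' : E d) ≤ (1 / 2) ^ l}) :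
    ∫⁻ z, io S z * UA ρ z.2 j ∂mu S ≤ ENNReal.ofReal (26 ^ (n + 1) * (l0 + 2)) := by
  have hm : Measurable fun z : Om n d => io S z * UA ρ z.2 j :=
    (measurable_io S).mul ((measurable_UA h0 j).comp measurable_snd)
  rw [lint_mu S hm]
  refine (lintegral_mono fun X => EZb_X g4 S hd l0 j hUA X).trans ?_
  rw [lintegral_const_mul' _ _ ENNReal.ofReal_ne_top]
  refine (mul_le_mul_right (g5 (n + 1) d) _).trans ?_
  rw [← ENNReal.ofReal_mul (by positivity)]
  refine ENNReal.ofReal_le_ofReal ?_
  have hk : (0 : ℝ) < ((n + 1 : ℕ) : ℝ) := by positivity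
  have h13 : Real.sqrt (20 / ((n + 1 : ℕ) : ℝ)) * Real.sqrt d ≤ 13 := by
    rw [← Real.sqrt_mul (by positivity), Real.sqrt_le_iff]
    refine ⟨by norm_num, ?_⟩
    have : (d : ℝ) ≤ 8 * ((n + 1 : ℕ) : ℝ) := by exact_mod_cast hd8
    rw [div_mul_eq_mul_div, div_le_iff₀ hk]
    linarith
  have h2 : (1 : ℝ) ≤ 2 ^ (n + 1) := one_le_pow₀ (by norm_num)
  rw [mul_assoc, ← mul_pow]
  have h3 := pow_le_pow_left₀ (by positivity) h13 (n + 1)
  calc _ ≤ ((l0 + 2) * 2 ^ (n + 1)) * (13 : ℝ) ^ (n + 1) := by
        refine mul_le_mul ?_ h3 (by positivity) (by positivity)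
        nlinarith
    _ = _ := by rw [mul_assoc, ← mul_pow]; norm_num; ring

/-- resampling identity -/
theorem resample (S : Slicing (n + 1) d ρ) {f : (Mat (n + 1) d × (Fin (n + 1) → ℝ)) × Sphere d → ℝ≥0∞}
    (hf : Measurable f) (i : Fin (n + 1)) :
    ∫⁻ w, ∫⁻ X, f ((X, app X w), w) ∂gam (n + 1) d ∂ρ
      = ∫⁻ z, f ((z.1.1, app z.1.1 z.1.2), z.2 i) ∂mu S := by
  have := S.markov
  have hm : Measurable fun z : Om n d => f ((z.1.1, app z.1.1 z.1.2), z.2 i) :=
    hf.comp ((measurable_Xy.comp measurable_fst).prodMk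
      ((measurable_pi_apply i).comp measurable_snd))
  have hm2 : Measurable fun p : Sphere d × Mat (n + 1) d => f ((p.2, app p.2 p.1), p.1) :=
    hf.comp ((measurable_Xy.comp measurable_swap).prodMk measurable_fst)
  rw [lint_mu S hm, lintegral_lintegral_swap hm2.aemeasurable]
  refine lintegral_congr fun X => ?_
  have hm3 : Measurable fun p : (Fin (n + 1) → ℝ) × Sphere d => f ((X, p.1), p.2) :=
    hf.comp ((measurable_const.prodMk measurable_fst).prodMk measurable_snd)
  rw [← S.disint X _ hm3]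
  refine lintegral_congr fun w => ?_
  have hm4 : Measurable fun w' : Sphere d => f ((X, app X w), w') :=
    hf.comp (measurable_const.prodMk measurable_id)
  exact ((measurePreserving_eval (fun _ : Fin (n + 1) => S.π (X, app X w)) i).lintegral_comp
    hm4).symm

end Crest.Agent.SL.Bt
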