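import Crest.Agent.SL.Slice

/-! Job C for S0499, part 1: the chain of batches (certificates over histories). -/

set_option autoImplicit false

namespace Crest.Agent.SL.Ch7

open MeasureTheory ProbabilityTheory Crest.StreamLearn Crest.Agent.SL
open scoped ENNReal NNReal RealInnerProductSpace

variable {J d : ℕ} {u : Measure (Sphere d)}

/-- conditional mean along the slicing -/
noncomputable def hat (σ : Slicing J d u) (g : Sphere d → ℝ≥0∞) (p : Mat J d × (Fin J → ℝ)) :
    ℝ≥0∞ := ∫⁻ w, g w ∂σ.π p

theorem hat_meas (σ : Slicing J d u) {g : Sphere d → ℝ≥0∞} (hg : Measurable g) :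
    Measurable (hat σ g) := hg.lintegral_kernel

theorem hat_le_one (σ : Slicing J d u) {g : Sphere d → ℝ≥0∞} (hg : ∀ w, g w ≤ 1)
    (p : Mat J d × (Fin J → ℝ)) : hat σ g p ≤ 1 := by
  have := σ.markov
  calc hat σ g p ≤ ∫⁻ _w, 1 ∂σ.π p := lintegral_mono hg
    _ = 1 := by simp

theorem pm_meas : Measurable fun q : Mat J d × Sphere d => (q.1, app q.1 (q.2 : E d)) :=
  measurable_fst.prodMk (sl_app_meas J d)

theorem pm_meas' (Y : Mat J d) : Measurable fun w : Sphere d => (Y, app Y (w : E d)) :=
  measurable_const.prodMk (sl_app_meas' Y)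

theorem disint' (σ : Slicing J d u) (Y : Mat J d) {g : Sphere d → ℝ≥0∞} (hg : Measurable g)
    {H : (Fin J → ℝ) → ℝ≥0∞} (hH : Measurable H) :
    ∫⁻ w, g w * H (app Y w) ∂u = ∫⁻ w, hat σ g (Y, app Y w) * H (app Y w) ∂u := by
  have h := σ.disint Y (fun p => g p.2 * H p.1)
    ((hg.comp measurable_snd).mul (hH.comp measurable_fst))
  rw [← h]
  refine lintegral_congr fun w => ?_
  exact lintegral_mul_const (H (app Y w)) hg

theorem ae_zero_of_hat (σ : Slicing J d u) (Y : Mat J d) {g : Sphere d → ℝ≥0∞}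
    (hg : Measurable g) : ∀ᵐ (w : Sphere d) ∂u, hat σ g (Y, app Y w) = 0 → g w = 0 := by
  let Z : Set (Fin J → ℝ) := {z | hat σ g (Y, z) = 0}
  have hZ : MeasurableSet Z :=
    ((hat_meas σ hg).comp (measurable_const.prodMk measurable_id)) (measurableSet_singleton 0)
  have hH : Measurable (Z.indicator fun _ => (1 : ℝ≥0∞)) := measurable_const.indicator hZ
  have h := disint' σ Y hg hH
  have h0 : ∫⁻ w : Sphere d, hat σ g (Y, app Y w) * Z.indicator (fun _ => (1 : ℝ≥0∞)) (app Y w)
      ∂u = 0 := by
    have : ∀ w : Sphere d, hat σ g (Y, app Y w) *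
        Z.indicator (fun _ => (1 : ℝ≥0∞)) (app Y w) = 0 := by
      intro w
      by_cases hw : app Y (w : E d) ∈ Z
      · have : hat σ g (Y, app Y w) = 0 := hw
        rw [this, zero_mul]
      · rw [Set.indicator_of_notMem hw, mul_zero]
    simp [this]
  rw [h0] at h
  have hm : Measurable fun w : Sphere d =>
      g w * Z.indicator (fun _ => (1 : ℝ≥0∞)) (app Y w) := hg.mul (hH.comp (sl_app_meas' Y))
  have h' := (lintegral_eq_zero_iff hm).1 h
  filter_upwards [h'] with w hw hz
  have hz' : app Y (w : E d) ∈ Z := hz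
  simpa [Set.indicator_of_mem hz'] using hw

section steps

variable {k : ℕ} {St : Type} [Fintype St] [DecidableEq St]
  (τ : ℕ → St → Mat k d → (Fin k → ℝ) → St)
  (hτ : ∀ t m m', MeasurableSet {p : Mat k d × (Fin k → ℝ) | τ t m p.1 p.2 = m'})

include hτ in
omit [Fintype St] [DecidableEq St] in
theorem step_set (t : ℕ) (m m' : St) (w : E d) :
    MeasurableSet {X : Mat k d | τ t m X (app X w) = m'} := by
  have hm : Measurable fun X : Mat k d => (X, app X w) :=
    measurable_id.prodMk ((sl_app_cont k d).measurable.comp (measurable_id.prodMk measurable_const))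
  exact hm (hτ t m m')

include hτ in
omit [Fintype St] [DecidableEq St] in
theorem step_meas (t : ℕ) (m m' : St) :
    Measurable fun w : Sphere d => step τ t m m' (w : E d) := by
  have hm : Measurable fun q : Sphere d × Mat k d => (q.2, app q.2 (q.1 : E d)) :=
    (pm_meas (J := k) (d := d)).comp measurable_swap
  exact measurable_measure_prodMk_left (ν := gam k d) (hm (hτ t m m'))

include hτ in
omit [DecidableEq St] in
theorem lintegral_step (t : ℕ) (m : St) (w : E d) (g : St → ℝ≥0∞) :
    ∫⁻ X, g (τ t m X (app X w)) ∂gam k d = ∑ m', step τ t m m' w * g m' := by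
  classical
  have : ∀ X : Mat k d, g (τ t m X (app X w)) =
      ∑ m', {X : Mat k d | τ t m X (app X w) = m'}.indicator (fun _ => g m') X := by
    intro X
    rw [Finset.sum_eq_single (τ t m X (app X w))]
    · rw [Set.indicator_of_mem (by simp)]
    · intro m' _ hne
      rw [Set.indicator_of_notMem (by simpa using fun h => hne h.symm)]
    · simp
  simp_rw [this]
  rw [lintegral_finsetSum _ fun m' _ => measurable_const.indicator (step_set τ hτ t m m' w)]
  refine Finset.sum_congr rfl fun m' _ => ?_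
  rw [lintegral_indicator_const (step_set τ hτ t m m' w), mul_comm]
  rfl

include hτ in
omit [DecidableEq St] in
theorem sum_step (t : ℕ) (m : St) (w : E d) : ∑ m', step τ t m m' w = 1 := by
  have := lintegral_step τ hτ t m w (fun _ => 1)
  simpa using this.symm

include hτ in
theorem sum_law (m₀ : St) (t : ℕ) (w : E d) : ∑ m, law τ m₀ t m w = 1 := by
  induction t with
  | zero => simp [law]
  | succ t ih =>
    simp only [law]
    rw [Finset.sum_comm]
    simp only [← Finset.mul_sum, sum_step τ hτ, mul_one, ih]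

end steps

theorem entropy_le {H : Type} [Fintype H] (P : H → ℝ) (hP : ∀ h, 0 ≤ P h) (hs : ∑ h, P h = 1) :
    ∑ h, P h * Real.log (P h)⁻¹ ≤ Real.log (Fintype.card H) := by
  have hn : 0 < Fintype.card H := by
    rcases Nat.eq_zero_or_pos (Fintype.card H) with h0 | h0
    · have : IsEmpty H := Fintype.card_eq_zero_iff.1 h0
      simp at hs
    · exact h0
  have hnR : (0 : ℝ) < Fintype.card H := by exact_mod_cast hn
  have h1 : ∀ h, P h * Real.log (P h)⁻¹ ≤
      P h * Real.log (Fintype.card H) + ((Fintype.card H : ℝ)⁻¹ - P h) := by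
    intro h
    rcases (hP h).eq_or_lt with h0 | h0
    · rw [← h0]; simp
    · have h2 := Real.log_le_sub_one_of_pos
        (show 0 < (P h)⁻¹ / Fintype.card H by positivity)
      rw [Real.log_div (by positivity) hnR.ne'] at h2
      have h3 : P h * ((P h)⁻¹ / Fintype.card H) = (Fintype.card H : ℝ)⁻¹ := by
        field_simp
      nlinarith
  refine (Finset.sum_le_sum fun h _ => h1 h).trans (le_of_eq ?_)
  rw [Finset.sum_add_distrib, Finset.sum_sub_distrib, ← Finset.sum_mul, hs, Finset.sum_const,
    Finset.card_univ, nsmul_eq_mul, mul_inv_cancel₀ hnR.ne']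
  ring

/-- certificate after some number of batches -/
structure Cert {St : Type} [Fintype St] (σ : Slicing J d u) (lw : St → E d → ℝ≥0∞) (n : ℕ)
    (R : ℝ) where
  H : Type
  fin : Fintype H
  card_le : Fintype.card H ≤ n
  last : H → St
  a : H → Sphere d → ℝ≥0∞
  a_meas : ∀ h, Measurable (a h)
  Λ : H → Mat J d × Sphere d → ℝ≥0
  Λ_meas : ∀ h, Measurable (Λ h)
  one_le : ∀ h q, 1 ≤ Λ h q
  a_law : ∀ (w : Sphere d) (g : St → ℝ≥0∞), ∑ h, a h w * g (last h) = ∑ m, lw m w * g m
  dom : ∀ h (Y : Mat J d), ∀ᵐ (w : Sphere d) ∂u, a h w ≤ Λ h (Y, w) * hat σ (a h) (Y, app Y w)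
  xi : ∑ h, ∫⁻ Y, ∫⁻ w, a h w * ENNReal.ofReal (Real.log (Λ h (Y, w))) ∂u ∂gam J d
    ≤ ENNReal.ofReal R

/-- the initial certificate -/
noncomputable def cert0 {k : ℕ} {St : Type} [Fintype St] [DecidableEq St] (σ : Slicing J d u)
    (τ : ℕ → St → Mat k d → (Fin k → ℝ) → St) (m₀ : St) :
    Cert σ (law τ m₀ 0) 1 0 where
  H := Unit
  fin := inferInstance
  card_le := by simp
  last := fun _ => m₀
  a := fun _ _ => 1
  a_meas := fun _ => measurable_const
  Λ := fun _ _ => 1
  Λ_meas := fun _ => measurable_const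
  one_le := fun _ _ => le_rfl
  a_law := by intro w g; simp [law]
  dom := by
    intro h Y
    have := σ.markov
    refine Filter.Eventually.of_forall fun w => ?_
    simp [hat]
  xi := by simp

end Crest.Agent.SL.Ch7
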