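import Crest.Agent.SL.Chain1

/-! Job C for S0499, part 2: the induction step of the chain. -/

set_option autoImplicit false

namespace Crest.Agent.SL.Ch7

open MeasureTheory ProbabilityTheory Crest.StreamLearn Crest.Agent.SL
open scoped ENNReal NNReal RealInnerProductSpace

variable {J d : ℕ} {u : Measure (Sphere d)}

/-- the likelihood ratio of one batch -/
noncomputable def FF (σ : Slicing J d u) (a s : Sphere d → ℝ≥0∞) (q : Mat J d × Sphere d) : ℝ≥0 :=
  (s q.2 * (hat σ a (q.1, app q.1 q.2) / hat σ (fun w => a w * s w) (q.1, app q.1 q.2))).toNNReal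

theorem FF_meas (σ : Slicing J d u) {a s : Sphere d → ℝ≥0∞} (ha : Measurable a)
    (hs : Measurable s) : Measurable (FF σ a s) := by
  unfold FF
  refine Measurable.ennreal_toNNReal ((hs.comp measurable_snd).mul (Measurable.div ?_ ?_))
  · exact (hat_meas σ ha).comp pm_meas
  · exact (hat_meas σ (ha.mul hs)).comp pm_meas

theorem FF_P1 (σ : Slicing J d u) {a s : Sphere d → ℝ≥0∞} (ha : Measurable a)
    (hs : Measurable s) (Y : Mat J d) {H : (Fin J → ℝ) → ℝ≥0∞} (hH : Measurable H) :
    ∫⁻ w, a w * (FF σ a s (Y, w) * H (app Y w)) ∂u ≤ ∫⁻ w, a w * H (app Y w) ∂u := by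
  let G : (Fin J → ℝ) → ℝ≥0∞ := fun z =>
    hat σ a (Y, z) / hat σ (fun w => a w * s w) (Y, z) * H z
  have hY : Measurable fun z : Fin J → ℝ => (Y, z) := measurable_const.prodMk measurable_id
  have hG : Measurable G :=
    (((hat_meas σ ha).comp hY).div ((hat_meas σ (ha.mul hs)).comp hY)).mul hH
  calc ∫⁻ w, a w * (FF σ a s (Y, w) * H (app Y w)) ∂u
      ≤ ∫⁻ w, (a w * s w) * G (app Y w) ∂u := by
        refine lintegral_mono fun w => ?_
        have h1 : (FF σ a s (Y, w) : ℝ≥0∞) ≤ s w * (hat σ a (Y, app Y w) /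
            hat σ (fun w => a w * s w) (Y, app Y w)) := ENNReal.coe_toNNReal_le_self
        calc a w * (FF σ a s (Y, w) * H (app Y w)) ≤ a w * ((s w * (hat σ a (Y, app Y w) /
            hat σ (fun w => a w * s w) (Y, app Y w))) * H (app Y w)) := by gcongr
          _ = (a w * s w) * G (app Y w) := by simp only [G]; ring
    _ = ∫⁻ w : Sphere d, hat σ (fun w => a w * s w) (Y, app Y w) * G (app Y w) ∂u :=
        disint' σ Y (ha.mul hs) hG
    _ ≤ ∫⁻ w : Sphere d, hat σ a (Y, app Y w) * H (app Y w) ∂u := by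
        refine lintegral_mono fun w => ?_
        simp only [G]
        rw [← mul_assoc]
        gcongr
        exact ENNReal.mul_div_le
    _ = ∫⁻ w, a w * H (app Y w) ∂u := (disint' σ Y ha hH).symm

theorem FF_dom (σ : Slicing J d u) {a s : Sphere d → ℝ≥0∞} (ha : Measurable a)
    (hs : Measurable s) (ha1 : ∀ w, a w ≤ 1) (hs1 : ∀ w, s w ≤ 1) (Y : Mat J d)
    (Λ : Sphere d → ℝ≥0)
    (hΛ : ∀ᵐ (w : Sphere d) ∂u, a w ≤ Λ w * hat σ a (Y, app Y w)) :
    ∀ᵐ (w : Sphere d) ∂u, a w * s w ≤ ((Λ w * (1 + FF σ a s (Y, w)) : ℝ≥0) : ℝ≥0∞) *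
      hat σ (fun w => a w * s w) (Y, app Y w) := by
  filter_upwards [hΛ, ae_zero_of_hat σ Y (ha.mul hs)] with w h1 h2
  by_cases h0 : hat σ (fun w => a w * s w) (Y, app Y w) = 0
  · have := h2 h0
    simp only [Pi.mul_apply] at this
    rw [this]; exact zero_le
  · have hle : hat σ (fun w => a w * s w) (Y, app Y w) ≤ 1 :=
      hat_le_one σ (fun w => mul_le_one' (ha1 w) (hs1 w)) _
    have hne : hat σ (fun w => a w * s w) (Y, app Y w) ≠ ⊤ := ne_top_of_le_ne_top (by simp) hle
    have hfin : s w * (hat σ a (Y, app Y w) / hat σ (fun w => a w * s w) (Y, app Y w)) ≠ ⊤ :=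
      ENNReal.mul_ne_top (ne_top_of_le_ne_top (by simp) (hs1 w))
        (ENNReal.div_ne_top (ne_top_of_le_ne_top (by simp) (hat_le_one σ ha1 _)) h0)
    have hF : (FF σ a s (Y, w) : ℝ≥0∞) = s w * (hat σ a (Y, app Y w) /
        hat σ (fun w => a w * s w) (Y, app Y w)) := ENNReal.coe_toNNReal hfin
    calc a w * s w ≤ (Λ w * hat σ a (Y, app Y w)) * s w := by gcongr
      _ = Λ w * (FF σ a s (Y, w) * hat σ (fun w => a w * s w) (Y, app Y w)) := by
          rw [hF, mul_assoc (s w), ENNReal.div_mul_cancel h0 hne]; ring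
      _ ≤ Λ w * ((1 + FF σ a s (Y, w)) * hat σ (fun w => a w * s w) (Y, app Y w)) := by
          gcongr; exact le_add_self
      _ = _ := by push_cast; ring

/-- the batch lemma for fixed dimensions and state space -/
def BB (C : ℝ) (d k : ℕ) (St : Type) [Fintype St] (u : Measure (Sphere d)) : Prop :=
  ∀ (ρ : Measure (Sphere d)), IsProbabilityMeasure ρ → ∀ L : ℝ, 1 ≤ L →
  ρ ≤ ENNReal.ofReal L • u →
  ∀ (τ : Mat k d → (Fin k → ℝ) → St),
  (∀ m, MeasurableSet {p : Mat k d × (Fin k → ℝ) | τ p.1 p.2 = m}) →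
  ∀ F : St → Mat (2 * k) d × Sphere d → ℝ≥0, (∀ m, Measurable (F m)) →
  (∀ m (Y : Mat (2 * k) d) (H : (Fin (2 * k) → ℝ) → ℝ≥0∞), Measurable H →
    ∫⁻ w, F m (Y, w) * H (app Y w) ∂ρ ≤ ∫⁻ w, H (app Y w) ∂ρ) →
  ∫⁻ Y, ∫⁻ w, ∫⁻ X, ENNReal.ofReal (Real.log (1 + F (τ X (app X w)) (Y, w)))
      ∂gam k d ∂ρ ∂gam (2 * k) d
    ≤ ENNReal.ofReal (Real.log (Fintype.card St) / k + C * (d + Real.log L / Real.exp d))

theorem log_meas {α : Type} [MeasurableSpace α] {F : α → ℝ≥0} (hF : Measurable F) :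
    Measurable fun q => ENNReal.ofReal (Real.log (1 + F q)) :=
  (Real.measurable_log.comp (measurable_const.add hF.coe_nnreal_real)).ennreal_ofReal

variable {k : ℕ} {St : Type} [Fintype St] [DecidableEq St]
  (τ : ℕ → St → Mat k d → (Fin k → ℝ) → St)
  (hτ : ∀ t m m', MeasurableSet {p : Mat k d × (Fin k → ℝ) | τ t m p.1 p.2 = m'})

include hτ in
omit [DecidableEq St] in
theorem one_history [IsProbabilityMeasure u] {C : ℝ} (hB : BB C d k St u)
    (σ : Slicing (2 * k) d u) {a : Sphere d → ℝ≥0∞} (ha : Measurable a)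
    (ha1 : ∀ w, a w ≤ 1) (t : ℕ) (m : St) :
    ∑ m', ∫⁻ Y, ∫⁻ w, a w * step τ t m m' w * ENNReal.ofReal (Real.log (1 +
        FF σ a (fun w => step τ t m m' w) (Y, w))) ∂u ∂gam (2 * k) d
      ≤ ENNReal.ofReal ((∫⁻ w, a w ∂u).toReal *
        (Real.log (Fintype.card St) / k + C * (d +
          Real.log (∫⁻ w, a w ∂u).toReal⁻¹ / Real.exp d))) := by
  set P := ∫⁻ w, a w ∂u with hP
  have hs : ∀ m', Measurable fun w : Sphere d => step τ t m m' w := fun m' =>
    step_meas τ hτ t m m'
  have hl : ∀ m', Measurable fun q : Mat (2 * k) d × Sphere d => ENNReal.ofReal (Real.log (1 +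
      FF σ a (fun w => step τ t m m' w) q)) := fun m' => log_meas (FF_meas σ ha (hs m'))
  by_cases hP0 : P = 0
  · have ha0 : a =ᵐ[u] 0 := (lintegral_eq_zero_iff ha).1 hP0
    have : ∀ m' (Y : Mat (2 * k) d), ∫⁻ w, a w * step τ t m m' w * ENNReal.ofReal (Real.log (1 +
        FF σ a (fun w => step τ t m m' w) (Y, w))) ∂u = 0 := by
      intro m' Y
      refine le_antisymm ?_ zero_le
      calc _ = ∫⁻ _w, 0 ∂u := by
            refine lintegral_congr_ae ?_
            filter_upwards [ha0] with w hw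
            simp [hw]
        _ ≤ 0 := by simp
    simp [this]
  have hP1 : P ≤ 1 := by
    calc P ≤ ∫⁻ _w, 1 ∂u := lintegral_mono ha1
      _ = 1 := by simp
  have hPt : P ≠ ⊤ := ne_top_of_le_ne_top (by simp) hP1
  have hPr : 0 < P.toReal := ENNReal.toReal_pos hP0 hPt
  have hPr1 : P.toReal ≤ 1 := by
    have := ENNReal.toReal_mono (by simp) hP1
    simpa using this
  let ρ : Measure (Sphere d) := P⁻¹ • u.withDensity a
  have hρ : IsProbabilityMeasure ρ := by
    constructor
    simp only [ρ, Measure.smul_apply, smul_eq_mul]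
    rw [withDensity_apply _ MeasurableSet.univ, Measure.restrict_univ,
      ENNReal.inv_mul_cancel hP0 hPt]
  have hint : ∀ g : Sphere d → ℝ≥0∞, Measurable g → ∫⁻ w, g w ∂ρ = P⁻¹ * ∫⁻ w, a w * g w ∂u := by
    intro g hg
    simp only [ρ]
    rw [lintegral_smul_measure, lintegral_withDensity_eq_lintegral_mul u ha hg, smul_eq_mul]
    rfl
  have hL : ENNReal.ofReal (P.toReal)⁻¹ = P⁻¹ := by
    rw [ENNReal.ofReal_inv_of_pos hPr, ENNReal.ofReal_toReal hPt]
  have hρle : ρ ≤ ENNReal.ofReal (P.toReal)⁻¹ • u := by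
    rw [hL]
    have h1 : u.withDensity a ≤ u := by
      calc u.withDensity a ≤ u.withDensity 1 :=
            withDensity_mono (Filter.Eventually.of_forall ha1)
        _ = u := withDensity_one
    intro S
    simp only [ρ, Measure.smul_apply, smul_eq_mul]
    gcongr
  have hmain := hB ρ hρ (P.toReal)⁻¹ (one_le_inv_iff₀.2 ⟨hPr, hPr1⟩) hρle (τ t m) (hτ t m)
    (fun m' => FF σ a (fun w => step τ t m m' w)) (fun m' => FF_meas σ ha (hs m')) (by
      intro m' Y H hH
      have hY : Measurable fun w : Sphere d => (Y, w) := measurable_const.prodMk measurable_id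
      have hH' : Measurable fun w : Sphere d => H (app Y w) := hH.comp (sl_app_meas' Y)
      have hF' : Measurable fun w : Sphere d =>
          (FF σ a (fun w => step τ t m m' w) (Y, w) : ℝ≥0∞) * H (app Y w) :=
        ((FF_meas σ ha (hs m')).comp hY).coe_nnreal_ennreal.mul hH'
      rw [hint _ hF', hint _ hH']
      exact mul_le_mul_right (FF_P1 σ ha (hs m') Y hH) _)
  have hin : ∀ (Y : Mat (2 * k) d), ∫⁻ w, ∫⁻ X, ENNReal.ofReal (Real.log (1 +
      FF σ a (fun w' => step τ t m (τ t m X (app X w)) w') (Y, w))) ∂gam k d ∂ρ =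
      P⁻¹ * ∑ m', ∫⁻ w, a w * step τ t m m' w * ENNReal.ofReal (Real.log (1 +
        FF σ a (fun w => step τ t m m' w) (Y, w))) ∂u := by
    intro Y
    have hY : Measurable fun w : Sphere d => (Y, w) := measurable_const.prodMk measurable_id
    have h1 : ∀ w : Sphere d, ∫⁻ X, ENNReal.ofReal (Real.log (1 +
        FF σ a (fun w' => step τ t m (τ t m X (app X w)) w') (Y, w))) ∂gam k d =
        ∑ m', step τ t m m' w * ENNReal.ofReal (Real.log (1 +
          FF σ a (fun w => step τ t m m' w) (Y, w))) := fun w =>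
      lintegral_step τ hτ t m w (fun m' => ENNReal.ofReal (Real.log (1 +
          FF σ a (fun w => step τ t m m' w) (Y, w))))
    simp_rw [h1]
    have h2 : ∀ m', Measurable fun w : Sphere d => step τ t m m' w * ENNReal.ofReal (Real.log (1 +
          FF σ a (fun w => step τ t m m' w) (Y, w))) := fun m' => (hs m').mul ((hl m').comp hY)
    have h3 : ∀ m', Measurable fun w : Sphere d => a w * step τ t m m' w *
        ENNReal.ofReal (Real.log (1 + FF σ a (fun w => step τ t m m' w) (Y, w))) := fun m' =>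
      (ha.mul (hs m')).mul ((hl m').comp hY)
    rw [hint _ (Finset.measurable_sum _ fun m' _ => h2 m')]
    congr 1
    rw [← lintegral_finsetSum _ fun m' _ => h3 m']
    refine lintegral_congr fun w => ?_
    simp only [Finset.mul_sum, mul_assoc]
  simp only [hin] at hmain
  have hmY : ∀ m', Measurable fun Y : Mat (2 * k) d => ∫⁻ w, a w * step τ t m m' w *
      ENNReal.ofReal (Real.log (1 + FF σ a (fun w => step τ t m m' w) (Y, w))) ∂u := fun m' =>
    Measurable.lintegral_prod_right'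
      (f := fun q : Mat (2 * k) d × Sphere d => a q.2 * step τ t m m' q.2 *
        ENNReal.ofReal (Real.log (1 + FF σ a (fun w => step τ t m m' w) q)))
      (((ha.comp measurable_snd).mul ((hs m').comp measurable_snd)).mul (hl m'))
  rw [lintegral_const_mul _ (Finset.measurable_sum _ fun m' _ => hmY m'),
    lintegral_finsetSum _ fun m' _ => hmY m'] at hmain
  rw [ENNReal.ofReal_mul hPr.le, ENNReal.ofReal_toReal hPt]
  calc _ = P * (P⁻¹ * ∑ m', ∫⁻ Y, ∫⁻ w, a w * step τ t m m' w * ENNReal.ofReal (Real.log (1 +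
        FF σ a (fun w => step τ t m m' w) (Y, w))) ∂u ∂gam (2 * k) d) := by
        rw [← mul_assoc, ENNReal.mul_inv_cancel hP0 hPt, one_mul]
    _ ≤ _ := by gcongr

include hτ in
theorem cert_step [IsProbabilityMeasure u] {C : ℝ} (hC : 0 ≤ C) (hB : BB C d k St u)
    (σ : Slicing (2 * k) d u) (m₀ : St) (t n : ℕ) (R : ℝ) (hR : 0 ≤ R)
    (c : Cert σ (law τ m₀ t) n R) :
    Nonempty (Cert σ (law τ m₀ (t + 1)) (n * Fintype.card St)
      (R + (Real.log (Fintype.card St) / k + C * (d + Real.log n / Real.exp d)))) := by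
  let _ := c.fin
  have hs : ∀ m m', Measurable fun w : Sphere d => step τ t m m' w := fun m m' =>
    step_meas τ hτ t m m'
  have hs1 : ∀ m m' (w : Sphere d), step τ t m m' w ≤ 1 := fun m m' w => prob_le_one
  have hsum : ∀ w, ∑ h, c.a h w = 1 := fun w => by
    have := c.a_law w (fun _ => 1)
    simpa [sum_law τ hτ] using this
  have ha1 : ∀ h w, c.a h w ≤ 1 := fun h w =>
    (Finset.single_le_sum (f := fun h => c.a h w) (fun _ _ => zero_le)
      (Finset.mem_univ h)).trans (hsum w).le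
  let F : c.H × St → Mat (2 * k) d × Sphere d → ℝ≥0 := fun hm =>
    FF σ (c.a hm.1) (fun w => step τ t (c.last hm.1) hm.2 w)
  have hF : ∀ hm, Measurable (F hm) := fun hm => FF_meas σ (c.a_meas _) (hs _ _)
  refine ⟨⟨c.H × St, inferInstance, ?_, fun hm => hm.2,
    fun hm w => c.a hm.1 w * step τ t (c.last hm.1) hm.2 w, fun hm => (c.a_meas _).mul (hs _ _),
    fun hm q => c.Λ hm.1 q * (1 + F hm q),
    fun hm => (c.Λ_meas _).mul (measurable_const.add (hF hm)), ?_, ?_, ?_, ?_⟩⟩
  · rw [Fintype.card_prod]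
    exact Nat.mul_le_mul_right _ c.card_le
  · intro hm q
    exact one_le_mul (c.one_le _ _) le_self_add
  · intro w g
    rw [Fintype.sum_prod_type]
    simp only [law, Finset.sum_mul, mul_assoc, ← Finset.mul_sum]
    rw [c.a_law w (fun m => ∑ m', step τ t m m' w * g m'), Finset.sum_comm]
    simp only [Finset.mul_sum]
  · intro hm Y
    exact FF_dom σ (c.a_meas _) (hs _ _) (ha1 _) (hs1 _ _) Y (fun w => c.Λ hm.1 (Y, w))
      (c.dom hm.1 Y)
  · -- the information bound
    let P : c.H → ℝ := fun h => (∫⁻ w, c.a h w ∂u).toReal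
    have hPt : ∀ h, ∫⁻ w, c.a h w ∂u ≠ ⊤ := fun h => by
      refine ne_top_of_le_ne_top (by simp : (1 : ℝ≥0∞) ≠ ⊤) ?_
      calc _ ≤ ∫⁻ _w, 1 ∂u := lintegral_mono (ha1 h)
        _ = 1 := by simp
    have hP0 : ∀ h, 0 ≤ P h := fun h => ENNReal.toReal_nonneg
    have hPs : ∑ h, P h = 1 := by
      simp only [P]
      rw [← ENNReal.toReal_sum fun h _ => hPt h, ← lintegral_finsetSum _ fun h _ => c.a_meas h]
      simp [hsum]
    have hP1 : ∀ h, P h ≤ 1 := fun h =>
      (Finset.single_le_sum (f := P) (fun h _ => hP0 h) (Finset.mem_univ h)).trans hPs.le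
    have hlΛ : ∀ h, Measurable fun q : Mat (2 * k) d × Sphere d =>
        ENNReal.ofReal (Real.log (c.Λ h q)) := fun h =>
      (Real.measurable_log.comp (c.Λ_meas h).coe_nnreal_real).ennreal_ofReal
    let A1 : c.H × St → Mat (2 * k) d × Sphere d → ℝ≥0∞ := fun hm q =>
      c.a hm.1 q.2 * step τ t (c.last hm.1) hm.2 q.2 * ENNReal.ofReal (Real.log (c.Λ hm.1 q))
    let A2 : c.H × St → Mat (2 * k) d × Sphere d → ℝ≥0∞ := fun hm q =>
      c.a hm.1 q.2 * step τ t (c.last hm.1) hm.2 q.2 * ENNReal.ofReal (Real.log (1 + F hm q))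
    have hA1 : ∀ hm, Measurable (A1 hm) := fun hm =>
      (((c.a_meas _).comp measurable_snd).mul ((hs _ _).comp measurable_snd)).mul (hlΛ _)
    have hA2 : ∀ hm, Measurable (A2 hm) := fun hm =>
      (((c.a_meas _).comp measurable_snd).mul ((hs _ _).comp measurable_snd)).mul
        (log_meas (hF hm))
    have hY : ∀ Y : Mat (2 * k) d, Measurable fun w : Sphere d => (Y, w) := fun Y =>
      measurable_const.prodMk measurable_id
    have hsplit : ∀ hm : c.H × St, ∫⁻ Y, ∫⁻ w, c.a hm.1 w * step τ t (c.last hm.1) hm.2 w *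
        ENNReal.ofReal (Real.log ((c.Λ hm.1 (Y, w) * (1 + F hm (Y, w)) : ℝ≥0) : ℝ)) ∂u
          ∂gam (2 * k) d = ∫⁻ Y, ∫⁻ w, A1 hm (Y, w) ∂u ∂gam (2 * k) d +
          ∫⁻ Y, ∫⁻ w, A2 hm (Y, w) ∂u ∂gam (2 * k) d := by
      intro hm
      rw [← lintegral_add_left (hA1 hm).lintegral_prod_right']
      refine lintegral_congr fun Y => ?_
      have h1 : Measurable fun w : Sphere d => A1 hm (Y, w) := (hA1 hm).comp (hY Y)
      rw [← lintegral_add_left h1]
      refine lintegral_congr fun w => ?_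
      simp only [A1, A2]
      have h2 : (1 : ℝ) ≤ c.Λ hm.1 (Y, w) := by exact_mod_cast c.one_le _ _
      have h3 : (1 : ℝ) ≤ 1 + F hm (Y, w) := le_add_of_nonneg_right (NNReal.coe_nonneg _)
      push_cast
      rw [Real.log_mul (by linarith) (by linarith),
        ENNReal.ofReal_add (Real.log_nonneg h2) (Real.log_nonneg h3), mul_add]
    have hfirst : ∑ hm : c.H × St, ∫⁻ Y, ∫⁻ w, A1 hm (Y, w) ∂u ∂gam (2 * k) d ≤
        ENNReal.ofReal R := by
      refine le_trans (le_of_eq ?_) c.xi
      rw [Fintype.sum_prod_type]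
      refine Finset.sum_congr rfl fun h _ => ?_
      rw [← lintegral_finsetSum _ fun m _ => (hA1 (h, m)).lintegral_prod_right']
      refine lintegral_congr fun Y => ?_
      have h1 : ∀ m, Measurable fun w : Sphere d => A1 (h, m) (Y, w) := fun m =>
        (hA1 (h, m)).comp (hY Y)
      rw [← lintegral_finsetSum _ fun m _ => h1 m]
      refine lintegral_congr fun w => ?_
      simp only [A1]
      rw [← Finset.sum_mul, ← Finset.mul_sum, sum_step τ hτ, mul_one]
    have hcard : (1 : ℝ) ≤ Fintype.card St := by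
      have : 0 < Fintype.card St := Fintype.card_pos_iff.2 ⟨m₀⟩
      exact_mod_cast this
    have hl0 : 0 ≤ Real.log (Fintype.card St) / k :=
      div_nonneg (Real.log_nonneg hcard) (Nat.cast_nonneg _)
    have hlP : ∀ h, 0 ≤ Real.log (P h)⁻¹ := fun h => by
      rw [Real.log_inv]
      exact neg_nonneg.2 (Real.log_nonpos (hP0 h) (hP1 h))
    have hH : (1 : ℝ) ≤ Fintype.card c.H := by
      rcases Nat.eq_zero_or_pos (Fintype.card c.H) with h0 | h0
      · have : IsEmpty c.H := Fintype.card_eq_zero_iff.1 h0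
        simp at hPs
      · exact_mod_cast h0
    have hHn : (Fintype.card c.H : ℝ) ≤ n := by exact_mod_cast c.card_le
    have hsecond : ∑ hm : c.H × St, ∫⁻ Y, ∫⁻ w, A2 hm (Y, w) ∂u ∂gam (2 * k) d ≤
        ENNReal.ofReal (Real.log (Fintype.card St) / k + C * (d + Real.log n / Real.exp d)) := by
      rw [Fintype.sum_prod_type]
      refine (Finset.sum_le_sum fun h _ =>
        one_history τ hτ hB σ (c.a_meas h) (ha1 h) t (c.last h)).trans ?_
      rw [← ENNReal.ofReal_sum_of_nonneg]
      · refine ENNReal.ofReal_le_ofReal ?_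
        have h1 : ∀ h, P h * (Real.log (Fintype.card St) / k + C * (d +
            Real.log (P h)⁻¹ / Real.exp d)) = P h * (Real.log (Fintype.card St) / k + C * d) +
            C / Real.exp d * (P h * Real.log (P h)⁻¹) := fun h => by ring
        have h2 := entropy_le P hP0 hPs
        have h3 : Real.log (Fintype.card c.H) ≤ Real.log n := Real.log_le_log (by linarith) hHn
        calc ∑ h, P h * (Real.log (Fintype.card St) / k + C * (d +
            Real.log (P h)⁻¹ / Real.exp d)) = (Real.log (Fintype.card St) / k + C * d) +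
            C / Real.exp d * ∑ h, P h * Real.log (P h)⁻¹ := by
              simp only [h1]
              rw [Finset.sum_add_distrib, ← Finset.sum_mul, hPs, one_mul, ← Finset.mul_sum]
          _ ≤ (Real.log (Fintype.card St) / k + C * d) + C / Real.exp d * Real.log n := by
              gcongr; exact h2.trans h3
          _ = _ := by ring
      · intro h _
        have := hlP h
        have := hP0 h
        positivity
    have hln : 0 ≤ Real.log n := Real.log_nonneg (hH.trans hHn)
    simp only [hsplit]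
    rw [Finset.sum_add_distrib, ENNReal.ofReal_add hR (by positivity)]
    exact add_le_add hfirst hsecond

include hτ in
theorem cert_all [IsProbabilityMeasure u] {C : ℝ} (hC : 0 ≤ C) (hB : BB C d k St u)
    (σ : Slicing (2 * k) d u) (m₀ : St) (N : ℕ) :
    Nonempty (Cert σ (law τ m₀ N) (Fintype.card St ^ N)
      (N * (Real.log (Fintype.card St) / k + C * (d +
        N * Real.log (Fintype.card St) / Real.exp d)))) := by
  have hcard : (1 : ℝ) ≤ Fintype.card St := by
    have : 0 < Fintype.card St := Fintype.card_pos_iff.2 ⟨m₀⟩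
    exact_mod_cast this
  have hl0 : 0 ≤ Real.log (Fintype.card St) := Real.log_nonneg hcard
  induction N with
  | zero => simpa using ⟨cert0 σ τ m₀⟩
  | succ N ih =>
    obtain ⟨c⟩ := ih
    obtain ⟨c'⟩ := cert_step τ hτ hC hB σ m₀ N _ _ (by positivity) c
    refine ⟨⟨c'.H, c'.fin, c'.card_le.trans (by rw [pow_succ]), c'.last, c'.a, c'.a_meas, c'.Λ,
      c'.Λ_meas, c'.one_le, c'.a_law, c'.dom, c'.xi.trans (ENNReal.ofReal_le_ofReal ?_)⟩⟩
    push_cast
    rw [Real.log_pow]
    have h1 : (N : ℝ) * Real.log (Fintype.card St) / Real.exp d ≤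
        (N + 1) * Real.log (Fintype.card St) / Real.exp d := by gcongr; linarith
    have h2 : (0 : ℝ) ≤ N := Nat.cast_nonneg _
    have h3 : C * (d + N * Real.log (Fintype.card St) / Real.exp d) ≤
        C * (d + (N + 1) * Real.log (Fintype.card St) / Real.exp d) := by gcongr
    nlinarith

end Crest.Agent.SL.Ch7
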