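import Crest.Agent.SL.Chain2

/-! Job C for S0499, part 3: the geometric estimates of the Fano step. -/

set_option autoImplicit false

namespace Crest.Agent.SL.Ch7

open MeasureTheory ProbabilityTheory Crest.StreamLearn Crest.Agent.SL
open scoped ENNReal NNReal RealInnerProductSpace

variable {J d : ℕ}

theorem mean_iota (h4 : G4) (h5 : G5) {u : Measure (Sphere d)} (σ : Slicing J d u) (hJ : 1 ≤ J)
    (hJd : J ≤ d) :
    ∫⁻ Y, ∫⁻ w : Sphere d, σ.ι (Y, app Y w) ∂u ∂gam J d ≤
      ENNReal.ofReal (Real.sqrt (20 / J) ^ J * Real.sqrt d ^ J) := by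
  have h1 : ∀ Y : Mat J d, ∫⁻ w : Sphere d, σ.ι (Y, app Y w) ∂u ≤
      ENNReal.ofReal (Real.sqrt (20 / J) ^ J) * ENNReal.ofReal (∏ i, ‖Y i‖) := by
    intro Y
    let K : Set (Fin J → ℝ) := app Y '' Metric.closedBall 0 1
    have hc : Continuous fun v : E d => app Y v :=
      (sl_app_cont J d).comp (continuous_const.prodMk continuous_id)
    have hK : MeasurableSet K := ((isCompact_closedBall (0 : E d) 1).image hc).measurableSet
    have h2 := σ.ι_le Y (K.indicator fun _ => 1) (measurable_const.indicator hK)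
    have h3 : ∀ w : Sphere d, K.indicator (fun _ => (1 : ℝ≥0∞)) (app Y w) = 1 := by
      intro w
      rw [Set.indicator_of_mem]
      exact ⟨w, by simp, rfl⟩
    simp only [h3, mul_one] at h2
    rw [lintegral_indicator_const hK, one_mul] at h2
    refine h2.trans ((h4 J d Y 1 hJ hJd zero_le_one).trans (le_of_eq ?_))
    rw [one_mul, ENNReal.ofReal_mul (by positivity)]
  refine (lintegral_mono h1).trans ?_
  rw [lintegral_const_mul' _ _ ENNReal.ofReal_ne_top, ENNReal.ofReal_mul (by positivity)]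
  exact mul_le_mul_right (h5 J d) _

theorem VV_two (w : Fin 2 → E d) : VV J (n := 1) w = npow J ‖w 1 - w 0‖ := by
  unfold VV
  rw [Fin.prod_univ_one]
  congr 1
  unfold dl sd
  have : (fun i => w i - w 0) '' Set.Iio (Fin.succ (0 : Fin 1)) = {0} := by
    ext v
    simp only [Set.mem_image, Set.mem_Iio, Set.mem_singleton_iff]
    constructor
    · rintro ⟨i, hi, rfl⟩
      have : i = 0 := by
        apply Fin.ext
        have : i.val < 1 := hi
        simp; omega
      simp [this]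
    · rintro rfl
      exact ⟨0, by decide, by simp⟩
  rw [this]
  simp

theorem npow_dyadic (J : ℕ) (r : ℝ) (hr : 0 < r) (hr1 : r ≤ 1) (x : ℝ) (hx : 0 ≤ x)
    (hxr : x ≤ r) :
    npow J x ≤ ∑' l : ℕ, (Set.Iic (r / 2 ^ l)).indicator
      (fun _ => ENNReal.ofReal ((2 ^ (l + 1) / r) ^ J)) x := by
  rcases hx.eq_or_lt with h0 | h0
  · have : ∑' l : ℕ, (Set.Iic (r / 2 ^ l)).indicator
        (fun _ => ENNReal.ofReal ((2 ^ (l + 1) / r) ^ J)) x = ⊤ := by
      refine top_le_iff.1 ?_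
      rw [← ENNReal.tsum_const_eq_top_of_ne_zero (α := ℕ) (c := 1) one_ne_zero]
      refine ENNReal.tsum_le_tsum fun l => ?_
      rw [Set.indicator_of_mem (by rw [← h0]; simp; positivity)]
      rw [ENNReal.one_le_ofReal]
      refine one_le_pow₀ ?_
      rw [le_div_iff₀ hr, one_mul]
      exact hr1.trans (one_le_pow₀ (by norm_num))
    rw [this]; exact le_top
  · have hex : ∃ l : ℕ, r / 2 ^ (l + 1) < x := by
      obtain ⟨n, hn⟩ := pow_unbounded_of_one_lt (r / x) (show (1 : ℝ) < 2 by norm_num)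
      refine ⟨n, ?_⟩
      rw [div_lt_iff₀ (by positivity)]
      rw [div_lt_iff₀ h0] at hn
      have : (2 : ℝ) ^ n ≤ 2 ^ (n + 1) := pow_le_pow_right₀ (by norm_num) (by omega)
      nlinarith
    classical
    let l := Nat.find hex
    have h1 : r / 2 ^ (l + 1) < x := Nat.find_spec hex
    have h2 : x ≤ r / 2 ^ l := by
      rcases Nat.eq_zero_or_pos l with h | h
      · rw [h]; simpa using hxr
      · have := Nat.find_min hex (show l - 1 < l by omega)
        rw [show l - 1 + 1 = l by omega] at this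
        exact not_lt.1 this
    refine le_trans ?_ (ENNReal.le_tsum l)
    rw [Set.indicator_of_mem (by exact h2)]
    unfold npow
    rw [← ENNReal.ofReal_inv_of_pos h0, ← ENNReal.ofReal_pow (by positivity)]
    refine ENNReal.ofReal_le_ofReal (pow_le_pow_left₀ (by positivity) ?_ _)
    rw [div_lt_iff₀ (by positivity)] at h1
    rw [inv_eq_one_div, div_le_div_iff₀ h0 hr]
    linarith

theorem near_moment (h1 : S1) (hd : J + 2 ≤ d) (v : E d) (r : ℝ) (hr : 0 < r)
    (hr1 : r ≤ 1) :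
    ∫⁻ w : Sphere d, (Set.Iic r).indicator (npow J) ‖(w : E d) - v‖ ∂sphereUniform d ≤
      ENNReal.ofReal (6 * 4 ^ d * 2 ^ J * r ^ (d - 1 - J)) := by
  have hm : Measurable fun w : Sphere d => ‖(w : E d) - v‖ := by fun_prop
  calc ∫⁻ w : Sphere d, (Set.Iic r).indicator (npow J) ‖(w : E d) - v‖ ∂sphereUniform d
      ≤ ∫⁻ w : Sphere d, ∑' l : ℕ, (Set.Iic (r / 2 ^ l)).indicator
        (fun _ => ENNReal.ofReal ((2 ^ (l + 1) / r) ^ J)) ‖(w : E d) - v‖ ∂sphereUniform d := by
        refine lintegral_mono fun w => ?_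
        by_cases h : ‖(w : E d) - v‖ ≤ r
        · rw [Set.indicator_of_mem (by exact h)]
          exact npow_dyadic J r hr hr1 _ (norm_nonneg _) h
        · rw [Set.indicator_of_notMem (by exact h)]; exact zero_le
    _ = ∑' l : ℕ, ∫⁻ w : Sphere d, (Set.Iic (r / 2 ^ l)).indicator
        (fun _ => ENNReal.ofReal ((2 ^ (l + 1) / r) ^ J)) ‖(w : E d) - v‖ ∂sphereUniform d :=
        lintegral_tsum fun l =>
          ((measurable_const.indicator measurableSet_Iic).comp hm).aemeasurable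
    _ ≤ ∑' l : ℕ, ENNReal.ofReal (3 * 4 ^ d * 2 ^ J * r ^ (d - 1 - J)) * (2⁻¹ : ℝ≥0∞) ^ l := by
        refine ENNReal.tsum_le_tsum fun l => ?_
        have e1 : (fun w : Sphere d => (Set.Iic (r / 2 ^ l)).indicator
            (fun _ => ENNReal.ofReal ((2 ^ (l + 1) / r) ^ J)) ‖(w : E d) - v‖) =
            {w : Sphere d | ‖(w : E d) - v‖ ≤ r / 2 ^ l}.indicator
              (fun _ => ENNReal.ofReal ((2 ^ (l + 1) / r) ^ J)) := by
          funext w
          simp only [Set.indicator, Set.mem_Iic, Set.mem_ofPred_eq]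
        rw [e1, lintegral_indicator_const (measurableSet_le hm measurable_const)]
        have hrl : r / 2 ^ l ≤ 1 := by
          rw [div_le_one (by positivity)]
          exact hr1.trans (one_le_pow₀ (by norm_num))
        refine (mul_le_mul_right (h1 d v (r / 2 ^ l) (by omega) (by positivity) hrl) _).trans ?_
        have e2 : (2⁻¹ : ℝ≥0∞) ^ l = ENNReal.ofReal ((2⁻¹ : ℝ) ^ l) := by
          rw [ENNReal.ofReal_pow (by norm_num), ENNReal.ofReal_inv_of_pos (by norm_num)]
          simp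
        rw [e2, ← ENNReal.ofReal_mul (by positivity), ← ENNReal.ofReal_mul (by positivity)]
        refine ENNReal.ofReal_le_ofReal ?_
        obtain ⟨e, he⟩ : ∃ e, d - 1 = J + (e + 1) := ⟨d - 1 - J - 1, by omega⟩
        have he' : d - 1 - J = e + 1 := by omega
        rw [he', he]
        have h2 : ((2 : ℝ) ^ (l + 1) / r) ^ J * (r / 2 ^ l) ^ J = 2 ^ J := by
          rw [← mul_pow]; congr 1; field_simp; ring
        have h3 : (r / 2 ^ l) ^ (e + 1) ≤ r ^ (e + 1) * (2⁻¹ : ℝ) ^ l := by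
          rw [div_pow, div_eq_mul_inv, inv_pow]
          gcongr
          calc (2 : ℝ) ^ l = (2 ^ l) ^ 1 := by simp
            _ ≤ (2 ^ l) ^ (e + 1) := pow_le_pow_right₀ (one_le_pow₀ (by norm_num)) (by omega)
        calc ((2 : ℝ) ^ (l + 1) / r) ^ J * (3 * 4 ^ d * (r / 2 ^ l) ^ (J + (e + 1)))
            = 3 * 4 ^ d * (((2 : ℝ) ^ (l + 1) / r) ^ J * (r / 2 ^ l) ^ J) *
              (r / 2 ^ l) ^ (e + 1) := by rw [pow_add (r / 2 ^ l) J]; ring
          _ ≤ 3 * 4 ^ d * 2 ^ J * (r ^ (e + 1) * (2⁻¹ : ℝ) ^ l) := by rw [h2]; gcongr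
          _ = _ := by ring
    _ = ENNReal.ofReal (6 * 4 ^ d * 2 ^ J * r ^ (d - 1 - J)) := by
        rw [ENNReal.tsum_mul_left, ENNReal.tsum_geometric_two]
        rw [show (6 : ℝ) * 4 ^ d * 2 ^ J * r ^ (d - 1 - J) =
          (3 * 4 ^ d * 2 ^ J * r ^ (d - 1 - J)) * 2 by ring,
          ENNReal.ofReal_mul (p := 3 * 4 ^ d * 2 ^ J * r ^ (d - 1 - J)) (by positivity)]
        simp

theorem npow_meas (J : ℕ) : Measurable (npow J) :=
  (ENNReal.measurable_ofReal.inv).pow_const J

theorem lintegral_two {u : Measure (Sphere d)} [IsProbabilityMeasure u]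
    (f : Sphere d × Sphere d → ℝ≥0∞) (hf : Measurable f) :
    ∫⁻ ws, f (ws 0, ws 1) ∂(Measure.pi fun _ : Fin 2 => u) = ∫⁻ w0, ∫⁻ w1, f (w0, w1) ∂u ∂u := by
  have h := (measurePreserving_finTwoArrow u).lintegral_comp hf
  rw [← lintegral_prod _ hf.aemeasurable, ← h]
  rfl

/-- the collision probability of the slicing -/
noncomputable def beta {u : Measure (Sphere d)} (σ : Slicing J d u) (r : ℝ)
    (p : Mat J d × (Fin J → ℝ)) : ℝ≥0∞ :=
  (Measure.pi fun _ : Fin 2 => σ.π p) {ws | ‖(ws 1 : E d) - ws 0‖ ≤ r}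

theorem close_meas (r : ℝ) :
    MeasurableSet {ws : Fin 2 → Sphere d | ‖(ws 1 : E d) - ws 0‖ ≤ r} :=
  measurableSet_le (by fun_prop) measurable_const

theorem mean_beta (h0 : S0) (h1 : S1) (hd : J + 2 ≤ d)
    (σ : Slicing J d (sphereUniform d)) (r : ℝ) (hr : 0 < r) (hr1 : r ≤ 1) :
    ∫⁻ Y, ∫⁻ w : Sphere d, (σ.ι (Y, app Y w))⁻¹ * beta σ r (Y, app Y w) ∂sphereUniform d ∂gam J d
      ≤ ENNReal.ofReal (6 * 4 ^ d * 2 ^ J * r ^ (d - 1 - J)) := by
  have := h0 d (by omega)
  have hn : Measurable fun q : Sphere d × Sphere d => ‖(q.2 : E d) - q.1‖ := by fun_prop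
  have hfin : ∫⁻ ws, VV J (n := 1) (vecs ws) ∂(Measure.pi fun _ : Fin 2 => sphereUniform d)
      ≠ ⊤ := by
    simp only [VV_two, vecs]
    rw [lintegral_two (fun q : Sphere d × Sphere d => npow J ‖(q.2 : E d) - q.1‖)
      ((npow_meas J).comp hn)]
    refine ne_top_of_le_ne_top (b := ∫⁻ _w0, (ENNReal.ofReal (6 * 4 ^ d * 2 ^ J *
      1 ^ (d - 1 - J)) + 1) ∂sphereUniform d)
      (by rw [lintegral_const, measure_univ, mul_one]
          exact ENNReal.add_ne_top.2 ⟨ENNReal.ofReal_ne_top, ENNReal.one_ne_top⟩)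
      (lintegral_mono fun (w0 : Sphere d) => ?_)
    have hm : Measurable fun w : Sphere d => (Set.Iic (1 : ℝ)).indicator (npow J)
        ‖(w : E d) - w0‖ := ((npow_meas J).indicator measurableSet_Iic).comp (by fun_prop)
    calc ∫⁻ w1 : Sphere d, npow J ‖(w1 : E d) - w0‖ ∂sphereUniform d
        ≤ ∫⁻ w1 : Sphere d, ((Set.Iic (1 : ℝ)).indicator (npow J) ‖(w1 : E d) - w0‖ + 1)
          ∂sphereUniform d := by
          refine lintegral_mono fun w => ?_
          by_cases h : ‖(w : E d) - w0‖ ≤ 1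
          · rw [Set.indicator_of_mem (by exact h)]; exact le_self_add
          · refine le_add_left ?_
            unfold npow
            refine pow_le_one' (ENNReal.inv_le_one.2 ?_) _
            rw [ENNReal.one_le_ofReal]; linarith
      _ ≤ _ := by
          rw [lintegral_add_left hm]
          gcongr
          · exact near_moment h1 hd w0 1 one_pos le_rfl
          · simp
  have hd1 := σ.dom 1 ({ws : Fin 2 → Sphere d | ‖(ws 1 : E d) - ws 0‖ ≤ r}.indicator fun _ => 1)
    (measurable_const.indicator (close_meas r)) hfin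
  calc _ = ∫⁻ X, ∫⁻ w : Sphere d, ∫⁻ ws, (σ.ι (X, app X w))⁻¹ ^ 1 *
        ({ws : Fin 2 → Sphere d | ‖(ws 1 : E d) - ws 0‖ ≤ r}.indicator fun _ => 1) ws
        ∂(Measure.pi fun _ : Fin 2 => σ.π (X, app X w)) ∂sphereUniform d ∂gam J d := by
        refine lintegral_congr fun X => lintegral_congr fun w => ?_
        rw [lintegral_const_mul _ (measurable_const.indicator (close_meas r)),
          lintegral_indicator_const (close_meas r), pow_one, one_mul]
        rfl
    _ ≤ _ := hd1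
    _ = ∫⁻ ws : Fin 2 → Sphere d, (Set.Iic r).indicator (npow J) ‖(ws 1 : E d) - ws 0‖
        ∂(Measure.pi fun _ : Fin 2 => sphereUniform d) := by
        refine lintegral_congr fun ws => ?_
        simp only [VV_two, vecs, Set.indicator, Set.mem_ofPred_eq, Set.mem_Iic]
        split_ifs <;> simp
    _ = ∫⁻ w0 : Sphere d, ∫⁻ w1 : Sphere d, (Set.Iic r).indicator (npow J) ‖(w1 : E d) - w0‖
        ∂sphereUniform d ∂sphereUniform d :=
        lintegral_two (fun q : Sphere d × Sphere d =>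
          (Set.Iic r).indicator (npow J) ‖(q.2 : E d) - q.1‖)
          (((npow_meas J).indicator measurableSet_Iic).comp hn)
    _ ≤ ∫⁻ _w0 : Sphere d, ENNReal.ofReal (6 * 4 ^ d * 2 ^ J * r ^ (d - 1 - J))
        ∂sphereUniform d := lintegral_mono fun w0 => near_moment h1 hd w0 r hr hr1
    _ = _ := by simp

theorem beta_meas {u : Measure (Sphere d)} (σ : Slicing J d u) (r : ℝ) :
    Measurable (beta σ r) :=
  (Measure.measurable_coe (close_meas r)).comp (σ.pi_meas 2)

theorem cap_sq_le {u : Measure (Sphere d)} (σ : Slicing J d u) (v : E d) (ε : ℝ)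
    (p : Mat J d × (Fin J → ℝ)) :
    σ.π p {w : Sphere d | ‖(w : E d) - v‖ ≤ ε} * σ.π p {w : Sphere d | ‖(w : E d) - v‖ ≤ ε}
      ≤ beta σ (2 * ε) p := by
  have := σ.markov
  have h1 : (Measure.pi fun _ : Fin 2 => σ.π p)
      (Set.pi Set.univ fun _ => {w : Sphere d | ‖(w : E d) - v‖ ≤ ε}) =
      σ.π p {w : Sphere d | ‖(w : E d) - v‖ ≤ ε} * σ.π p {w : Sphere d | ‖(w : E d) - v‖ ≤ ε} := by
    rw [Measure.pi_pi, Fin.prod_univ_two]
  rw [← h1]
  refine measure_mono fun ws hws => ?_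
  have a0 : ‖(ws 0 : E d) - v‖ ≤ ε := hws 0 trivial
  have a1 : ‖(ws 1 : E d) - v‖ ≤ ε := hws 1 trivial
  have : ‖(ws 1 : E d) - ws 0‖ ≤ ‖(ws 1 : E d) - v‖ + ‖(ws 0 : E d) - v‖ := by
    have := norm_sub_le ((ws 1 : E d) - v) ((ws 0 : E d) - v)
    simpa using this
  show ‖(ws 1 : E d) - ws 0‖ ≤ 2 * ε
  linarith

theorem amgm (x b i s : ℝ≥0∞) (hs0 : s ≠ 0) (hst : s ≠ ⊤) (hx : x * x ≤ b) :
    x ≤ s * i + s⁻¹ * (i⁻¹ * b) := by
  by_cases h : x ≤ s * i
  · exact h.trans le_self_add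
  · push Not at h
    refine le_add_left ?_
    have hx0 : x ≠ 0 := fun e => by simp [e] at h
    have hit : i ≠ ⊤ := fun e => by simp [e, ENNReal.mul_top hs0] at h
    by_cases hi0 : i = 0
    · have hb : b ≠ 0 := fun e => by
        rw [e] at hx
        exact hx0 (by simpa using hx)
      simp [hi0, ENNReal.top_mul hb, ENNReal.mul_top (ENNReal.inv_ne_zero.2 hst)]
    · calc x = s⁻¹ * (i⁻¹ * ((s * i) * x)) := by
            rw [show s⁻¹ * (i⁻¹ * ((s * i) * x)) = (s⁻¹ * s) * ((i⁻¹ * i) * x) by ring,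
              ENNReal.inv_mul_cancel hs0 hst, ENNReal.inv_mul_cancel hi0 hit, one_mul, one_mul]
        _ ≤ s⁻¹ * (i⁻¹ * (x * x)) := by gcongr
        _ ≤ _ := by gcongr

end Crest.Agent.SL.Ch7
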