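import Crest.Agent.SL.Defs

/-! Final assembly for S0499, part 1: deterministic finite-state runs and their laws. -/

set_option autoImplicit false

namespace Crest.Agent.SL.Fin7

open MeasureTheory ProbabilityTheory Crest.StreamLearn Crest.Agent.SL
open scoped ENNReal NNReal RealInnerProductSpace

/-- fibres of a fold are measurable -/
theorem ms_fold {P Q ι : Type} [MeasurableSpace P] [Countable Q] (l : List ι)
    (F : ι → Q → P → Q) (hF : ∀ t q q', MeasurableSet {p | F t q p = q'}) :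
    ∀ (g : P → Q), (∀ q', MeasurableSet {p | g p = q'}) →
      ∀ q', MeasurableSet {p | l.foldl (fun q t => F t q p) (g p) = q'} := by
  induction l with
  | nil => intro g hg q'; simpa using hg q'
  | cons t l ih =>
    intro g hg q'
    simp only [List.foldl_cons]
    refine ih (fun p => F t (g p) p) ?_ q'
    intro q''
    have : {p | F t (g p) p = q''} = ⋃ q, ({p | g p = q} ∩ {p | F t q p = q''}) := by
      ext p
      simp only [Set.mem_ofPred_eq, Set.mem_iUnion, Set.mem_inter_iff]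
      constructor
      · intro h; exact ⟨g p, rfl, h⟩
      · rintro ⟨q, h1, h2⟩; rw [h1]; exact h2
    rw [this]
    exact MeasurableSet.iUnion fun q => (hg q).inter (hF t q q'')

variable {d : ℕ} {Q : Type}

/-- run the steps `a, …, a + n - 1` from `q₀` -/
def rn (f : ℕ → Q → E d → ℝ → Q) (a : ℕ) (q₀ : Q) (n : ℕ) (X : Mat n d) (y : Fin n → ℝ) : Q :=
  (List.finRange n).foldl (fun q t => f (a + t.val) q (X t) (y t)) q₀

theorem rn_zero (f : ℕ → Q → E d → ℝ → Q) (a : ℕ) (q₀ : Q) (X : Mat 0 d) (y : Fin 0 → ℝ) :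
    rn f a q₀ 0 X y = q₀ := by
  simp [rn]

theorem rn_succ (f : ℕ → Q → E d → ℝ → Q) (a : ℕ) (q₀ : Q) (n : ℕ) (X : Mat (n + 1) d)
    (y : Fin (n + 1) → ℝ) :
    rn f a q₀ (n + 1) X y = f (a + n) (rn f a q₀ n (fun i => X i.castSucc) (fun i => y i.castSucc))
      (X (Fin.last n)) (y (Fin.last n)) := by
  unfold rn
  rw [List.finRange_succ_last, List.foldl_append, List.foldl_map]
  simp

theorem ms_rn [Countable Q] (f : ℕ → Q → E d → ℝ → Q)
    (hf : ∀ t q q', MeasurableSet {p : E d × ℝ | f t q p.1 p.2 = q'}) (a : ℕ) (q₀ : Q) (n : ℕ)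
    (q' : Q) : MeasurableSet {p : Mat n d × (Fin n → ℝ) | rn f a q₀ n p.1 p.2 = q'} := by
  unfold rn
  refine ms_fold (List.finRange n) (fun t q (p : Mat n d × (Fin n → ℝ)) =>
    f (a + t.val) q (p.1 t) (p.2 t)) ?_ (fun _ => q₀) ?_ q'
  · intro t q q''
    have hm : Measurable fun p : Mat n d × (Fin n → ℝ) => (p.1 t, p.2 t) := by fun_prop
    exact hm (hf (a + t.val) q q'')
  · intro q''
    by_cases h : q₀ = q'' <;> simp [h]

theorem measurable_app (n : ℕ) : Measurable fun p : Mat n d × E d => app p.1 p.2 := by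
  refine measurable_pi_lambda _ fun i => ?_
  unfold app
  exact Measurable.inner (by fun_prop) (by fun_prop)

theorem ms_rn_app [Countable Q] (f : ℕ → Q → E d → ℝ → Q)
    (hf : ∀ t q q', MeasurableSet {p : E d × ℝ | f t q p.1 p.2 = q'}) (a : ℕ) (q₀ : Q) (n : ℕ)
    (q' : Q) : MeasurableSet {p : Mat n d × E d | rn f a q₀ n p.1 (app p.1 p.2) = q'} := by
  have hm : Measurable fun p : Mat n d × E d => (p.1, app p.1 p.2) :=
    measurable_fst.prodMk (measurable_app n)
  exact hm (ms_rn f hf a q₀ n q')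

/-- one-step kernel -/
noncomputable def kk (f : ℕ → Q → E d → ℝ → Q) (w : E d) (t : ℕ) (q q' : Q) : ℝ≥0∞ :=
  stdGaussian (E d) {x | f t q x ⟪x, w⟫ = q'}

/-- multi-step kernel -/
noncomputable def pw (f : ℕ → Q → E d → ℝ → Q) (w : E d) (a : ℕ) (q₀ : Q) (n : ℕ) (q' : Q) :
    ℝ≥0∞ := gam n d {X | rn f a q₀ n X (app X w) = q'}

theorem pw_zero [DecidableEq Q] (f : ℕ → Q → E d → ℝ → Q) (w : E d) (a : ℕ) (q₀ q' : Q) :
    pw f w a q₀ 0 q' = if q' = q₀ then 1 else 0 := by
  unfold pw
  simp only [rn_zero]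
  by_cases h : q' = q₀
  · simp [h]
  · have h' : ¬ q₀ = q' := fun e => h e.symm
    simp [h, h']

theorem pw_succ [Fintype Q] (f : ℕ → Q → E d → ℝ → Q)
    (hf : ∀ t q q', MeasurableSet {p : E d × ℝ | f t q p.1 p.2 = q'}) (w : E d) (a : ℕ) (q₀ : Q)
    (n : ℕ) (q' : Q) :
    pw f w a q₀ (n + 1) q' = ∑ q, pw f w a q₀ n q * kk f w (a + n) q q' := by
  have hmp := measurePreserving_piFinSuccAbove (fun _ : Fin (n + 1) => stdGaussian (E d))
    (Fin.last n)
  let A : Q → Set (Mat n d) := fun q => {X | rn f a q₀ n X (app X w) = q}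
  let B : Q → Set (E d) := fun q => {x | f (a + n) q x ⟪x, w⟫ = q'}
  have hA : ∀ q, MeasurableSet (A q) := fun q => by
    have hm : Measurable fun X : Mat n d => (X, w) := by fun_prop
    exact hm (ms_rn_app f hf a q₀ n q)
  have hB : ∀ q, MeasurableSet (B q) := fun q => by
    have hm : Measurable fun x : E d => (x, (⟪x, w⟫ : ℝ)) :=
      measurable_id.prodMk (Measurable.inner measurable_id measurable_const)
    exact hm (hf (a + n) q q')
  have hset : {X : Mat (n + 1) d | rn f a q₀ (n + 1) X (app X w) = q'} =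
      (MeasurableEquiv.piFinSuccAbove (fun _ : Fin (n + 1) => E d) (Fin.last n)) ⁻¹'
        (⋃ q, B q ×ˢ A q) := by
    ext X
    simp only [Set.mem_ofPred_eq, Set.mem_preimage, Set.mem_iUnion, Set.mem_prod, A, B,
      MeasurableEquiv.piFinSuccAbove_apply, rn_succ]
    have e1 : (Fin.insertNthEquiv (fun _ : Fin (n + 1) => E d) (Fin.last n)).symm X =
        (X (Fin.last n), fun i => X i.castSucc) := by
      simp only [Fin.insertNthEquiv_symm_apply]
      congr 1
      funext i
      simp [Fin.removeNth]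
    rw [e1]
    have e2 : (fun i : Fin n => app X w i.castSucc) = app (fun i : Fin n => X i.castSucc) w := rfl
    rw [e2]
    constructor
    · intro h; exact ⟨_, h, rfl⟩
    · rintro ⟨q, h1, h2⟩; rw [h2]; exact h1
  have hU : MeasurableSet (⋃ q, B q ×ˢ A q) :=
    MeasurableSet.iUnion fun q => (hB q).prod (hA q)
  unfold pw
  rw [hset]
  unfold gam
  rw [hmp.measure_preimage hU.nullMeasurableSet, measure_iUnion, tsum_fintype]
  · refine Finset.sum_congr rfl fun q _ => ?_
    rw [Measure.prod_prod, mul_comm]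
    rfl
  · intro q q2 hne
    rw [Function.onFun, Set.disjoint_left]
    rintro ⟨x, X⟩ ⟨_, h1⟩ ⟨_, h2⟩
    exact hne (h1.symm.trans h2)
  · exact fun q => (hB q).prod (hA q)

theorem pw_add [Fintype Q] [DecidableEq Q] (f : ℕ → Q → E d → ℝ → Q)
    (hf : ∀ t q q', MeasurableSet {p : E d × ℝ | f t q p.1 p.2 = q'}) (w : E d) (a : ℕ) (q₀ : Q)
    (n m : ℕ) (q' : Q) :
    pw f w a q₀ (n + m) q' = ∑ q, pw f w a q₀ n q * pw f w (a + n) q m q' := by
  induction m generalizing q' with
  | zero => simp [pw_zero]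
  | succ m ih =>
    rw [← add_assoc, pw_succ f hf]
    simp only [ih, pw_succ f hf, Finset.sum_mul, Finset.mul_sum]
    rw [Finset.sum_comm]
    refine Finset.sum_congr rfl fun q _ => Finset.sum_congr rfl fun q2 _ => ?_
    rw [mul_assoc, add_assoc]

theorem pw_stable [Fintype Q] [DecidableEq Q] (f : ℕ → Q → E d → ℝ → Q)
    (hf : ∀ t q q', MeasurableSet {p : E d × ℝ | f t q p.1 p.2 = q'}) (T : ℕ)
    (hid : ∀ t, T ≤ t → ∀ q x y, f t q x y = q) (w : E d) (q₀ : Q) (m : ℕ) (q' : Q) :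
    pw f w 0 q₀ (T + m) q' = pw f w 0 q₀ T q' := by
  induction m generalizing q' with
  | zero => rfl
  | succ m ih =>
    rw [← add_assoc, pw_succ f hf]
    have : ∀ q, kk f w (0 + (T + m)) q q' = if q = q' then 1 else 0 := by
      intro q
      unfold kk
      simp only [hid (0 + (T + m)) (by omega)]
      by_cases h : q = q' <;> simp [h]
    simp only [this]
    simp [ih]

/-- batches of `k` samples -/
def bat (f : ℕ → Q → E d → ℝ → Q) (k : ℕ) : ℕ → Q → Mat k d → (Fin k → ℝ) → Q :=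
  fun t m X y => rn f (t * k) m k X y

theorem law_bat [Fintype Q] [DecidableEq Q] (f : ℕ → Q → E d → ℝ → Q)
    (hf : ∀ t q q', MeasurableSet {p : E d × ℝ | f t q p.1 p.2 = q'}) (k : ℕ) (q₀ : Q)
    (N : ℕ) (q' : Q) (w : E d) :
    law (bat f k) q₀ N q' w = pw f w 0 q₀ (N * k) q' := by
  induction N generalizing q' with
  | zero => simp [law, pw_zero]
  | succ N ih =>
    rw [law, Nat.succ_mul, pw_add f hf]
    refine Finset.sum_congr rfl fun q _ => ?_
    rw [ih, zero_add]
    rfl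

/-- the success probability is at most the sum over final states -/
theorem succ_le_sum [Fintype Q] (f : ℕ → Q → E d → ℝ → Q)
    (hf : ∀ t q q', MeasurableSet {p : E d × ℝ | f t q p.1 p.2 = q'}) (q₀ : Q) (T : ℕ)
    (out : Q → E d) (ε : ℝ) (u : Measure (Sphere d)) :
    ∫⁻ w : Sphere d, gam T d {X | ‖(w : E d) - out (rn f 0 q₀ T X (app X w))‖ ≤ ε} ∂u ≤
      ∑ m, ∫⁻ w in {w : Sphere d | ‖(w : E d) - out m‖ ≤ ε}, pw f w 0 q₀ T m ∂u := by
  have hS : ∀ m, MeasurableSet {w : Sphere d | ‖(w : E d) - out m‖ ≤ ε} := fun m =>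
    measurableSet_le (by fun_prop) measurable_const
  have hP : ∀ m, Measurable fun w : Sphere d => pw f w 0 q₀ T m := fun m => by
    have h1 : Measurable fun p : Sphere d × Mat T d => (p.2, (p.1 : E d)) := by fun_prop
    exact measurable_measure_prodMk_left (ν := gam T d) (h1 (ms_rn_app f hf 0 q₀ T m))
  simp_rw [← lintegral_indicator (hS _)]
  rw [← lintegral_finsetSum _ fun m _ => (hP m).indicator (hS m)]
  refine lintegral_mono fun w => ?_
  have hsub : {X : Mat T d | ‖(w : E d) - out (rn f 0 q₀ T X (app X w))‖ ≤ ε} ⊆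
      ⋃ m, {X : Mat T d | ‖(w : E d) - out m‖ ≤ ε ∧ rn f 0 q₀ T X (app X w) = m} := by
    intro X hX
    exact Set.mem_iUnion.2 ⟨_, hX, rfl⟩
  refine (measure_mono hsub).trans ((measure_iUnion_fintype_le _ _).trans ?_)
  refine Finset.sum_le_sum fun m _ => ?_
  by_cases h : ‖(w : E d) - out m‖ ≤ ε
  · rw [Set.indicator_of_mem (by exact h)]
    simp only [h, true_and]
    exact le_rfl
  · simp [h]

end Crest.Agent.SL.Fin7
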