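import Crest.Agent.SL.Final1

/-! Final assembly for S0499, part 2: the deterministic lower bound and derandomization. -/

set_option autoImplicit false

namespace Crest.Agent.SL.Fin7

open MeasureTheory ProbabilityTheory Crest.StreamLearn Crest.Agent.SL
open scoped ENNReal NNReal RealInnerProductSpace

variable {d : ℕ} {Q : Type}

theorem sum_pw_le [Fintype Q] (f : ℕ → Q → E d → ℝ → Q) (w : E d) (q₀ : Q) (T : ℕ) (m : Q) :
    pw f w 0 q₀ T m ≤ 1 := prob_le_one

/-- few samples are impossible -/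
theorem few_samples [Fintype Q] (h0 : S0) (h3 : S3) (hd : 1 ≤ d) (f : ℕ → Q → E d → ℝ → Q)
    (hf : ∀ t q q', MeasurableSet {p : E d × ℝ | f t q p.1 p.2 = q'}) (q₀ : Q) (T : ℕ)
    (out : Q → E d) (ε : ℝ) (hε : ε ≤ 1 / 10)
    (h : ENNReal.ofReal (2 / 3) ≤ ∫⁻ w : Sphere d,
      gam T d {X | ‖(w : E d) - out (rn f 0 q₀ T X (app X w))‖ ≤ ε} ∂sphereUniform d) :
    d < 4 * T := by
  by_contra hT
  push Not at hT
  have := h0 d hd
  let S : Set (Sphere d × Mat T d) :=
    {p | ‖(p.1 : E d) - out (rn f 0 q₀ T p.2 (app p.2 p.1))‖ ≤ 1 / 10}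
  have hS : MeasurableSet S := by
    have : S = ⋃ m, ({p : Sphere d × Mat T d | rn f 0 q₀ T p.2 (app p.2 p.1) = m} ∩
        {p : Sphere d × Mat T d | ‖(p.1 : E d) - out m‖ ≤ 1 / 10}) := by
      ext p
      simp only [S, Set.mem_ofPred_eq, Set.mem_iUnion, Set.mem_inter_iff]
      constructor
      · intro h; exact ⟨_, rfl, h⟩
      · rintro ⟨q, h1, h2⟩; rw [h1]; exact h2
    rw [this]
    refine MeasurableSet.iUnion fun m => MeasurableSet.inter ?_ ?_
    · have h1 : Measurable fun p : Sphere d × Mat T d => (p.2, (p.1 : E d)) := by fun_prop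
      exact h1 (ms_rn_app f hf 0 q₀ T m)
    · exact measurableSet_le (by fun_prop) measurable_const
  have h1 : ∫⁻ w : Sphere d,
      gam T d {X | ‖(w : E d) - out (rn f 0 q₀ T X (app X w))‖ ≤ ε} ∂sphereUniform d ≤
      ((sphereUniform d).prod (gam T d)) S := by
    rw [Measure.prod_apply hS]
    refine lintegral_mono fun w => measure_mono fun X hX => ?_
    exact le_trans hX hε
  have h2 : ((sphereUniform d).prod (gam T d)) S ≤ ENNReal.ofReal (13 / 20) := by
    rw [Measure.prod_apply_symm hS]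
    calc ∫⁻ X, sphereUniform d ((fun w => (w, X)) ⁻¹' S) ∂gam T d
        ≤ ∫⁻ _X, ENNReal.ofReal (13 / 20) ∂gam T d := by
          refine lintegral_mono fun X => ?_
          have hm : MeasurableSet ((fun w : Sphere d => (w, X)) ⁻¹' S) :=
            (measurable_id.prodMk measurable_const) hS
          exact h3 d T X (fun y => out (rn f 0 q₀ T X y)) hd hT hm
      _ = ENNReal.ofReal (13 / 20) := by simp
  have h4 := h.trans (h1.trans h2)
  rw [ENNReal.ofReal_le_ofReal_iff (by norm_num)] at h4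
  norm_num at h4

/-- counting bound -/
theorem counting [Fintype Q] (h1 : S1) (hd : 1 ≤ d) (f : ℕ → Q → E d → ℝ → Q) (q₀ : Q) (T : ℕ)
    (out : Q → E d) (ε : ℝ) (hε0 : 0 < ε) (hε : ε ≤ 1 / 10)
    (h : ENNReal.ofReal (2 / 3) ≤
      ∑ m, ∫⁻ w in {w : Sphere d | ‖(w : E d) - out m‖ ≤ ε}, pw f w 0 q₀ T m ∂sphereUniform d) :
    (2 / 3 : ℝ) ≤ Fintype.card Q * (3 * 4 ^ d * ε ^ (d - 1)) := by
  have h2 : ∑ m, ∫⁻ w in {w : Sphere d | ‖(w : E d) - out m‖ ≤ ε}, pw f w 0 q₀ T m
      ∂sphereUniform d ≤ ∑ _m : Q, ENNReal.ofReal (3 * 4 ^ d * ε ^ (d - 1)) := by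
    refine Finset.sum_le_sum fun m _ => ?_
    calc ∫⁻ w in {w : Sphere d | ‖(w : E d) - out m‖ ≤ ε}, pw f w 0 q₀ T m ∂sphereUniform d
        ≤ ∫⁻ _w in {w : Sphere d | ‖(w : E d) - out m‖ ≤ ε}, 1 ∂sphereUniform d :=
          lintegral_mono fun w => sum_pw_le f w q₀ T m
      _ = sphereUniform d {w : Sphere d | ‖(w : E d) - out m‖ ≤ ε} := by simp
      _ ≤ _ := h1 d (out m) ε hd hε0 (by linarith)
  have h3 := h.trans h2
  rw [Finset.sum_const, Finset.card_univ, nsmul_eq_mul, ← ENNReal.ofReal_natCast,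
    ← ENNReal.ofReal_mul (by positivity), ENNReal.ofReal_le_ofReal_iff (by positivity)] at h3
  exact h3

theorem pow_four_le_exp (x : ℝ) (hx : 0 ≤ x) : x ^ 4 ≤ 24 * Real.exp x := by
  have h := Real.pow_div_factorial_le_exp x hx 4
  norm_num [Nat.factorial] at h
  linarith

/-- the deterministic lower bound -/
theorem det_bound (hC : C1) (h0 : S0) (h1 : S1) (h3 : S3) (A : ℝ) (hA : 0 < A) :
    ∃ c : ℝ, 0 < c ∧ ∀ d : ℕ, 4 ≤ d → ∀ (M T : ℕ), (M : ℝ) ≤ A * (d : ℝ) ^ 2 →
      ∀ ε : ℝ, 0 < ε → ε ≤ 1 / 10 → ∀ (Q : Type) [Fintype Q], Fintype.card Q ≤ 2 ^ M * (T + 2) →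
      ∀ (f : ℕ → Q → E d → ℝ → Q),
      (∀ t q q', MeasurableSet {p : E d × ℝ | f t q p.1 p.2 = q'}) →
      (∀ t, T ≤ t → ∀ q x y, f t q x y = q) → ∀ (q₀ : Q) (out : Q → E d),
      ENNReal.ofReal (2 / 3) ≤ ∫⁻ w : Sphere d,
        gam T d {X | ‖(w : E d) - out (rn f 0 q₀ T X (app X w))‖ ≤ ε} ∂sphereUniform d →
      c * d * Real.log (1 / ε) ≤ T := by
  classical
  obtain ⟨C, hC0, hC⟩ := hC
  set B : ℝ := A + 2 with hB
  set K : ℝ := 2 * (A + 10) + C * (4 + 12 * (32 * B + 1)) with hK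
  have hB0 : 0 < B := by positivity
  have hK0 : 0 < K := by positivity
  refine ⟨1 / K, by positivity, ?_⟩
  intro d hd M T hM ε hε0 hε Q _ hQ f hf hid q₀ out h
  have hd1 : 1 ≤ d := by omega
  have hT4 : d < 4 * T := few_samples h0 h3 hd1 f hf q₀ T out ε hε h
  have hsum := h.trans (succ_le_sum f hf q₀ T out ε (sphereUniform d))
  have hlog : 0 < Real.log (1 / ε) := by
    apply Real.log_pos
    rw [lt_div_iff₀ hε0]; linarith
  have hdR : (4 : ℝ) ≤ d := by exact_mod_cast hd
  have hT4R : (d : ℝ) < 4 * T := by exact_mod_cast hT4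
  have hTpos : (0 : ℝ) < T := by linarith
  have hQpos : (1 : ℝ) ≤ Fintype.card Q := by
    have : 0 < Fintype.card Q := Fintype.card_pos_iff.2 ⟨q₀⟩
    exact_mod_cast this
  have hlog2 : Real.log 2 ≤ 1 := by
    have := Real.log_le_sub_one_of_pos (show (0 : ℝ) < 2 by norm_num); linarith
  have hlogQ : Real.log (Fintype.card Q) ≤ A * (d : ℝ) ^ 2 + (T + 1) := by
    have hQR : (Fintype.card Q : ℝ) ≤ 2 ^ M * (T + 2) := by exact_mod_cast hQ
    have h5 : Real.log (Fintype.card Q) ≤ Real.log (2 ^ M * (T + 2)) :=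
      Real.log_le_log (by linarith) hQR
    rw [Real.log_mul (by positivity) (by positivity), Real.log_pow] at h5
    have h6 := Real.log_le_sub_one_of_pos (show (0 : ℝ) < T + 2 by positivity)
    have h7 : (M : ℝ) * Real.log 2 ≤ M := by
      have : (0 : ℝ) ≤ M := by positivity
      nlinarith
    linarith
  have hlogQ0 : 0 ≤ Real.log (Fintype.card Q) := Real.log_nonneg hQpos
  suffices hmain : d * Real.log (1 / ε) ≤ K * T by
    rw [mul_assoc, one_div, inv_mul_le_iff₀ hK0]
    exact hmain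
  by_cases hbig : d ^ 2 ≤ T
  · have hbigR : (d : ℝ) ^ 2 ≤ T := by exact_mod_cast hbig
    have hc := counting h1 hd1 f q₀ T out ε hε0 hε hsum
    have h5 : Real.log (2 / 3) ≤ Real.log (Fintype.card Q * (3 * 4 ^ d * ε ^ (d - 1))) :=
      Real.log_le_log (by norm_num) hc
    rw [Real.log_mul (by positivity) (by positivity), Real.log_mul (by positivity) (by positivity),
      Real.log_mul (by positivity) (by positivity), Real.log_pow, Real.log_pow] at h5
    have h6 : Real.log (1 / ε) = -Real.log ε := by rw [one_div, Real.log_inv]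
    have h7 : -Real.log (2 / 3) ≤ 1 := by
      rw [← Real.log_inv]
      have := Real.log_le_sub_one_of_pos (show (0 : ℝ) < (2 / 3)⁻¹ by norm_num)
      norm_num at this ⊢; linarith
    have h8 : Real.log 3 ≤ 2 := by
      have := Real.log_le_sub_one_of_pos (show (0 : ℝ) < 3 by norm_num); linarith
    have h9 : Real.log 4 ≤ 3 := by
      have := Real.log_le_sub_one_of_pos (show (0 : ℝ) < 4 by norm_num); linarith
    have h10 : ((d - 1 : ℕ) : ℝ) = d - 1 := by
      rw [Nat.cast_sub hd1]; simp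
    rw [h10] at h5
    have h11 : (d : ℝ) * Real.log 4 ≤ d * 3 := by gcongr
    have h12 : ((d : ℝ) - 1) * Real.log (1 / ε) ≤ (A + 10) * T := by
      rw [h6]
      have : A * (d : ℝ) ^ 2 ≤ A * T := by gcongr
      nlinarith
    have h13 : (d : ℝ) * Real.log (1 / ε) ≤ 2 * (((d : ℝ) - 1) * Real.log (1 / ε)) := by
      nlinarith
    have h14 : 0 ≤ C * (4 + 12 * (32 * B + 1)) * T := by positivity
    rw [hK]
    nlinarith
  · push Not at hbig
    set k := d / 4 with hk
    have hk1 : 1 ≤ k := by omega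
    have hk4 : 4 * k ≤ d := by omega
    have hk8 : d ≤ 8 * k := by omega
    set N := T / k + 1 with hN
    have hNk : T ≤ N * k := by
      have := Nat.lt_div_mul_add (a := T) (show 0 < k by omega)
      rw [hN, Nat.add_mul, one_mul]; omega
    have hlaw : ∀ m w, law (bat f k) q₀ N m w = pw f w 0 q₀ T m := by
      intro m w
      rw [law_bat f hf]
      obtain ⟨e, he⟩ := Nat.exists_eq_add_of_le hNk
      rw [he, pw_stable f hf T hid]
    have hres := hC d k hk1 hk4 hk8 Q (bat f k) (fun t m m' => ms_rn f hf (t * k) m k m') q₀ N out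
      ε hε0 hε (by simpa only [hlaw] using hsum)
    have hkR : (1 : ℝ) ≤ k := by exact_mod_cast hk1
    have hk8R : (d : ℝ) ≤ 8 * k := by exact_mod_cast hk8
    have hbigR : (T : ℝ) + 1 ≤ (d : ℝ) ^ 2 := by exact_mod_cast hbig
    have hNT : (N : ℝ) ≤ T + 1 := by
      have : N ≤ T + 1 := by
        have := Nat.div_le_self T k
        omega
      exact_mod_cast this
    have hNd : (N : ℝ) * d ≤ 12 * T := by
      have h5 : T / k * k ≤ T := Nat.div_mul_le_self T k
      have h6 : ((T / k : ℕ) : ℝ) * k ≤ T := by exact_mod_cast h5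
      have h7 : (N : ℝ) = ((T / k : ℕ) : ℝ) + 1 := by rw [hN]; push_cast; ring
      have h8 : (0 : ℝ) ≤ ((T / k : ℕ) : ℝ) := by positivity
      rw [h7]
      nlinarith
    have hlogB : Real.log (Fintype.card Q) ≤ B * (d : ℝ) ^ 2 := by
      rw [hB]; nlinarith
    have h5 : Real.log (Fintype.card Q) / k ≤ 8 * B * d := by
      rw [div_le_iff₀ (by linarith)]
      have : B * (d : ℝ) ^ 2 ≤ B * (d * (8 * k)) := by
        rw [sq]; gcongr
      nlinarith
    have h6 : N * Real.log (Fintype.card Q) / Real.exp d ≤ 24 * B * d := by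
      rw [div_le_iff₀ (Real.exp_pos _)]
      have h7 := pow_four_le_exp d (by linarith)
      have h8 : (N : ℝ) * Real.log (Fintype.card Q) ≤ (d : ℝ) ^ 2 * (B * (d : ℝ) ^ 2) := by
        gcongr; linarith
      have h9 : (d : ℝ) ^ 2 * (B * (d : ℝ) ^ 2) ≤ B * (24 * Real.exp d) := by
        have : (d : ℝ) ^ 2 * (B * (d : ℝ) ^ 2) = B * (d : ℝ) ^ 4 := by ring
        rw [this]; gcongr
      have h10 : B * (24 * Real.exp d) * 1 ≤ B * (24 * Real.exp d) * d := by
        gcongr; linarith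
      nlinarith
    have h7 : (N : ℝ) * (Real.log (Fintype.card Q) / k + d
        + N * Real.log (Fintype.card Q) / Real.exp d) ≤ N * ((32 * B + 1) * d) := by
      gcongr; linarith
    have h8 : (N : ℝ) * ((32 * B + 1) * d) ≤ (32 * B + 1) * (12 * T) := by
      have : (N : ℝ) * ((32 * B + 1) * d) = (32 * B + 1) * (N * d) := by ring
      rw [this]; gcongr
    have h9 : C * (d + N * (Real.log (Fintype.card Q) / k + d
        + N * Real.log (Fintype.card Q) / Real.exp d)) ≤ C * ((4 + 12 * (32 * B + 1)) * T) := by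
      gcongr; linarith
    have h10 : 0 ≤ 2 * (A + 10) * T := by positivity
    rw [hK]
    nlinarith

end Crest.Agent.SL.Fin7
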