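import Crest.Agent.SL.Defs

/-! Auxiliary lemmas for the slicing job: boxes determine domination of measures. -/

set_option autoImplicit false

namespace Crest.Agent.SL

open MeasureTheory ProbabilityTheory Filter Topology Set
open scoped ENNReal symmDiff

/-- measurable boxes -/
def slBoxes (α : Type) [MeasurableSpace α] (n : ℕ) : Set (Set (Fin n → α)) :=
  Set.pi univ '' Set.pi univ fun _ => {s : Set α | MeasurableSet s}

theorem slBoxes_semiring (α : Type) [MeasurableSpace α] (n : ℕ) :
    IsSetSemiring (slBoxes α (n + 1)) where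
  empty_mem := ⟨fun _ => ∅, fun _ _ => MeasurableSet.empty, by simp⟩
  inter_mem := by
    rintro _ ⟨S, hS, rfl⟩ _ ⟨T, hT, rfl⟩
    exact ⟨fun i => S i ∩ T i, fun i _ => (hS i trivial).inter (hT i trivial),
      by rw [Set.pi_inter_distrib]⟩
  sdiff_eq_sUnion' := by
    classical
    rintro _ ⟨S, hS, rfl⟩ _ ⟨T, hT, rfl⟩
    let B : Fin (n + 1) → Set (Fin (n + 1) → α) := fun j =>
      Set.pi univ fun i => if i < j then S i ∩ T i else if i = j then S i \ T i else S i
    refine ⟨Finset.univ.image B, ?_, ?_, ?_⟩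
    · intro s hs
      simp only [Finset.coe_image, Finset.coe_univ, image_univ, mem_range] at hs
      obtain ⟨j, rfl⟩ := hs
      refine ⟨_, fun i _ => ?_, rfl⟩
      have h1 : MeasurableSet (S i) := hS i trivial
      have h2 : MeasurableSet (T i) := hT i trivial
      show MeasurableSet _
      split_ifs
      exacts [h1.inter h2, h1.diff h2, h1]
    · have key : ∀ a b : Fin (n + 1), a < b → Disjoint (B a) (B b) := by
        intro a b hab
        rw [Set.disjoint_left]
        intro x hx hy
        have h1 := hx a trivial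
        have h2 := hy a trivial
        simp only [lt_irrefl, if_false, if_true] at h1
        simp only [hab, if_true] at h2
        exact h1.2 h2.2
      intro s hs t ht hst
      simp only [Finset.coe_image, Finset.coe_univ, image_univ, mem_range] at hs ht
      obtain ⟨a, rfl⟩ := hs
      obtain ⟨b, rfl⟩ := ht
      rcases lt_trichotomy a b with h | h | h
      · exact key a b h
      · exact absurd (h ▸ rfl) hst
      · exact (key b a h).symm
    · ext x
      simp only [Finset.coe_image, Finset.coe_univ, image_univ, sUnion_range, mem_iUnion,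
        Set.mem_sdiff, Set.mem_univ_pi]
      constructor
      · rintro ⟨h1, h2⟩
        push Not at h2
        let F : Finset (Fin (n + 1)) := Finset.univ.filter fun i => x i ∉ T i
        have hF : F.Nonempty := by
          obtain ⟨i, hi⟩ := h2
          exact ⟨i, by simp [F, hi]⟩
        refine ⟨F.min' hF, fun i _ => ?_⟩
        show x i ∈ (if i < F.min' hF then S i ∩ T i else if i = F.min' hF then S i \ T i else S i)
        split_ifs with ha hb
        · refine ⟨h1 i, ?_⟩
          by_contra hc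
          exact absurd (F.min'_le i (by simp [F, hc])) (not_le.2 ha)
        · refine ⟨h1 i, ?_⟩
          have := F.min'_mem hF
          rw [← hb] at this
          simpa [F] using this
        · exact h1 i
      · rintro ⟨j, hj⟩
        refine ⟨fun i => ?_, fun h => ?_⟩
        · have := hj i trivial
          dsimp only at this
          split_ifs at this
          exacts [this.1, this.1, this]
        · have := hj j trivial
          simp only [lt_irrefl, if_false, if_true] at this
          exact this.2 (h j)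

theorem sl_le_of_boxes {α : Type} [MeasurableSpace α] {n : ℕ}
    (μ ν : Measure (Fin (n + 1) → α)) [IsFiniteMeasure ν]
    (h : ∀ S : Fin (n + 1) → Set α, (∀ i, MeasurableSet (S i)) →
      μ (Set.pi univ S) ≤ ν (Set.pi univ S)) : μ ≤ ν := by
  have hfin : IsFiniteMeasure μ := ⟨by
    have := h (fun _ => univ) fun _ => MeasurableSet.univ
    rw [Set.pi_univ] at this
    exact this.trans_lt (measure_lt_top _ _)⟩
  have hC := slBoxes_semiring α n
  have hgen : (inferInstance : MeasurableSpace (Fin (n + 1) → α))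
      = MeasurableSpace.generateFrom (slBoxes α (n + 1)) := generateFrom_pi.symm
  have hsup : ∀ t ∈ supClosure (slBoxes α (n + 1)), μ t ≤ ν t := by
    intro t ht
    obtain ⟨P, hP⟩ := hC.mem_supClosure_iff.1 ht
    have hm : ∀ s ∈ P.parts, MeasurableSet s := fun s hs => by
      obtain ⟨S, hS, rfl⟩ := hP hs
      exact MeasurableSet.univ_pi fun i => hS i trivial
    have ht' : t = ⋃ s ∈ P.parts, s := by
      have := P.sup_parts
      rw [Finset.sup_set_eq_biUnion] at this
      exact this.symm
    have hd : (P.parts : Set (Set (Fin (n + 1) → α))).PairwiseDisjoint (fun s => s) :=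
      P.supIndep.pairwiseDisjoint
    rw [ht', measure_biUnion_finset hd hm, measure_biUnion_finset hd hm]
    refine Finset.sum_le_sum fun s hs => ?_
    obtain ⟨S, hS, rfl⟩ := hP hs
    exact h S fun i => hS i trivial
  rw [Measure.le_iff]
  intro s hs
  refine ENNReal.le_of_forall_pos_le_add fun ε hε _ => ?_
  obtain ⟨t, ht, hts⟩ := exists_measure_symmDiff_lt_of_generateFrom_isSetSemiring
    (μ := μ + ν) hC ⟨{univ}, countable_singleton _, by
      rintro _ rfl
      exact ⟨fun _ => univ, fun _ _ => MeasurableSet.univ, Set.pi_univ _⟩, by simp⟩ hgen hs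
    (ε := ε) (by exact_mod_cast hε)
  rw [Measure.add_apply] at hts
  have h1 : μ s ≤ μ t + μ (t ∆ s) := by
    refine (measure_mono ?_).trans (measure_union_le _ _)
    intro x hx
    by_cases hxt : x ∈ t
    · exact Or.inl hxt
    · exact Or.inr (Or.inr ⟨hx, hxt⟩)
  have h2 : ν t ≤ ν s + ν (t ∆ s) := by
    refine (measure_mono ?_).trans (measure_union_le _ _)
    intro x hx
    by_cases hxt : x ∈ s
    · exact Or.inl hxt
    · exact Or.inr (Or.inl ⟨hx, hxt⟩)
  calc μ s ≤ ν s + ν (t ∆ s) + μ (t ∆ s) := h1.trans (by gcongr; exact (hsup t ht).trans h2)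
    _ = ν s + (μ (t ∆ s) + ν (t ∆ s)) := by ring
    _ ≤ ν s + ε := by gcongr

theorem sl_tendsto_prod {ι : Type} (s : Finset ι) (t : ι → ℕ → ℝ≥0∞) (a : ι → ℝ≥0∞)
    (ha : ∀ i ∈ s, a i ≠ 0) (h : ∀ i ∈ s, Tendsto (t i) atTop (𝓝 (a i))) :
    Tendsto (fun m => ∏ i ∈ s, t i m) atTop (𝓝 (∏ i ∈ s, a i)) := by
  classical
  induction s using Finset.induction_on with
  | empty => simp
  | insert i s hi ih =>
    simp only [Finset.prod_insert hi]
    refine ENNReal.Tendsto.mul (h i (by simp)) (Or.inl (ha i (by simp)))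
      (ih (fun j hj => ha j (by simp [hj])) fun j hj => h j (by simp [hj])) (Or.inl ?_)
    exact Finset.prod_ne_zero_iff.2 fun j hj => ha j (by simp [hj])

/-- lower semicontinuity of the product of quotients -/
theorem sl_prod_le_liminf {n : ℕ} (A : Fin n → ℕ → ℝ≥0∞) (b v : ℕ → ℝ≥0∞) (a : Fin n → ℝ≥0∞)
    (i : ℝ≥0∞) (hi : i ≠ ⊤) (hA : ∀ j, Tendsto (fun m => A j m / b m) atTop (𝓝 (a j)))
    (hv : Tendsto (fun m => v m / b m) atTop (𝓝 i)) (hb : ∀ m, b m ≠ ⊤) (hv0 : ∀ m, v m ≠ 0) :
    i⁻¹ ^ n * ∏ j, a j ≤ liminf (fun m => (v m)⁻¹ ^ n * ∏ j, A j m) atTop := by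
  by_cases h0 : ∃ j, a j = 0
  · obtain ⟨j, hj⟩ := h0
    rw [Finset.prod_eq_zero (Finset.mem_univ j) hj]
    simp
  push Not at h0
  have hi0 : i⁻¹ ≠ 0 := ENNReal.inv_ne_zero.2 hi
  have h1 : Tendsto (fun m => ∏ j, ((v m / b m)⁻¹ * (A j m / b m))) atTop
      (𝓝 (∏ j, (i⁻¹ * a j))) := by
    refine sl_tendsto_prod Finset.univ (fun j m => (v m / b m)⁻¹ * (A j m / b m)) _
      (fun j _ => mul_ne_zero hi0 (h0 j)) fun j _ => ?_
    exact ENNReal.Tendsto.mul (tendsto_inv_iff.2 hv) (Or.inl hi0) (hA j) (Or.inl (h0 j))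
  have e1 : i⁻¹ ^ n * ∏ j, a j = ∏ j, (i⁻¹ * a j) := by
    rw [Finset.prod_mul_distrib]; simp
  rw [e1, ← h1.liminf_eq]
  refine liminf_le_liminf (Eventually.of_forall fun m => ?_)
  have e2 : (v m)⁻¹ ^ n * ∏ j, A j m = ∏ j, ((v m)⁻¹ * A j m) := by
    rw [Finset.prod_mul_distrib]; simp
  rw [e2]
  refine Finset.prod_le_prod' fun j _ => ?_
  by_cases hb0 : b m = 0
  · rw [hb0, ENNReal.div_zero (hv0 m)]
    simp
  · rw [ENNReal.inv_div (Or.inl (hb m)) (Or.inl hb0), div_eq_mul_inv, div_eq_mul_inv]
    refine le_of_eq ?_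
    calc b m * (v m)⁻¹ * (A j m * (b m)⁻¹) = (b m * (b m)⁻¹) * ((v m)⁻¹ * A j m) := by ring
      _ = _ := by rw [ENNReal.mul_inv_cancel hb0 (hb m), one_mul]

end Crest.Agent.SL
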